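import Vale.Agent.P221.H246.Tau
import Vale.Agent.P221.T.H924.StdS
import Vale.Agent.P251.Z.PFree
import Vale.Agent.P221.T.H520.EtaR

/-!
# P221, part T (helper246): the right unit on the homotopy of the completion `W` of `B ⊗ B`

* `vcl Φ i : 𝟙⟦sV p (i + 1)⟧ ⟶ B` : the class `v_{i+1}`;
* `Fw w : π_{2*}(B ⊗ B) →+ π_* W`; left multiplications (`Fw_left`) and right multiplications
  (`Fw_right`) with elements of `π_{2*} B`;
* `Om : Z[v][t] →+* π_{2*}(B ⊗ B)` for a ring `Z` (the integers localised at `p`); `Fw_Om`.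
-/

open CategoryTheory MonoidalCategory MonObj Limits Pretriangulated

set_option linter.unusedSectionVars false

universe v u

namespace Vale.Agent.P221.H246

open Vale.Agent.P251 Vale.Agent.P251.S Vale.Agent.P251.T Vale.Agent.P251.M Vale.Agent.P251.F
  Vale.Agent.P251.I EvenSpheres Vale.Agent.P257.H80 Vale.Agent.P093.Nak
  Vale.Agent.P093.N.HH

open Vale.Agent.P251.X hiding lawOf
open Vale.Agent.P221.T

variable {𝒯 : Type u} [Category.{0} 𝒯] [Preadditive 𝒯] [HasZeroObject 𝒯]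
    [HasShift 𝒯 ℤ] [∀ n : ℤ, (shiftFunctor 𝒯 n).Additive] [Pretriangulated 𝒯] [IsTriangulated 𝒯]
    [MonoidalCategory 𝒯] [SymmetricCategory 𝒯] [TensorTriangulated 𝒯] [MonoidalClosed 𝒯]
    [HasCoproducts.{0} 𝒯] [HasProducts.{0} 𝒯] [StableCat 𝒯]

/-! ### Right multiplications -/

section right

variable {R : 𝒯} [MonObj R]

theorem fm_rmul (X : 𝒯) {m : ℤ} (v : (𝟙_ 𝒯)⟦m⟧ ⟶ R) : fm (tensorLeft X) (rmul v) =
    ((ρ_ (X ⊗ R)).inv)⟦m⟧' ≫ fm (tensorLeft (X ⊗ R)) v ≫ (α_ X R R).hom ≫ X ◁ μ[R] := by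
  have h1 : fm (tensorLeft X) (fm (tensorLeft R) v ≫ μ[R]) =
      fm (tensorLeft X) (fm (tensorLeft R) v) ≫ (X ◁ μ[R]) := fm_comp _ _ _
  have h2 : fm (tensorLeft X) (fm (tensorLeft R) v) = ((α_ X R (𝟙_ 𝒯)).inv)⟦m⟧' ≫
      fm (tensorLeft (X ⊗ R)) v ≫ (α_ X R R).hom := by
    rw [← Category.assoc, ← fm_assoc, Category.assoc, Iso.inv_hom_id, Category.comp_id]
  rw [rmul, shift_fm, h1, h2, Category.assoc, Category.assoc]
  change (X ◁ (ρ_ R).inv)⟦m⟧' ≫ _ = _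
  rw [← Functor.map_comp_assoc]
  congr 2
  simp

theorem gc_fm_rmul {X : 𝒯} {m n l : ℤ} (h : m + n = l) (y : (𝟙_ 𝒯)⟦n⟧ ⟶ X ⊗ R)
    (v : (𝟙_ 𝒯)⟦m⟧ ⟶ R) : gc h y (fm (tensorLeft X) (rmul v)) =
      (sphAdd h).hom ≫ (y ⊗ₘ v) ≫ (α_ X R R).hom ≫ X ◁ μ[R] := by
  have h1 : fm (tensorLeft X) (rmul v) =
      (tensorSph m (X ⊗ R)).inv ≫ ((X ⊗ R) ◁ v) ≫ (α_ X R R).hom ≫ X ◁ μ[R] := by
    rw [fm_rmul]
    unfold fm tensorSph
    simp only [Iso.trans_inv, Category.assoc]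
    rfl
  have h2 : y⟦m⟧' ≫ (tensorSph m (X ⊗ R)).inv =
      (tensorSph m ((𝟙_ 𝒯)⟦n⟧)).inv ≫ (y ▷ ((𝟙_ 𝒯)⟦m⟧)) := by
    rw [Iso.comp_inv_eq, Category.assoc, tensorSph_naturality, Iso.inv_hom_id_assoc]
  unfold gc
  rw [h1, reassoc_of% h2, MonoidalCategory.tensorHom_def]
  simp only [sphAdd, Iso.trans_hom, Iso.symm_hom, Category.assoc]
  rfl

theorem gmul_inrM {X : 𝒯} [MonObj X] {m n l : ℤ} (hm : 0 ≤ m) (hn : 0 ≤ n) (h : n + m = l)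
    (h' : 2 * m + 2 * n = 2 * l) (y : (stdEven 𝒯).S n ⟶ X ⊗ R) (a : (stdEven 𝒯).S m ⟶ R) :
    (stdSph l).inv ≫ gmul h y (a ≫ inrM X R) =
      gc h' ((stdSph n).inv ≫ y) (fm (tensorLeft X) (rmul ((stdSph m).inv ≫ a))) := by
  have h1 := H924.sphAdd_mu (𝒯 := 𝒯) hn hm h h'
  have h2 : (sphAdd (𝒯 := 𝒯) h').hom ≫ ((stdSph n).inv ⊗ₘ (stdSph m).inv) =
      (stdSph l).inv ≫ ((stdEven 𝒯).mu n m l h).inv := by
    rw [← h1]
    simp
  have h3 : (y ⊗ₘ a ≫ inrM X R) = (y ⊗ₘ a) ≫ ((X ⊗ R) ◁ inrM X R) := by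
    rw [← id_tensorHom, tensorHom_comp_tensorHom, Category.comp_id]
  rw [gc_fm_rmul, ← tensorHom_comp_tensorHom, Category.assoc, reassoc_of% h2, gmul,
    EvenSpheres.ext, Category.assoc, h3, Category.assoc, Vale.Agent.P251.Z.mul_inrM]

end right

/-! ### Degrees and the map `Fw` -/

theorem sV_eq (p : ℕ) [hp : Fact p.Prime] (i : ℕ) :
    sV p (i + 1) = 2 * ((p ^ (i + 1) - 1 : ℕ) : ℤ) := by
  rw [sV, Nat.cast_sub (Nat.one_le_pow _ _ hp.out.pos)]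
  push_cast
  ring

theorem mul_sI {R Y : 𝒯} [MonObj R] (M : ModStr R Y) {m k₁ k k' : ℤ} (hk : k₁ = 2 * m)
    (h : k + k₁ = k') (h' : k + 2 * m = k') (a : (stdEven 𝒯).S m ⟶ R)
    (y : (𝟙_ 𝒯)⟦k⟧ ⟶ Y) :
    mul M h ((sI hk).hom ≫ a) y = mul M h' ((stdSph m).inv ≫ a) y := by
  subst hk
  rw [sI_rfl]
  rfl

section Fw

variable {B W : 𝒯} [MonObj B] [IsCommMonObj B] (w : B ⊗ B ⟶ W)

/-- the map `π_{2*}(B ⊗ B) → π_* W` -/
noncomputable def Fw : HRing (stdEven 𝒯) (B ⊗ B) →+ PiM W :=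
  DirectSum.toAddMonoid fun n => (PiM.of W (2 * n)).comp
    { toFun := fun x => (stdSph n).inv ≫ x ≫ w
      map_zero' := by rw [zero_comp, comp_zero]
      map_add' := fun _ _ => by rw [Preadditive.add_comp, Preadditive.comp_add] }

theorem Fw_of {n k : ℤ} (h : k = 2 * n) (x : (stdEven 𝒯).S n ⟶ B ⊗ B) :
    Fw w (HRing.of (stdEven 𝒯) (B ⊗ B) n x) = PiM.of W k ((sI h).hom ≫ x ≫ w) := by
  subst h
  rw [Fw, DirectSum.toAddMonoid_of, sI_rfl]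
  rfl

theorem map_inlM_mul {m n l : ℤ} (h : m + n = l) (a : (stdEven 𝒯).S m ⟶ B)
    (y : (stdEven 𝒯).S n ⟶ B ⊗ B) :
    HRing.map (E := stdEven 𝒯) (inlM B B) (HRing.of (stdEven 𝒯) B m a) *
      HRing.of (stdEven 𝒯) (B ⊗ B) n y =
        HRing.of (stdEven 𝒯) (B ⊗ B) l (gsmul (ModStr.free B B) h a y) := by
  have h1 := asR_smul (E := stdEven 𝒯) (A := B) (HRing.of (stdEven 𝒯) B m a)
    (MP.of (stdEven 𝒯) B B n y)
  rw [MP.smul_of h] at h1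
  exact h1.symm

variable {w} {MW : ModStr B W} (hw : (ModStr.free B B).IsLinear MW w)

include hw in
/-- left multiplication with a class -/
theorem Fw_of_mul {m n k : ℤ} (hm : 0 ≤ m) (hn : 0 ≤ n) (hk : k = 2 * m)
    (a : (stdEven 𝒯).S m ⟶ B) (y : (stdEven 𝒯).S n ⟶ B ⊗ B) {k' : ℤ} (h : 2 * n + k = k') :
    Fw w (HRing.map (E := stdEven 𝒯) (inlM B B) (HRing.of (stdEven 𝒯) B m a) *
      HRing.of (stdEven 𝒯) (B ⊗ B) n y) =
        PiM.of W k' (mul MW h ((sI hk).hom ≫ a) ((sI (rfl : 2 * n = 2 * n)).hom ≫ y ≫ w)) := by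
  obtain ⟨l, rfl⟩ : ∃ l, k' = 2 * l := ⟨m + n, by omega⟩
  have hl : m + n = l := by omega
  rw [map_inlM_mul hl, Fw_of w (rfl : 2 * l = 2 * l), mul_sI MW hk h (by omega), sI_rfl, sI_rfl,
    ← gsmul_comp (ModStr.free B B) MW hw]
  congr 1
  exact (H924.mul_eq_gsmul MW hm hn hl (by omega) a (y ≫ w)).symm

end Fw

section main

variable {D : MUData 𝒯} {p : ℕ} [hp : Fact p.Prime] {B : 𝒯} [MonObj B] [IsCommMonObj B]
  {b : D.R ⟶ B} [IsMonHom b]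

variable (p) in
/-- **the class `v_{i+1}`** -/
noncomputable def vcl (Φ : MvPolynomial ℕ ℤ →+* HRing (stdEven 𝒯) B) (i : ℕ) :
    (𝟙_ 𝒯)⟦sV p (i + 1)⟧ ⟶ B :=
  (sI (sV_eq p i)).hom ≫ (Φ (MvPolynomial.X i)) ((p ^ (i + 1) - 1 : ℕ) : ℤ)

variable {Φ : MvPolynomial ℕ ℤ →+* HRing (stdEven 𝒯) B}

/-- the values on the variables of the classifying map of a Hazewinkel law are homogeneous -/
theorem isHomog_hom (hb : IsBPMon p b) (hΦ : lawOf b = (haz p).map Φ) (i : ℕ) :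
    IsHomog B ((p ^ (i + 1) - 1 : ℕ) : ℤ) (Φ (MvPolynomial.X i)) := by
  have h1 : Φ = vS p (typ p (pLoc_of_locO hb.loc) (lawOf b)) := by
    rw [hΦ, typ_haz, vS_seqV]
  have h2 := isHomog_typ (p := p) (pLoc_of_locO hb.loc) b (p ^ (i + 1) - 2)
  rw [h1, vS_X]
  have h3 : 2 ≤ p ^ (i + 1) := two_le_pow hp.out (Nat.succ_ne_zero i)
  have h4 : ((p ^ (i + 1) - 1 : ℕ) : ℤ) = ((p ^ (i + 1) - 2 : ℕ) : ℤ) + 1 := by
    omega
  rw [h4]
  exact h2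

theorem of_X (hb : IsBPMon p b) (hΦ : lawOf b = (haz p).map Φ) (i : ℕ) :
    HRing.of (stdEven 𝒯) B ((p ^ (i + 1) - 1 : ℕ) : ℤ)
      ((Φ (MvPolynomial.X i)) ((p ^ (i + 1) - 1 : ℕ) : ℤ)) = Φ (MvPolynomial.X i) := by
  obtain ⟨a, ha⟩ := isHomog_hom hb hΦ i
  rw [ha]
  congr 1
  exact DirectSum.of_eq_same _ _

end main

/-! ### Coefficients -/

theorem torsionFree_PiM {p : ℕ} [hp : Fact p.Prime] {W : 𝒯} (cW : H395.PComplete p W) {m : ℕ}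
    (hm : ¬ p ∣ m) {x : PiM W} (h : m • x = 0) : x = 0 := by
  have hu : IsUnit (m : ℤ_[p]) := by
    rw [PadicInt.isUnit_iff, PadicInt.norm_natCast_eq_one_iff]
    exact (Nat.Prime.coprime_iff_not_dvd hp.out).2 hm
  ext k : 1
  let : Module ℤ_[p] ((𝟙_ 𝒯)⟦k⟧ ⟶ W) := H509.zpm cW _
  have h1 : m • x k = 0 := by
    have h2 := congrArg (fun z : PiM W => z k) h
    exact h2
  rw [← Nat.cast_smul_eq_nsmul ℤ_[p]] at h1
  exact (hu.smul_eq_zero).1 h1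

section coeffs

variable {D : MUData 𝒯} {F : SpaceFunctor 𝒯} {e : F.S.obj CCF ≅ (stdEven 𝒯).L}
  {p : ℕ} [hp : Fact p.Prime] {B : 𝒯} [MonObj B] [IsCommMonObj B]
  {b : D.R ⟶ B} [IsMonHom b] {Z : Type} [CommRing Z]

/-- `Z[v] → π_{2*} B` -/
noncomputable def PhiT (ℓ : Z →+* HRing (stdEven 𝒯) B)
    (Φ : MvPolynomial ℕ ℤ →+* HRing (stdEven 𝒯) B) :
    MvPolynomial ℕ Z →+* HRing (stdEven 𝒯) B :=
  MvPolynomial.eval₂Hom ℓ fun i => Φ (MvPolynomial.X i)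

theorem PhiT_C (ℓ : Z →+* HRing (stdEven 𝒯) B) (Φ : MvPolynomial ℕ ℤ →+* HRing (stdEven 𝒯) B)
    (z : Z) : PhiT ℓ Φ (MvPolynomial.C z) = ℓ z := MvPolynomial.eval₂Hom_C _ _ _

theorem PhiT_X (ℓ : Z →+* HRing (stdEven 𝒯) B) (Φ : MvPolynomial ℕ ℤ →+* HRing (stdEven 𝒯) B)
    (i : ℕ) : PhiT ℓ Φ (MvPolynomial.X i) = Φ (MvPolynomial.X i) :=
  MvPolynomial.eval₂Hom_X' _ _ _

variable (p b) in
/-- `Z[v][t] → π_{2*}(B ⊗ B)` -/
noncomputable def Om (ℓ : Z →+* HRing (stdEven 𝒯) B)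
    (Φ : MvPolynomial ℕ ℤ →+* HRing (stdEven 𝒯) B) :
    MvPolynomial ℕ (MvPolynomial ℕ Z) →+* HRing (stdEven 𝒯) (B ⊗ B) :=
  (Psi p b).comp (MvPolynomial.map (PhiT ℓ Φ))

theorem Om_C (ℓ : Z →+* HRing (stdEven 𝒯) B) (Φ : MvPolynomial ℕ ℤ →+* HRing (stdEven 𝒯) B)
    (c : MvPolynomial ℕ Z) : Om p b ℓ Φ (MvPolynomial.C c) =
      HRing.map (E := stdEven 𝒯) (inlM B B) (PhiT ℓ Φ c) := by
  rw [Om, RingHom.comp_apply, MvPolynomial.map_C, Psi_C]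

theorem Om_X (ℓ : Z →+* HRing (stdEven 𝒯) B) (Φ : MvPolynomial ℕ ℤ →+* HRing (stdEven 𝒯) B)
    (k : ℕ) : Om p b ℓ Φ (MvPolynomial.X k) = Scl p b k := by
  rw [Om, RingHom.comp_apply, MvPolynomial.map_X, Psi_X]

theorem Om_monomial (ℓ : Z →+* HRing (stdEven 𝒯) B)
    (Φ : MvPolynomial ℕ ℤ →+* HRing (stdEven 𝒯) B) (E : ℕ →₀ ℕ) (c : MvPolynomial ℕ Z) :
    Om p b ℓ Φ (MvPolynomial.monomial E c) =
      HRing.map (E := stdEven 𝒯) (inlM B B) (PhiT ℓ Φ c) * Sm p b E := by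
  have h1 : MvPolynomial.monomial E c = MvPolynomial.C c * MvPolynomial.monomial E 1 := by
    rw [MvPolynomial.C_mul_monomial, _root_.mul_one]
  rw [h1, map_mul, Om_C, Om, RingHom.comp_apply, MvPolynomial.map_monomial, map_one,
    Psi_monomial]

/-- **the right unit over `π_{2*}(B ⊗ B)`** -/
theorem Om_eta (hb : IsBPMon p b) {Φ : MvPolynomial ℕ ℤ →+* HRing (stdEven 𝒯) B}
    (hΦ : lawOf b = (haz p).map Φ) (ℓ : Z →+* HRing (stdEven 𝒯) B)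
    (φ0 ψ : MvPolynomial ℕ ℤ →+* MvPolynomial ℕ (MvPolynomial ℕ Z))
    (h0 : ∀ i, φ0 (MvPolynomial.X i) = MvPolynomial.C (MvPolynomial.X i))
    {g : InvSeries (MvPolynomial ℕ (MvPolynomial ℕ Z))} (hg : g ∈ strict _)
    (hc : ∀ k, g.c (p ^ (k + 1) - 1) = MvPolynomial.X k)
    (h : g⁻¹ • (haz p).map φ0 = (haz p).map ψ) (i : ℕ) :
    Om p b ℓ Φ (ψ (MvPolynomial.X i)) =
      HRing.map (E := stdEven 𝒯) (inrM B B) (Φ (MvPolynomial.X i)) := by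
  have hBB : PLoc p (HRing (stdEven 𝒯) (B ⊗ B)) := pLoc_of_locO (LocO.tensor hb.loc B)
  have h1 : (Om p b ℓ Φ).comp φ0 = (HRing.map (E := stdEven 𝒯) (inlM B B)).comp Φ := by
    apply MvPolynomial.ringHom_ext
    · intro r
      simp
    · intro i
      rw [RingHom.comp_apply, h0, Om_C, PhiT_X, RingHom.comp_apply]
  have h2 : ((haz p).map φ0).map (Om p b ℓ Φ) =
      (lawOf b).map (HRing.map (E := stdEven 𝒯) (inlM B B)) := by
    rw [Law.map_map, h1, hΦ, Law.map_map]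
  have h3 : (InvSeries.map (Om p b ℓ Φ) g)⁻¹ •
      (lawOf b).map (HRing.map (E := stdEven 𝒯) (inlM B B)) =
        (haz p).map ((Om p b ℓ Φ).comp ψ) := by
    rw [← h2, ← map_inv, ← InvSeries.map_smul, h, Law.map_map]
  have h4 : (thB b)⁻¹ • (lawOf b).map (HRing.map (E := stdEven 𝒯) (inlM B B)) =
      (haz p).map ((HRing.map (E := stdEven 𝒯) (inrM B B)).comp Φ) := by
    rw [← lawOf_comp, thB, ser_inv, ser_smul, lawOf_comp, hΦ, Law.map_map]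
  have h5 : InvSeries.map (Om p b ℓ Φ) g = thB b := by
    refine eq_of_typical p hBB (F := (lawOf b).map (HRing.map (E := stdEven 𝒯) (inlM B B)))
      (map_mem_strict _ hg) (ser_strict _ _) ⟨_, h3⟩ ⟨_, h4⟩ fun k => ?_
    rw [InvSeries.c_map, hc, Om_X]
    rfl
  rw [h5, h4] at h3
  have h6 := haz_map_injective p hBB h3
  exact (congrArg (fun f : MvPolynomial ℕ ℤ →+* HRing (stdEven 𝒯) (B ⊗ B) =>
    f (MvPolynomial.X i)) h6).symm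

variable {W : 𝒯} {w : B ⊗ B ⟶ W} {MW : ModStr B W}

/-- left multiplications -/
theorem Fw_left (hb : IsBPMon p b) {Φ : MvPolynomial ℕ ℤ →+* HRing (stdEven 𝒯) B}
    (hΦ : lawOf b = (haz p).map Φ) (hw : (ModStr.free B B).IsLinear MW w)
    (cW : H395.PComplete p W) (kk : KK p →+* AddMonoid.End (PiM W))
    (kk_v : ∀ (i : ℕ) {k k' : ℤ} (h : k + sV p (i + 1) = k') (y : (𝟙_ 𝒯)⟦k⟧ ⟶ W),
      kk (MvPolynomial.X i) (PiM.of W k y) = PiM.of W k' (mul MW h (vcl p Φ i) y))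
    (hZ : ∀ z : Z, ∃ (m : ℕ) (a : ℤ), ¬ p ∣ m ∧ (m : Z) * z = a)
    (ℓ : Z →+* HRing (stdEven 𝒯) B) (z0 : Z →+* ℤ_[p]) (c : MvPolynomial ℕ Z) :
    ∀ (n : ℤ), 0 ≤ n → ∀ y : (stdEven 𝒯).S n ⟶ B ⊗ B,
      Fw w (HRing.map (E := stdEven 𝒯) (inlM B B) (PhiT ℓ Φ c) *
        HRing.of (stdEven 𝒯) (B ⊗ B) n y) =
          kk (MvPolynomial.map z0 c) (Fw w (HRing.of (stdEven 𝒯) (B ⊗ B) n y)) := by
  induction c using MvPolynomial.induction_on with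
  | C z =>
    intro n hn y
    obtain ⟨m, a, hm, hma⟩ := hZ z
    rw [PhiT_C, MvPolynomial.map_C, ← sub_eq_zero]
    apply torsionFree_PiM cW hm
    have h1 : m • Fw w (HRing.map (E := stdEven 𝒯) (inlM B B) (ℓ z) *
        HRing.of (stdEven 𝒯) (B ⊗ B) n y) = a • Fw w (HRing.of (stdEven 𝒯) (B ⊗ B) n y) := by
      rw [← map_nsmul, ← map_zsmul, nsmul_eq_mul, zsmul_eq_mul, ← _root_.mul_assoc]
      congr 2
      rw [← map_natCast (HRing.map (E := stdEven 𝒯) (inlM B B)) m, ← map_natCast ℓ m, ← map_mul,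
        ← map_mul, hma, map_intCast, map_intCast]
    have h2 : m • kk (MvPolynomial.C (z0 z)) (Fw w (HRing.of (stdEven 𝒯) (B ⊗ B) n y)) =
        a • Fw w (HRing.of (stdEven 𝒯) (B ⊗ B) n y) := by
      have h3 : (m : KK p) * MvPolynomial.C (z0 z) = (a : KK p) := by
        rw [← map_natCast (MvPolynomial.C : ℤ_[p] →+* KK p) m, ← map_natCast z0 m, ← map_mul,
          ← map_mul, hma, map_intCast, map_intCast]
      have h4 := congrArg (fun f => kk f (Fw w (HRing.of (stdEven 𝒯) (B ⊗ B) n y))) h3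
      rw [map_mul, map_natCast, map_intCast] at h4
      exact h4
    rw [smul_sub, h1, h2, sub_self]
  | add c d hc hd =>
    intro n hn y
    rw [map_add, map_add, _root_.add_mul, map_add, hc n hn y, hd n hn y, map_add, map_add]
    rfl
  | mul_X c i hc =>
    intro n hn y
    have hm : (0 : ℤ) ≤ ((p ^ (i + 1) - 1 : ℕ) : ℤ) := Int.natCast_nonneg _
    have h1 : Fw w (HRing.map (E := stdEven 𝒯) (inlM B B) (Φ (MvPolynomial.X i)) *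
        HRing.of (stdEven 𝒯) (B ⊗ B) n y) =
          kk (MvPolynomial.X i) (Fw w (HRing.of (stdEven 𝒯) (B ⊗ B) n y)) := by
      rw [Fw_of w (rfl : 2 * n = 2 * n), kk_v i rfl, ← of_X hb hΦ i,
        Fw_of_mul hw hm hn (sV_eq p i) _ _ rfl]
      rfl
    have h2 := map_inlM_mul (rfl : ((p ^ (i + 1) - 1 : ℕ) : ℤ) + n = _)
      ((Φ (MvPolynomial.X i)) ((p ^ (i + 1) - 1 : ℕ) : ℤ)) y
    rw [of_X hb hΦ i] at h2
    have e1 : HRing.map (E := stdEven 𝒯) (inlM B B) (PhiT ℓ Φ (c * MvPolynomial.X i)) =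
        HRing.map (E := stdEven 𝒯) (inlM B B) (PhiT ℓ Φ c) *
          HRing.map (E := stdEven 𝒯) (inlM B B) (Φ (MvPolynomial.X i)) := by
      rw [map_mul, PhiT_X, map_mul]
    have e2 : kk (MvPolynomial.map z0 (c * MvPolynomial.X i)) =
        kk (MvPolynomial.map z0 c) * kk (MvPolynomial.X i) := by
      rw [map_mul, MvPolynomial.map_X, map_mul]
    rw [e1, e2, _root_.mul_assoc, h2, hc _ (by omega) _, ← h2, h1]
    rfl

theorem dB_nonneg (E : ℕ →₀ ℕ) : 0 ≤ dB p E := by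
  rw [dB, Finsupp.weight_apply]
  refine Finset.sum_nonneg fun j _ => nsmul_nonneg ?_ _
  have := one_le_pow₀ (M₀ := ℤ) (a := p) (n := j + 1) (by exact_mod_cast hp.out.one_lt.le)
  omega

variable (p b) in
theorem Fw_Sm (w : B ⊗ B ⟶ W) (E : ℕ →₀ ℕ) :
    Fw w (Sm p b E) = PiM.of W (dT p E) (tau p b E ≫ w) := by
  rw [← of_wS, Fw_of w (dT_eq p E), tau, Category.assoc]

theorem Fw_Om (hb : IsBPMon p b) {Φ : MvPolynomial ℕ ℤ →+* HRing (stdEven 𝒯) B}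
    (hΦ : lawOf b = (haz p).map Φ) (hw : (ModStr.free B B).IsLinear MW w)
    (cW : H395.PComplete p W) (kk : KK p →+* AddMonoid.End (PiM W))
    (kk_v : ∀ (i : ℕ) {k k' : ℤ} (h : k + sV p (i + 1) = k') (y : (𝟙_ 𝒯)⟦k⟧ ⟶ W),
      kk (MvPolynomial.X i) (PiM.of W k y) = PiM.of W k' (mul MW h (vcl p Φ i) y))
    (hZ : ∀ z : Z, ∃ (m : ℕ) (a : ℤ), ¬ p ∣ m ∧ (m : Z) * z = a)
    (ℓ : Z →+* HRing (stdEven 𝒯) B) (z0 : Z →+* ℤ_[p])
    (G : MvPolynomial ℕ (MvPolynomial ℕ Z)) :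
    Fw w (Om p b ℓ Φ G) = ∑ E ∈ (MvPolynomial.map (MvPolynomial.map z0) G).support,
      kk (MvPolynomial.coeff E (MvPolynomial.map (MvPolynomial.map z0) G))
        (PiM.of W (dT p E) (tau p b E ≫ w)) := by
  have h1 : Fw w (Om p b ℓ Φ G) = ∑ E ∈ G.support,
      kk (MvPolynomial.coeff E (MvPolynomial.map (MvPolynomial.map z0) G))
        (PiM.of W (dT p E) (tau p b E ≫ w)) := by
    conv_lhs => rw [G.as_sum]
    rw [map_sum, map_sum]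
    refine Finset.sum_congr rfl fun E _ => ?_
    rw [Om_monomial, MvPolynomial.coeff_map, ← Fw_Sm, ← of_wS,
      Fw_left hb hΦ hw cW kk kk_v hZ ℓ z0 _ _ (dB_nonneg E)]
  rw [h1]
  refine (Finset.sum_subset (MvPolynomial.support_map_subset _ _) fun E _ hE => ?_).symm
  rw [MvPolynomial.notMem_support_iff.1 hE, map_zero]
  rfl

theorem gc_sI {R X : 𝒯} [MonObj R] {m n k₁ k₂ k : ℤ} (hm : k₁ = 2 * m) (hn : k₂ = 2 * n)
    (h : k₁ + k₂ = k) (h' : 2 * m + 2 * n = k) (y : (stdEven 𝒯).S n ⟶ X ⊗ R)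
    (a : (stdEven 𝒯).S m ⟶ R) :
    gc h ((sI hn).hom ≫ y) (fm (tensorLeft X) (rmul ((sI hm).hom ≫ a))) =
      gc h' ((stdSph n).inv ≫ y) (fm (tensorLeft X) (rmul ((stdSph m).inv ≫ a))) := by
  subst hm hn
  rw [sI_rfl, sI_rfl]
  rfl

/-- right multiplications -/
theorem Fw_right (hb : IsBPMon p b) {Φ : MvPolynomial ℕ ℤ →+* HRing (stdEven 𝒯) B}
    (hΦ : lawOf b = (haz p).map Φ) (w : B ⊗ B ⟶ W) (i : ℕ) (E : ℕ →₀ ℕ) {k : ℤ}
    (h : sV p (i + 1) + dT p E = k) :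
    PiM.of W k (gc h (tau p b E) (fm (tensorLeft B) (rmul (vcl p Φ i))) ≫ w) =
      Fw w (Sm p b E * HRing.map (E := stdEven 𝒯) (inrM B B) (Φ (MvPolynomial.X i))) := by
  have hm : (0 : ℤ) ≤ ((p ^ (i + 1) - 1 : ℕ) : ℤ) := Int.natCast_nonneg _
  obtain ⟨l, rfl⟩ : ∃ l, k = 2 * l := ⟨((p ^ (i + 1) - 1 : ℕ) : ℤ) + dB p E, by
    rw [← h, sV_eq, dT_eq]
    ring⟩
  have hl : dB p E + ((p ^ (i + 1) - 1 : ℕ) : ℤ) = l := by
    have h1 := sV_eq p i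
    have h2 := dT_eq p E
    omega
  rw [← of_wS, ← of_X hb hΦ i, HRing.map_of, of_mul_of hl, Fw_of w (rfl : 2 * l = 2 * l), sI_rfl]
  congr 1
  change _ = (stdSph l).inv ≫ _ ≫ w
  rw [← Category.assoc, gmul_inrM hm (dB_nonneg E) hl (by omega), tau, vcl,
    gc_sI (sV_eq p i) (dT_eq p E) h (by omega)]

end coeffs

section final

variable {D : MUData 𝒯} {F : SpaceFunctor 𝒯} {e : F.S.obj CCF ≅ (stdEven 𝒯).L}
  {p : ℕ} [hp : Fact p.Prime] {B : 𝒯} [MonObj B] [IsCommMonObj B]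
  {b : D.R ⟶ B} [IsMonHom b] {W : 𝒯} {w : B ⊗ B ⟶ W} {MW : ModStr B W}

/-- **the right unit** (the field `ηR_eq` of `BPS`) -/
theorem etaR_eq (hb : IsBPMon p b) {Φ : MvPolynomial ℕ ℤ →+* HRing (stdEven 𝒯) B}
    (hΦ : lawOf b = (haz p).map Φ) (hw : (ModStr.free B B).IsLinear MW w)
    (cW : H395.PComplete p W) (kk : KK p →+* AddMonoid.End (PiM W))
    (kk_v : ∀ (i : ℕ) {k k' : ℤ} (h : k + sV p (i + 1) = k') (y : (𝟙_ 𝒯)⟦k⟧ ⟶ W),
      kk (MvPolynomial.X i) (PiM.of W k y) = PiM.of W k' (mul MW h (vcl p Φ i) y))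
    (i : ℕ) (E : ℕ →₀ ℕ) {k : ℤ} (h : sV p (i + 1) + dT p E = k) :
    PiM.of W k (gc h (tau p b E) (fm (tensorLeft B) (rmul (vcl p Φ i))) ≫ w) =
      ∑ E' ∈ (MvPolynomial.monomial E 1 * H520.ηR p i : GG p).support,
        kk (MvPolynomial.coeff E' (MvPolynomial.monomial E 1 * H520.ηR p i))
          (PiM.of W (dT p E') (tau p b E' ≫ w)) := by
  obtain ⟨g, hg, hgc, ψ, hψ, hgψ⟩ := H520.eta0_spec p
  have hB : PLoc p (HRing (stdEven 𝒯) B) := pLoc_of_locO hb.loc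
  have h1 := Om_eta hb hΦ (H520.Z0.lift hB) (H520.φ0 p) ψ (H520.φ0_X p) hg hgc hgψ i
  have h2 : Om p b (H520.Z0.lift hB) Φ (MvPolynomial.monomial E 1 * H520.eta0 p i) =
      Sm p b E * HRing.map (E := stdEven 𝒯) (inrM B B) (Φ (MvPolynomial.X i)) := by
    rw [map_mul, ← hψ, h1, Om_monomial, map_one, map_one, _root_.one_mul]
  have h3 : MvPolynomial.map (MvPolynomial.map (H520.Z0.lift (H520.ploc_padic p)))
      (MvPolynomial.monomial E 1 * H520.eta0 p i) =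
        (MvPolynomial.monomial E 1 * H520.ηR p i : GG p) := by
    rw [map_mul, MvPolynomial.map_monomial, map_one]
    rfl
  rw [Fw_right hb hΦ, ← h2, Fw_Om hb hΦ hw cW kk kk_v H520.Z0.exists_mul (H520.Z0.lift hB)
    (H520.Z0.lift (H520.ploc_padic p)), h3]

end final

end Vale.Agent.P221.H246
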