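import Vale.Agent.P257.H80.HazTyp

/-!
# P221 (helper246): strict isomorphisms to Hazewinkel laws with prescribed coefficients

`p` a prime, `F` a law over a `p`-local ring `B`, `s : ℕ → B`. There is exactly one strict series
`g` with `g.c (p^(k+1) - 1) = s k` for all `k` such that `g⁻¹ • F` is a Hazewinkel law.
-/

set_option linter.unusedSectionVars false

namespace Vale.Agent.P221.H246

open MvPowerSeries Finsupp Vale.Agent.P217 Vale.Agent.P251.F Vale.Agent.P257.H80

variable (p : ℕ) {A B : Type*} [CommRing A] [CommRing B]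

open Classical in
/-- the sequence with the value `s k` at the index `p^(k+1) - 2` and `c n` at the other indices -/
noncomputable def mS (s c : ℕ → B) (n : ℕ) : B :=
  if ∃ k, n + 2 = p ^ k then s (Nat.log p (n + 2) - 1) else c n

theorem map_mS (θ : A →+* B) (s c : ℕ → A) (n : ℕ) :
    θ (mS p s c n) = mS p (fun n => θ (s n)) (fun n => θ (c n)) n := by
  unfold mS
  split_ifs
  · rfl
  · rfl

variable [hp : Fact p.Prime]

theorem mS_pow (s c : ℕ → B) (k : ℕ) : mS p s c (p ^ (k + 1) - 2) = s k := by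
  have h1 : p ^ (k + 1) - 2 + 2 = p ^ (k + 1) :=
    Nat.sub_add_cancel (two_le_pow (k := k + 1) hp.out (Nat.succ_ne_zero k))
  rw [mS, h1, if_pos ⟨_, rfl⟩, Nat.log_pow hp.out.one_lt, Nat.add_sub_cancel]

/-- the law `F` transformed by the inverse of the series with coefficients `mS p s c` is the
Hazewinkel law with parameters `vS p c` -/
def IsTypS (F : Law B) (s c : ℕ → B) : Prop :=
  (strictMk (mS p s c))⁻¹ • F = (haz p).map (vS p c)

theorem existsUnique_typS (hB : PLoc p B) (F : Law B) (s : ℕ → B) :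
    ∃! c : ℕ → B, IsTypS p F s c := by
  classical
  set Φ : (ℕ → B) → ℕ → B := fun c n =>
    xC ((strictMk (mS p s c))⁻¹ • F) n - xC ((haz p).map (vS p c)) n with hΦ
  have key := exists_unique_triangular Φ (fun n => if ∃ k, n + 2 = p ^ k then 1 else
      -((dC (n + 2) : ℕ) : B)) (fun n => by
        split_ifs with h
        · exact isUnit_one
        · exact (isUnit_dC hp.out hB h).neg) (fun n c c' hcc => by
      have h1 := log_compare (f := strictMk (mS p s c)) (g := strictMk (mS p s c'))
        (strictMk_mem _) (n := n) (fun k hk => by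
          rcases k with _ | k
          · rw [c_zero_strictMk, c_zero_strictMk]
          · rw [c_succ_strictMk, c_succ_strictMk]
            unfold mS
            rw [hcc k (by omega)]) F
      rw [c_succ_strictMk, c_succ_strictMk] at h1
      by_cases hn : ∃ k, n + 2 = p ^ k
      · obtain ⟨k, hk⟩ := hn
        obtain ⟨k, rfl⟩ : ∃ l, k = l + 1 := ⟨k - 1, by
          rcases k with _ | k
          · rw [pow_zero] at hk
            omega
          · rfl⟩
        have hn' : p ^ (k + 1) - 2 = n := by omega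
        have h2 := haz_compare p (φ := vS p c) (φ' := vS p c') (k := k) (fun j hj => by
          rw [vS_X, vS_X]
          apply hcc
          have h3 : p ^ (j + 1) < p ^ (k + 1) :=
            Nat.pow_lt_pow_right hp.out.one_lt (by omega)
          have h4 := two_le_pow (k := j + 1) hp.out (Nat.succ_ne_zero j)
          omega)
        rw [vS_X, vS_X, hn'] at h2
        have h5 : mS p s c n - mS p s c' n = 0 := by
          unfold mS
          rw [if_pos ⟨_, hk⟩, if_pos ⟨_, hk⟩, sub_self]
        rw [if_pos ⟨_, hk⟩, one_mul, hΦ]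
        dsimp only
        rw [h5, smul_zero, neg_zero] at h1
        linear_combination h1.2 - h2.2
      · rw [if_neg hn]
        set k := Nat.log p (n + 2) with hkdef
        have hk1 : p ^ k ≤ n + 2 := Nat.pow_log_le_self p (by omega)
        have hk2 : n + 2 < p ^ (k + 1) := Nat.lt_pow_succ_log_self hp.out.one_lt _
        have h2 := haz_compare p (φ := vS p c) (φ' := vS p c') (k := k) (fun j hj => by
          rw [vS_X, vS_X]
          apply hcc
          have h3 : p ^ (j + 1) ≤ p ^ k := Nat.pow_le_pow_right hp.out.pos (by omega)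
          have h4 := two_le_pow (k := j + 1) hp.out (Nat.succ_ne_zero j)
          have h5 : n + 2 ≠ p ^ (j + 1) := fun h => hn ⟨_, h⟩
          omega)
        have h3 := xC_eq_of_sub_mem h2.1 hk2
        have h5 : mS p s c n - mS p s c' n = c n - c' n := by
          unfold mS
          rw [if_neg hn, if_neg hn]
        rw [hΦ]
        dsimp only
        rw [h5, nsmul_eq_mul] at h1
        linear_combination h1.2 - h3)
  have hiff : ∀ c, IsTypS p F s c ↔ ∀ n, Φ c n = 0 := by
    intro c
    rw [hΦ]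
    constructor
    · intro h n
      dsimp only
      rw [h, sub_self]
    · intro h
      exact law_ext_xC fun n => sub_eq_zero.1 (h n)
  simpa only [hiff] using key

/-- `F` is a Hazewinkel law -/
def IsHaz (F : Law B) : Prop := ∃ φ : MvPolynomial ℕ ℤ →+* B, F = (haz p).map φ

theorem IsHaz.map {p : ℕ} [Fact p.Prime] {F : Law A} (h : IsHaz p F) (θ : A →+* B) : IsHaz p (F.map θ) := by
  obtain ⟨φ, rfl⟩ := h
  exact ⟨θ.comp φ, Law.map_map _ _ _⟩

omit hp in
theorem strictMk_c {g : InvSeries B} (hg : g ∈ strict B) :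
    strictMk (fun n => g.c (n + 1)) = g := by
  apply InvSeries.ext_c
  rintro (_ | n)
  · rw [c_zero_strictMk]
    exact ((mem_strict).1 hg).symm
  · rw [c_succ_strictMk]

/-- **Existence.** -/
theorem exists_typical (hB : PLoc p B) (F : Law B) (s : ℕ → B) :
    ∃ g ∈ strict B, IsHaz p (g⁻¹ • F) ∧ ∀ k, g.c (p ^ (k + 1) - 1) = s k := by
  obtain ⟨c, hc, -⟩ := existsUnique_typS p hB F s
  refine ⟨strictMk (mS p s c), strictMk_mem _, ⟨_, hc⟩, fun k => ?_⟩
  have h1 : p ^ (k + 1) - 1 = (p ^ (k + 1) - 2) + 1 := by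
    have := two_le_pow (k := k + 1) hp.out (Nat.succ_ne_zero k)
    omega
  rw [h1, c_succ_strictMk, mS_pow]

open Classical in
/-- the parameters of a series `f` and of the Hazewinkel law of `φ` -/
noncomputable def cF (f : InvSeries B) (φ : MvPolynomial ℕ ℤ →+* B) (n : ℕ) : B :=
  if ∃ k, n + 2 = p ^ k then φ (MvPolynomial.X (Nat.log p (n + 2) - 1)) else f.c (n + 1)

theorem mS_cF {f : InvSeries B} {φ : MvPolynomial ℕ ℤ →+* B} {s : ℕ → B}
    (hs : ∀ k, f.c (p ^ (k + 1) - 1) = s k) : mS p s (cF p f φ) = fun n => f.c (n + 1) := by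
  funext n
  unfold mS cF
  split_ifs with hn
  · obtain ⟨k, hk⟩ := hn
    obtain ⟨k, rfl⟩ : ∃ l, k = l + 1 := ⟨k - 1, by
      rcases k with _ | k
      · rw [pow_zero] at hk
        omega
      · rfl⟩
    rw [hk, Nat.log_pow hp.out.one_lt, Nat.add_sub_cancel, ← hs k]
    congr 1
    omega
  · rfl

theorem vS_cF (f : InvSeries B) (φ : MvPolynomial ℕ ℤ →+* B) : vS p (cF p f φ) = φ := by
  apply MvPolynomial.ringHom_ext
  · intro r
    simp
  · intro k
    have h2 : p ^ (k + 1) - 2 + 2 = p ^ (k + 1) :=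
      Nat.sub_add_cancel (two_le_pow (k := k + 1) hp.out (Nat.succ_ne_zero k))
    rw [vS_X, cF, h2, if_pos ⟨_, rfl⟩, Nat.log_pow hp.out.one_lt, Nat.add_sub_cancel]

theorem isTypS_cF {F : Law B} {f : InvSeries B} (hf : f ∈ strict B)
    {φ : MvPolynomial ℕ ℤ →+* B} {s : ℕ → B} (hs : ∀ k, f.c (p ^ (k + 1) - 1) = s k)
    (h : f⁻¹ • F = (haz p).map φ) : IsTypS p F s (cF p f φ) := by
  unfold IsTypS
  rw [mS_cF p hs, strictMk_c hf, h, vS_cF]

/-- **Uniqueness.** -/
theorem eq_of_typical (hB : PLoc p B) {F : Law B} {g g' : InvSeries B} (hg : g ∈ strict B)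
    (hg' : g' ∈ strict B) (h : IsHaz p (g⁻¹ • F)) (h' : IsHaz p (g'⁻¹ • F))
    (hs : ∀ k, g.c (p ^ (k + 1) - 1) = g'.c (p ^ (k + 1) - 1)) : g = g' := by
  obtain ⟨φ, hφ⟩ := h
  obtain ⟨φ', hφ'⟩ := h'
  have h1 := isTypS_cF p hg (s := fun k => g.c (p ^ (k + 1) - 1)) (fun k => rfl) hφ
  have h2 := isTypS_cF p hg' (s := fun k => g.c (p ^ (k + 1) - 1)) (fun k => (hs k).symm) hφ'
  have h3 := (existsUnique_typS p hB F _).unique h1 h2
  have h4 := congrArg (fun c => strictMk (mS p (fun k => g.c (p ^ (k + 1) - 1)) c)) h3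
  rwa [mS_cF p (fun k => rfl), mS_cF p (fun k => (hs k).symm), strictMk_c hg,
    strictMk_c hg'] at h4

end Vale.Agent.P221.H246
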