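import Vale.Agent.P221.H246.Ser
import Vale.Agent.P221.H246.TypS
import Vale.Agent.P257.H80.BPLib
import Vale.Agent.P093.N.HSelf
import Vale.Agent.P093.N1.EBase

/-!
# P221 (helper246): the ring `π_{2*}(B ⊗ B)` of the Brown-Peterson monoid `B`

`HRing (B ⊗ B)` is the polynomial ring over `HRing B` (left unit) on the coefficients
`(ser (b ≫ inrM) (b ≫ inlM)).c (p^(k+1) - 1)`.
-/

open CategoryTheory MonoidalCategory MonObj Limits Pretriangulated

set_option linter.unusedSectionVars false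

universe v u

namespace Vale.Agent.P221.H246

open Vale.Agent.P251 Vale.Agent.P251.S Vale.Agent.P251.T Vale.Agent.P251.M Vale.Agent.P251.F
  Vale.Agent.P251.I EvenSpheres Vale.Agent.P257.H80 Vale.Agent.P093.Nak
  Vale.Agent.P093.N.HH

open Vale.Agent.P251.X hiding lawOf

/-! ### Polynomial rings and bases -/

section alg

variable {A S M : Type*} [CommRing A] [CommRing S] [AddCommGroup M] [Module A M]

/-- an `A`-algebra is a polynomial ring if the monomials are a basis -/
theorem eval₂_bijective (φ : A →+* S) (s : ℕ → S) (τ : M →+ S) (hτ : Function.Bijective τ)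
    (hsm : ∀ a x, τ (a • x) = φ a * τ x) (β : Module.Basis (ℕ →₀ ℕ) A M)
    (hβ : ∀ a : ℕ →₀ ℕ, τ (β a) = a.prod fun i n => s i ^ n) :
    Function.Bijective (MvPolynomial.eval₂Hom φ s) := by
  let e : MvPolynomial ℕ A ≃ₗ[A] M := (MvPolynomial.basisMonomials ℕ A).equiv β (Equiv.refl _)
  have h : ∀ x, MvPolynomial.eval₂Hom φ s x = τ (e x) := by
    intro x
    induction x using MvPolynomial.induction_on' with
    | monomial a c =>
      have h1 : MvPolynomial.monomial a c = c • MvPolynomial.basisMonomials ℕ A a := by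
        rw [MvPolynomial.coe_basisMonomials, MvPolynomial.smul_monomial, smul_eq_mul,
          _root_.mul_one]
      have h2 : e (MvPolynomial.basisMonomials ℕ A a) = β a := by
        rw [Module.Basis.equiv_apply, Equiv.refl_apply]
      have h3 : e (MvPolynomial.monomial a c) = c • β a := by rw [h1, map_smul, h2]
      rw [h3, hsm, hβ, MvPolynomial.coe_eval₂Hom, MvPolynomial.eval₂_monomial]
    | add x y hx hy => rw [map_add, map_add, map_add, hx, hy]
  have h2 : ⇑(MvPolynomial.eval₂Hom φ s) = τ ∘ e := funext h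
  rw [h2]
  exact hτ.comp e.bijective

end alg

variable {𝒯 : Type u} [Category.{0} 𝒯] [Preadditive 𝒯] [HasZeroObject 𝒯]
    [HasShift 𝒯 ℤ] [∀ n : ℤ, (shiftFunctor 𝒯 n).Additive] [Pretriangulated 𝒯] [IsTriangulated 𝒯]
    [MonoidalCategory 𝒯] [SymmetricCategory 𝒯] [TensorTriangulated 𝒯] [MonoidalClosed 𝒯]
    [HasCoproducts.{0} 𝒯] [HasProducts.{0} 𝒯] [StableCat 𝒯]

/-! ### Formalities -/

theorem LocO.tensor {p : ℕ} {X : 𝒯} (h : LocO p X) (Y : 𝒯) : LocO p (X ⊗ Y) := by
  intro m hm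
  have := h m hm
  have h1 : m • 𝟙 (X ⊗ Y) = (m • 𝟙 X) ▷ Y := by
    rw [← id_whiskerRight]
    exact ((tensorRight Y).map_zsmul (f := 𝟙 X) (r := m)).symm
  rw [h1]
  infer_instance

section formal

variable {X Y Z : 𝒯} [MonObj X] [MonObj Y] [MonObj Z]

@[reassoc]
theorem inlM_whiskerLeft (g : Y ⟶ Z) [IsMonHom g] : inlM X Y ≫ (X ◁ g) = inlM X Z := by
  rw [inlM, inlM, Category.assoc, ← MonoidalCategory.whiskerLeft_comp, IsMonHom.one_hom]

@[reassoc]
theorem inrM_whiskerLeft (g : Y ⟶ Z) : inrM X Y ≫ (X ◁ g) = g ≫ inrM X Z := by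
  rw [inrM, inrM, Category.assoc, ← whisker_exchange, leftUnitor_inv_naturality_assoc]

instance isMonHom_whiskerLeft' (g : Y ⟶ Z) [IsMonHom g] : IsMonHom (X ◁ g) := by
  rw [← id_tensorHom]
  infer_instance

end formal

section poly

variable {D : MUData 𝒯} {K : 𝒯} [MonObj K] [IsCommMonObj K]

theorem hSph : ∀ n, IsSphere ((stdEven 𝒯).S n) := isSphere_std

/-- monomials in the images of the variables -/
theorem ser_prod (u u' : D.R ⟶ K) [IsMonHom u] [IsMonHom u'] (a : ℕ →₀ ℕ) :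
    HRing.map (E := stdEven 𝒯) (pairM u u') (D.ev 1 (MvPolynomial.monomial (Cob.last 0 a) 1)) =
      a.prod fun i n => (ser u u').c (i + 1) ^ n := by
  have h1 : (MvPolynomial.monomial (Cob.last 0 a) 1 : Cob Laz 1) =
      a.prod fun i n => (MvPolynomial.X ((0 : Fin 1), i) : Cob Laz 1) ^ n := by
    rw [MvPolynomial.monomial_eq, MvPolynomial.C_1, _root_.one_mul, Cob.last,
      Finsupp.prod_mapDomain_index_inj]
    · rfl
    · intro i j hij
      exact (Prod.ext_iff.1 hij).2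
  rw [h1, Finsupp.prod, map_prod, map_prod]
  refine Finset.prod_congr rfl fun i _ => ?_
  dsimp only
  rw [map_pow, map_pow, ser_c]

variable {F : SpaceFunctor 𝒯} {e : F.S.obj CCF ≅ (stdEven 𝒯).L}

/-- **`π_{2*}(K ⊗ MU)` is a polynomial ring over `π_{2*} K`.** -/
theorem polyK_bijective (hD : MUUniv e D) (k : D.R ⟶ K) [IsMonHom k] :
    Function.Bijective (MvPolynomial.eval₂Hom (HRing.map (E := stdEven 𝒯) (inlM K D.R))
      fun i => (ser (k ≫ inlM K D.R) (inrM K D.R)).c (i + 1)) := by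
  obtain ⟨b, hk, hw⟩ := D.exists_basis_of k hD
  refine eval₂_bijective _ _ (asR (stdEven 𝒯) K D.R) asR_bijective (fun a x => asR_smul a x)
    ((Vale.Agent.P093.N1.ofGBasis b).basis hSph) fun a => ?_
  rw [RBasis.basis_apply]
  change HRing.of (stdEven 𝒯) (K ⊗ D.R) (b.k a) (b.w a) = _
  rw [hw, ← ser_prod]
  congr 2
  have h1 : D.toKR k = pairM (k ≫ inlM K D.R) (inrM K D.R) := by
    apply eq_pairM
    · exact D.v_zero_toKR k
    · exact D.v_one_toKR k
  exact h1

theorem ser_congr {u u' v v' : D.R ⟶ K} [IsMonHom u] [IsMonHom u'] [IsMonHom v] [IsMonHom v']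
    (h : u = v) (h' : u' = v') : ser u u' = ser v v' := by
  subst h
  subst h'
  rfl

end poly

section bpb

variable {D : MUData 𝒯} {F : SpaceFunctor 𝒯} {e : F.S.obj CCF ≅ (stdEven 𝒯).L}
  {p : ℕ} [hp : Fact p.Prime] {B : 𝒯} [MonObj B] [IsCommMonObj B] {b : D.R ⟶ B} [IsMonHom b]

theorem isHaz_comp (hb : IsBPMon p b) {K : 𝒯} [MonObj K] [IsCommMonObj K] (f : B ⟶ K)
    [IsMonHom f] : IsHaz p (lawOf (b ≫ f)) := by
  obtain ⟨φ, hφ⟩ := hb.law
  rw [lawOf_comp, hφ]
  exact IsHaz.map ⟨φ, rfl⟩ _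

theorem typM_of_isHaz (hD : MUUniv e D) {K : 𝒯} [MonObj K] [IsCommMonObj K] (hK : LocO p K)
    (u : D.R ⟶ K) [IsMonHom u] (h : IsHaz p (lawOf u)) : typM hD hK u = u := by
  obtain ⟨φ, hφ⟩ := h
  exact typM_eq hD hK u hφ

/-- `B ⊗ B` is a retract of `B ⊗ MU`. -/
theorem exists_sigma (hD : MUUniv e D) (hb : IsBPMon p b) :
    ∃ (σ : B ⊗ B ⟶ B ⊗ D.R) (_ : IsMonHom σ), inlM B B ≫ σ = inlM B D.R ∧
      (b ≫ inrM B B) ≫ σ = typM hD (LocO.tensor hb.loc D.R) (inrM B D.R) ∧
      σ ≫ (B ◁ b) = 𝟙 _ := by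
  obtain ⟨f, hf, hbf⟩ := hb.exists_map (B ⊗ D.R) (LocO.tensor hb.loc D.R)
    (typM hD (LocO.tensor hb.loc D.R) (inrM B D.R)) _ (lawOf_typM hD _ (inrM B D.R))
  refine ⟨descM (inlM B D.R) f, inferInstance, inlM_descM _ _, ?_, ?_⟩
  · rw [Category.assoc, inrM_descM, hbf]
  · apply hom_ext_tensor
    · rw [← Category.assoc, inlM_descM, inlM_whiskerLeft, Category.comp_id]
    · rw [← Category.assoc, inrM_descM, Category.comp_id]
      apply hb.uniq (B ⊗ B) (LocO.tensor hb.loc B)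
      rw [← Category.assoc, hbf, ← typM_comp hD _ (inrM B D.R) (LocO.tensor hb.loc B) (B ◁ b)]
      exact (typM_congr hD _ (inrM_whiskerLeft b)).trans
        (typM_of_isHaz hD _ _ (isHaz_comp hb (inrM B B)))

/-- the strict isomorphism from the right law to the left law over `π_{2*}(B ⊗ B)` -/
noncomputable def thB (b : D.R ⟶ B) [IsMonHom b] : InvSeries (HRing (stdEven 𝒯) (B ⊗ B)) :=
  ser (b ≫ inrM B B) (b ≫ inlM B B)

variable (p b) in
/-- the classes `S_{k+1}` -/
noncomputable def Scl (k : ℕ) : HRing (stdEven 𝒯) (B ⊗ B) := (thB b).c (p ^ (k + 1) - 1)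

variable (p b) in
/-- `π_{2*} B [S_1, S_2, …] → π_{2*}(B ⊗ B)` -/
noncomputable def Psi : MvPolynomial ℕ (HRing (stdEven 𝒯) B) →+* HRing (stdEven 𝒯) (B ⊗ B) :=
  MvPolynomial.eval₂Hom (HRing.map (E := stdEven 𝒯) (inlM B B)) (Scl p b)

theorem Psi_C (a : HRing (stdEven 𝒯) B) :
    Psi p b (MvPolynomial.C a) = HRing.map (E := stdEven 𝒯) (inlM B B) a :=
  MvPolynomial.eval₂Hom_C _ _ _

theorem Psi_X (k : ℕ) : Psi p b (MvPolynomial.X k) = Scl p b k :=
  MvPolynomial.eval₂Hom_X' _ _ _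

/-- **`π_{2*}(B ⊗ B)` is the polynomial ring over `π_{2*} B` on the classes `S_k`.** -/
theorem Psi_bijective (hD : MUUniv e D) (hb : IsBPMon p b) : Function.Bijective (Psi p b) := by
  have hA : PLoc p (HRing (stdEven 𝒯) B) := pLoc_of_locO hb.loc
  have hA' : PLoc p (MvPolynomial ℕ (HRing (stdEven 𝒯) B)) := hA.map MvPolynomial.C
  obtain ⟨h, hs, hh, hc⟩ := exists_typical p hA' ((lawOf b).map MvPolynomial.C) MvPolynomial.X
  let E := RingEquiv.ofBijective _ (polyK_bijective hD b)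
  have hEC : ∀ a, E (MvPolynomial.C a) = HRing.map (E := stdEven 𝒯) (inlM B D.R) a :=
    fun a => MvPolynomial.eval₂Hom_C _ _ _
  have hEX : ∀ i, E (MvPolynomial.X i) = (ser (b ≫ inlM B D.R) (inrM B D.R)).c (i + 1) :=
    fun i => MvPolynomial.eval₂Hom_X' _ _ _
  let Ξ : HRing (stdEven 𝒯) (B ⊗ D.R) →+* MvPolynomial ℕ (HRing (stdEven 𝒯) B) :=
    (MvPolynomial.eval₂Hom MvPolynomial.C fun i => (h⁻¹).c (i + 1)).comp
      (E.symm : HRing (stdEven 𝒯) (B ⊗ D.R) →+* MvPolynomial ℕ (HRing (stdEven 𝒯) B))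
  have hΞ : ∀ z, Ξ (E z) = MvPolynomial.eval₂Hom MvPolynomial.C (fun i => (h⁻¹).c (i + 1)) z := by
    intro z
    change MvPolynomial.eval₂Hom MvPolynomial.C (fun i => (h⁻¹).c (i + 1)) (E.symm (E z)) = _
    rw [E.symm_apply_apply]
  have hΞC : ∀ a, Ξ (HRing.map (E := stdEven 𝒯) (inlM B D.R) a) = MvPolynomial.C a := by
    intro a
    rw [← hEC, hΞ, MvPolynomial.eval₂Hom_C]
  have hΞs : InvSeries.map Ξ (ser (b ≫ inlM B D.R) (inrM B D.R)) = h⁻¹ := by
    apply InvSeries.ext_c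
    rintro (_ | i)
    · rw [InvSeries.c_map]
      have h1 := ser_strict (b ≫ inlM B D.R) (inrM B D.R)
      have h2 := (strict _).inv_mem hs
      rw [mem_strict] at h1 h2
      rw [h1, h2, map_one]
    · rw [InvSeries.c_map, ← hEX, hΞ, MvPolynomial.eval₂Hom_X']
  obtain ⟨σ, hσ, hl, hr, hret⟩ := exists_sigma hD hb
  -- `Ξ` maps the right law of `B ⊗ MU` to a Hazewinkel law
  have hlaw : (lawOf (inrM B D.R)).map Ξ = h⁻¹ • (lawOf b).map MvPolynomial.C := by
    rw [← ser_smul (b ≫ inlM B D.R) (inrM B D.R), InvSeries.map_smul, hΞs, lawOf_comp,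
      Law.map_map]
    congr 2
    exact RingHom.ext hΞC
  have key1 : InvSeries.map (Ξ.comp (HRing.map σ)) (thB b) = h := by
    have h1 : InvSeries.map (HRing.map (E := stdEven 𝒯) σ) (thB b) =
        ser (typM hD (LocO.tensor hb.loc D.R) (inrM B D.R)) (b ≫ inlM B D.R) := by
      rw [thB, ← ser_comp]
      exact ser_congr hr (by rw [Category.assoc, hl])
    have h2 : InvSeries.map Ξ (strictMk (bS p (typ p (pLoc_of_locO (LocO.tensor hb.loc D.R))
        (lawOf (inrM B D.R))))) = 1 := by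
      rw [map_strictMk]
      have h3 : (fun n => Ξ (bS p (typ p (pLoc_of_locO (LocO.tensor hb.loc D.R))
          (lawOf (inrM B D.R))) n)) = fun _ => 0 := by
        funext n
        rw [map_bS]
        have h4 : (fun n => Ξ (typ p (pLoc_of_locO (LocO.tensor hb.loc D.R))
            (lawOf (inrM B D.R)) n)) = typ p hA' ((lawOf (inrM B D.R)).map Ξ) := by
          funext m
          rw [typ_map p (pLoc_of_locO (LocO.tensor hb.loc D.R)) hA']
        obtain ⟨φ, hφ⟩ := hh
        rw [h4, hlaw, hφ, typ_haz, bS_seqV]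
      rw [h3, strictMk_zero]
    have h3 : InvSeries.map (Ξ.comp (HRing.map σ)) (thB b) =
        InvSeries.map Ξ (InvSeries.map (HRing.map (E := stdEven 𝒯) σ) (thB b)) := by
      apply InvSeries.ext_c
      intro n
      rw [InvSeries.c_map, InvSeries.c_map, InvSeries.c_map, RingHom.comp_apply]
    rw [h3, h1, ← ser_trans _ (inrM B D.R), map_mul, ← ser_inv (b ≫ inlM B D.R), map_inv, hΞs,
      inv_inv, ← ser_inv (inrM B D.R), map_inv, ser_typM, h2, inv_one, _root_.mul_one]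
  have key2 : (Ξ.comp (HRing.map (E := stdEven 𝒯) σ)).comp (Psi p b) = RingHom.id _ := by
    apply MvPolynomial.ringHom_ext
    · intro a
      rw [RingHom.comp_apply, Psi_C, RingHom.comp_apply, ← RingHom.comp_apply (HRing.map σ),
        ← HRing.map_comp, HRing_map_congr' hl, hΞC]
      rfl
    · intro k
      rw [RingHom.comp_apply, Psi_X, Scl, ← InvSeries.c_map, key1, hc]
      rfl
  -- `Psi` maps `h` to `thB b`
  have key3 : InvSeries.map (Psi p b) h = thB b := by
    have hBB : PLoc p (HRing (stdEven 𝒯) (B ⊗ B)) := pLoc_of_locO (LocO.tensor hb.loc B)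
    refine eq_of_typical p hBB (F := (lawOf b).map (HRing.map (E := stdEven 𝒯) (inlM B B)))
      (map_mem_strict _ hs) (ser_strict _ _) ?_ ?_ ?_
    · have h1 : (InvSeries.map (Psi p b) h)⁻¹ •
          (lawOf b).map (HRing.map (E := stdEven 𝒯) (inlM B B)) =
            (h⁻¹ • (lawOf b).map MvPolynomial.C).map (Psi p b) := by
        rw [InvSeries.map_smul, map_inv, Law.map_map]
        congr 2
        exact (RingHom.ext Psi_C).symm
      rw [h1]
      exact hh.map _
    · rw [← lawOf_comp, thB, ser_inv, ser_smul]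
      exact isHaz_comp hb (inrM B B)
    · intro k
      rw [InvSeries.c_map, hc, Psi_X]
      rfl
  have key4 : (Psi p b).comp Ξ = HRing.map (E := stdEven 𝒯) (B ◁ b) := by
    refine RingHom.ext fun y => ?_
    obtain ⟨z, rfl⟩ := E.surjective y
    have h1 : ((Psi p b).comp Ξ).comp E.toRingHom =
        (HRing.map (E := stdEven 𝒯) (B ◁ b)).comp E.toRingHom := by
      apply MvPolynomial.ringHom_ext
      · intro a
        change Psi p b (Ξ (E (MvPolynomial.C a))) =
          HRing.map (E := stdEven 𝒯) (B ◁ b) (E (MvPolynomial.C a))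
        rw [hEC, hΞC, Psi_C, ← RingHom.comp_apply, ← HRing.map_comp,
          HRing_map_congr' (inlM_whiskerLeft b)]
      · intro i
        change Psi p b (Ξ (E (MvPolynomial.X i))) =
          HRing.map (E := stdEven 𝒯) (B ◁ b) (E (MvPolynomial.X i))
        rw [hEX, ← InvSeries.c_map, hΞs, ← InvSeries.c_map, map_inv, key3, ← InvSeries.c_map,
          ← ser_comp, thB, ser_inv]
        congr 1
        exact ser_congr (by rw [Category.assoc, inlM_whiskerLeft]) (inrM_whiskerLeft b).symm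
    exact congrArg (fun f => f z) h1
  constructor
  · intro x y hxy
    have h1 : ∀ z, Ξ (HRing.map (E := stdEven 𝒯) σ (Psi p b z)) = z := fun z =>
      congrArg (fun f : _ →+* _ => f z) key2
    rw [← h1 x, hxy, h1]
  · intro y
    refine ⟨Ξ (HRing.map (E := stdEven 𝒯) σ y), ?_⟩
    rw [← RingHom.comp_apply, key4, ← RingHom.comp_apply, ← HRing.map_comp,
      HRing_map_congr' hret, HRing.map_id, RingHom.id_apply]

end bpb

end Vale.Agent.P221.H246
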