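import Vale.Agent.P221.H246.FreeW
import Vale.Agent.P221.T.H598.BPSex
import Vale.Agent.P221.T.H924.FreeTop

/-!
# P221, part T (helper246): `π_* W` is free over `ℤ_p[v_1, v_2, …]` on the classes `t^E`
-/

open CategoryTheory MonoidalCategory MonObj Limits Pretriangulated

set_option linter.unusedSectionVars false

universe u

namespace Vale.Agent.P221.H246

open Vale.Agent.P251 Vale.Agent.P251.S Vale.Agent.P251.T Vale.Agent.P251.M Vale.Agent.P251.F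
  Vale.Agent.P251.I EvenSpheres Vale.Agent.P257.H80 Vale.Agent.P221.T Vale.Agent.P093.N0

open Vale.Agent.P221.T.H924 (CompD)

variable {𝒯 : Type u} [Category.{0} 𝒯] [Preadditive 𝒯] [HasZeroObject 𝒯]
    [HasShift 𝒯 ℤ] [∀ n : ℤ, (shiftFunctor 𝒯 n).Additive] [Pretriangulated 𝒯] [IsTriangulated 𝒯]
    [MonoidalCategory 𝒯] [SymmetricCategory 𝒯] [TensorTriangulated 𝒯] [MonoidalClosed 𝒯]
    [HasCoproducts.{0} 𝒯] [HasProducts.{0} 𝒯] [StableCat 𝒯]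

variable {D : MUData 𝒯} {F : SpaceFunctor 𝒯} {e : F.S.obj CCF ≅ (stdEven 𝒯).L}
  {p : ℕ} [hp : Fact p.Prime] {B : 𝒯} [MonObj B] [IsCommMonObj B] {b : D.R ⟶ B} [IsMonHom b]

theorem cg_w (hD : MUUniv e D) (hA : MUAll D) (hb : IsBPMon p b) {P W : 𝒯}
    (cd : CompD p B P W) : CG p cd.w := by
  obtain ⟨C, i, δ, hC⟩ := H746.exists_moore (𝒯 := 𝒯) (p : ℤ)
  exact cg_of_good hC (T.H598.good_BB hD hA hb) cd.cW (cd.w_mod C i δ hC)

theorem cg_c (hD : MUUniv e D) (hA : MUAll D) (hb : IsBPMon p b) {P W : 𝒯}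
    (cd : CompD p B P W) : CG p cd.c := by
  obtain ⟨C, i, δ, hC⟩ := H746.exists_moore (𝒯 := 𝒯) (p : ℤ)
  exact cg_of_good hC (H746.good_bp hD hA hb) cd.cP (cd.c_mod C i δ hC)

/-- **`π_* W` is free on the classes `t^E`** -/
theorem freeW (hD : MUUniv e D) (hA : MUAll D) (hb : IsBPMon p b)
    {Φ : MvPolynomial ℕ ℤ →+* HRing (stdEven 𝒯) B} (hΦ : lawOf b = (haz p).map Φ) {P W : 𝒯}
    (cd : CompD p B P W) : T.H598.FreeW b Φ cd := by
  have kk_v : ∀ (i : ℕ) {k k' : ℤ} (h : k + sV p (i + 1) = k') (y : (𝟙_ 𝒯)⟦k⟧ ⟶ W),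
      T.H509.kkT (pComm (vcl p Φ)) cd.MW cd.cW (MvPolynomial.X i) (PiM.of W k y) =
        PiM.of W k' (mul cd.MW h (vcl p Φ i) y) := fun i _ _ h y =>
    T.H509.kkT_v (pComm (vcl p Φ)) cd.MW cd.cW i h y
  have hG := cg_w hD hA hb cd
  intro k z
  exact T.H924.freeW_of cd.MW (vcl p Φ) (T.H509.kkT (pComm (vcl p Φ)) cd.MW cd.cW) kk_v
    (fun a _ y => T.H509.kkT_C (pComm (vcl p Φ)) cd.MW cd.cW a y) (T.H924.hι_int p) cd.cW
    (fun k z hz => hG.tf k z (by rw [natCast_zsmul]; exact hz)) (fun E => tau p b E ≫ cd.w)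
    (fun k z => surjF_W hD hA hb hΦ cd.w_lin cd.cW hG _ kk_v k z)
    (fun s g z' h E hE => injF_W hD hA hb hΦ cd.w_lin cd.cW hG _ kk_v s g z' h E hE) k z

end Vale.Agent.P221.H246
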