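import Vale.Agent.P221.H246.BPB
import Vale.Agent.P093.N.Nak2

/-!
# P221 (helper246): `B ⊗ B` is free over the Brown-Peterson monoid `B`

* `isIso_of_bijective_ret` : a linear map from an `R`-free object to a retract of an `R`-free object
  which is bijective on the even homotopy is an isomorphism;
* `rbB hD hb : RBasis (stdEven 𝒯) B B (ℕ →₀ ℕ)` : the basis of the monomials `S^a`, of weight
  `dB p a = ∑ a_j (p^(j+1) - 1)`; `of_rbB_w`.

By `RBasis.exists_unique_realize` the maps `B ⟶ N`, `N` a `B`-module, are the families of elements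
of `π_{2 dB a} N`.
-/

open CategoryTheory MonoidalCategory MonObj Limits Pretriangulated

set_option linter.unusedSectionVars false

universe v u

namespace Vale.Agent.P221.H246

open Vale.Agent.P251 Vale.Agent.P251.S Vale.Agent.P251.T Vale.Agent.P251.M Vale.Agent.P251.F
  Vale.Agent.P251.I EvenSpheres Vale.Agent.P257.H80 Vale.Agent.P093.Nak
  Vale.Agent.P093.N.HH

open Vale.Agent.P251.X hiding lawOf

section ret

variable {T : Type u} [Category.{v} T] [Preadditive T] [HasZeroObject T]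
    [HasShift T ℤ] [∀ n : ℤ, (shiftFunctor T n).Additive] [Pretriangulated T] [IsTriangulated T]
    [MonoidalCategory T] [SymmetricCategory T] [TensorTriangulated T] [MonoidalClosed T]
    [HasCoproducts.{0} T] [HasProducts.{0} T] [StableCat T] {E : EvenSpheres T}
    {R : T} [MonObj R]

/-- A linear map from an `R`-free object to a retract of an `R`-free object which is bijective on
the even homotopy is an isomorphism. -/
theorem isIso_of_bijective_ret {X Z N : T} {J I : Type} (b : RBasis E R X J) (c : RBasis E R Z I)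
    (M : ModStr R N) (g : R ⊗ X ⟶ N) (hg : (ModStr.free R X).IsLinear M g)
    (s : N ⟶ R ⊗ Z) (r : R ⊗ Z ⟶ N) (hs : M.IsLinear (ModStr.free R Z) s)
    (hr : (ModStr.free R Z).IsLinear M r) (hsr : s ≫ r = 𝟙 N)
    (h : ∀ n, Function.Bijective fun f : E.S n ⟶ R ⊗ X => f ≫ g) : IsIso g := by
  choose u hu using fun i => (h (c.k i)).2 (c.w i ≫ r)
  have h1 : c.linMap (ModStr.free R X) u ≫ g = r := by
    refine c.hom_ext M (isLinear_comp _ _ (c.linMap_isLinear (ModStr.free R X) u) hg) hr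
      fun i => ?_
    rw [RBasis.w_linMap_assoc]
    exact hu i
  have h2 : (s ≫ c.linMap (ModStr.free R X) u) ≫ g = 𝟙 N := by
    rw [Category.assoc, h1, hsr]
  refine ⟨s ≫ c.linMap (ModStr.free R X) u, ?_, h2⟩
  refine b.hom_ext (ModStr.free R X) (isLinear_comp _ _ hg
    (isLinear_comp _ _ hs (c.linMap_isLinear (ModStr.free R X) u))) (isLinear_id _) fun j => ?_
  apply (h (b.k j)).1
  change (b.w j ≫ g ≫ s ≫ c.linMap (ModStr.free R X) u) ≫ g = (b.w j ≫ 𝟙 _) ≫ g
  rw [Category.assoc, Category.assoc, h2, Category.comp_id, Category.comp_id]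

/-- Homogeneous bases of the even homotopy of a retract of an `R`-free object are `R`-bases. -/
noncomputable def rbOfBasisRet {Y Z : T} {I J : Type} (b : RBasis E R Z I)
    (hS : ∀ n, IsSphere (E.S n))
    (s : R ⊗ Y ⟶ R ⊗ Z) (r : R ⊗ Z ⟶ R ⊗ Y) (hs : (ModStr.free R Y).IsLinear (ModStr.free R Z) s)
    (hr : (ModStr.free R Z).IsLinear (ModStr.free R Y) r) (hsr : s ≫ r = 𝟙 (R ⊗ Y))
    (k : J → ℤ) (w : ∀ j, E.S (k j) ⟶ R ⊗ Y) (B : Module.Basis J (HRing E R) (MP E R Y))
    (hB : ∀ j, B j = MP.of E R Y (k j) (w j)) : RBasis E R Y J where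
  k := k
  w := w
  isIso := by
    rw [isIso_desc_iff]
    let c : RBasis E R (∐ fun j => E.S (k j)) J := RBasis.taut J k
    let cw : ∀ j, E.S (k j) ⟶ R ⊗ (∐ fun j => E.S (k j)) := fun j =>
      Sigma.ι (fun j => E.S (k j)) j ≫ un R _
    have hcw : ∀ j, cw j ≫ lin (ModStr.free R Y) (Sigma.desc w) = w j := by
      intro j
      rw [Category.assoc, un_lin, Sigma.ι_desc]
    have hgs : ∀ {n m : ℤ} {j : J} (h : m + k j = n) (a : E.S m ⟶ R),
        gsmul (ModStr.free R _) h a (cw j) ≫ lin (ModStr.free R Y) (Sigma.desc w) =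
          gsmul (ModStr.free R Y) h a (w j) := by
      intro n m j h a
      rw [← gsmul_comp _ (ModStr.free R Y) (lin_isLinear (ModStr.free R Y) (Sigma.desc w)), hcw]
    have hex : ∀ {n : ℤ} (f : E.S n ⟶ R ⊗ (∐ fun j => E.S (k j))),
        ∃ (t : Finset J) (x : ∀ j, E.S (n - k j) ⟶ R),
          f = ∑ j ∈ t, gsmul (ModStr.free R _) (sub_add_cancel n (k j)) (x j) (cw j) :=
      fun f => c.exists_expansion hS f
    refine isIso_of_bijective_ret c b (ModStr.free R Y) _ (lin_isLinear _ _) s r hs hr hsr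
      fun n => ⟨?_, ?_⟩
    · have key : ∀ f : E.S n ⟶ R ⊗ (∐ fun j => E.S (k j)),
          f ≫ lin (ModStr.free R Y) (Sigma.desc w) = 0 → f = 0 := by
        intro f hf
        obtain ⟨t, x, rfl⟩ := hex f
        have h1 : ∑ j ∈ t, HRing.of E R (n - k j) (x j) • B j = 0 := by
          have h2 := congrArg (MP.of E R Y n) hf
          rw [Preadditive.sum_comp, map_sum, map_zero] at h2
          rw [← h2]
          refine Finset.sum_congr rfl fun j _ => ?_
          rw [hB, MP.smul_of (sub_add_cancel n (k j)), hgs]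
        have h3 := linearIndependent_iff'.1 B.linearIndependent t _ h1
        refine Finset.sum_eq_zero fun j hj => ?_
        have h4 : x j = 0 := DirectSum.of_injective (β := E.Gr R) _
          ((h3 j hj).trans (map_zero (DirectSum.of (E.Gr R) _)).symm)
        rw [h4]
        exact gsmul_zero_left' _ _ _
      intro f f' hff'
      rw [← sub_eq_zero]
      apply key
      rw [Preadditive.sub_comp, sub_eq_zero]
      exact hff'
    · intro f
      let r := B.repr (MP.of E R Y n f)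
      refine ⟨∑ j ∈ r.support, gsmul (ModStr.free R _) (sub_add_cancel n (k j))
        ((r j) (n - k j)) (cw j), ?_⟩
      change (∑ j ∈ r.support, gsmul (ModStr.free R _) (sub_add_cancel n (k j))
        ((r j) (n - k j)) (cw j)) ≫ _ = f
      rw [Preadditive.sum_comp]
      have h1 : MP.comp E R Y n (MP.of E R Y n f) = f := MP.comp_of_same n f
      rw [← B.linearCombination_repr (MP.of E R Y n f), Finsupp.linearCombination_apply,
        Finsupp.sum, map_sum] at h1
      rw [← h1]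
      refine Finset.sum_congr rfl fun j _ => ?_
      rw [hgs, hB, comp_smul_of (sub_add_cancel n (k j))]

/-- a monoid map under `A` is `A`-linear -/
theorem isLinear_of_inlM {A X Y : T} [MonObj A] [MonObj X] [MonObj Y] (σ : A ⊗ X ⟶ A ⊗ Y)
    [IsMonHom σ] (h : inlM A X ≫ σ = inlM A Y) :
    (ModStr.free A X).IsLinear (ModStr.free A Y) σ := by
  change ((α_ A A X).inv ≫ (μ[A] ▷ X)) ≫ σ = (A ◁ σ) ≫ (α_ A A Y).inv ≫ (μ[A] ▷ Y)
  rw [← inlM_mul_id, ← inlM_mul_id, Category.assoc, IsMonHom.mul_hom, ← tensorHom_id,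
    tensorHom_comp_tensorHom_assoc, h, Category.id_comp, ← id_tensorHom, ← tensorHom_id,
    tensorHom_comp_tensorHom_assoc, Category.id_comp, Category.comp_id]

end ret

variable {𝒯 : Type u} [Category.{0} 𝒯] [Preadditive 𝒯] [HasZeroObject 𝒯]
    [HasShift 𝒯 ℤ] [∀ n : ℤ, (shiftFunctor 𝒯 n).Additive] [Pretriangulated 𝒯] [IsTriangulated 𝒯]
    [MonoidalCategory 𝒯] [SymmetricCategory 𝒯] [TensorTriangulated 𝒯] [MonoidalClosed 𝒯]
    [HasCoproducts.{0} 𝒯] [HasProducts.{0} 𝒯] [StableCat 𝒯]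
  {D : MUData 𝒯} {F : SpaceFunctor 𝒯} {e : F.S.obj CCF ≅ (stdEven 𝒯).L}
  {p : ℕ} [hp : Fact p.Prime] {B : 𝒯} [MonObj B] [IsCommMonObj B] {b : D.R ⟶ B} [IsMonHom b]

/-- the weight (half of the degree) of the monomial `S^a` -/
noncomputable def dB (p : ℕ) (a : ℕ →₀ ℕ) : ℤ := Finsupp.weight (fun j => (p : ℤ) ^ (j + 1) - 1) a

theorem isHomog_Scl (k : ℕ) : IsHomog (B ⊗ B) ((p : ℤ) ^ (k + 1) - 1) (Scl p b k) := by
  have h1 : p ^ (k + 1) - 1 = (p ^ (k + 1) - 2) + 1 := by
    have := two_le_pow (k := k + 1) hp.out (Nat.succ_ne_zero k)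
    omega
  have h2 := isHomog_ser (b ≫ inrM B B) (b ≫ inlM B B) (p ^ (k + 1) - 2)
  rw [← h1] at h2
  have h3 : ((p ^ (k + 1) - 1 : ℕ) : ℤ) = (p : ℤ) ^ (k + 1) - 1 := by
    rw [Nat.cast_sub (Nat.one_le_pow _ _ hp.out.pos)]
    push_cast
    ring
  rw [h3] at h2
  exact h2

/-- the monomials in the classes `S_k` -/
noncomputable def Sm (p : ℕ) (b : D.R ⟶ B) [IsMonHom b] (a : ℕ →₀ ℕ) :
    HRing (stdEven 𝒯) (B ⊗ B) := a.prod fun i n => Scl p b i ^ n

theorem isHomog_Sm (a : ℕ →₀ ℕ) : IsHomog (B ⊗ B) (dB p a) (Sm p b a) := by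
  have h1 : dB p a = ∑ i ∈ a.support, ((a i : ℕ) : ℤ) * ((p : ℤ) ^ (i + 1) - 1) := by
    rw [dB, Finsupp.weight_apply, Finsupp.sum]
    refine Finset.sum_congr rfl fun i _ => ?_
    rw [nsmul_eq_mul]
  rw [h1]
  exact IsHomog.prod _ _ _ fun i _ => (isHomog_Scl i).pow (a i)

theorem Psi_monomial (a : ℕ →₀ ℕ) : Psi p b (MvPolynomial.monomial a 1) = Sm p b a := by
  rw [Psi, MvPolynomial.coe_eval₂Hom, MvPolynomial.eval₂_monomial, map_one, _root_.one_mul]
  rfl

/-- the class of `S^a` -/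
noncomputable def wS (p : ℕ) [Fact p.Prime] (b : D.R ⟶ B) [IsMonHom b] (a : ℕ →₀ ℕ) :
    (stdEven 𝒯).S (dB p a) ⟶ B ⊗ B := (isHomog_Sm (p := p) (b := b) a).choose

theorem of_wS (a : ℕ →₀ ℕ) : HRing.of (stdEven 𝒯) (B ⊗ B) (dB p a) (wS p b a) = Sm p b a :=
  (isHomog_Sm (p := p) (b := b) a).choose_spec.symm

/-- `π_{2*}(B ⊗ B)` as a module over `π_{2*} B` -/
noncomputable def PsiL (p : ℕ) [Fact p.Prime] (b : D.R ⟶ B) [IsMonHom b] :
    MvPolynomial ℕ (HRing (stdEven 𝒯) B) →ₗ[HRing (stdEven 𝒯) B] MP (stdEven 𝒯) B B where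
  toFun x := (AddEquiv.ofBijective (asR (stdEven 𝒯) B B) asR_bijective).symm (Psi p b x)
  map_add' x y := by rw [map_add, map_add]
  map_smul' c x := by
    apply (asR_bijective (E := stdEven 𝒯) (B := B) (A := B)).1
    have h : ∀ z, asR (stdEven 𝒯) B B
        ((AddEquiv.ofBijective (asR (stdEven 𝒯) B B) asR_bijective).symm z) = z :=
      fun z => (AddEquiv.ofBijective (asR (stdEven 𝒯) B B) asR_bijective).apply_symm_apply z
    rw [h, RingHom.id_apply, asR_smul, h, MvPolynomial.smul_eq_C_mul, map_mul, Psi_C]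

theorem asR_PsiL (x : MvPolynomial ℕ (HRing (stdEven 𝒯) B)) :
    asR (stdEven 𝒯) B B (PsiL p b x) = Psi p b x :=
  (AddEquiv.ofBijective (asR (stdEven 𝒯) B B) asR_bijective).apply_symm_apply _

theorem PsiL_bijective (hD : MUUniv e D) (hb : IsBPMon p b) : Function.Bijective (PsiL p b) :=
  (AddEquiv.ofBijective (asR (stdEven 𝒯) B B) asR_bijective).symm.bijective.comp
    (Psi_bijective hD hb)

/-- the basis of the monomials -/
noncomputable def basisS (hD : MUUniv e D) (hb : IsBPMon p b) :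
    Module.Basis (ℕ →₀ ℕ) (HRing (stdEven 𝒯) B) (MP (stdEven 𝒯) B B) :=
  (MvPolynomial.basisMonomials ℕ _).map (LinearEquiv.ofBijective _ (PsiL_bijective hD hb))

theorem basisS_apply (hD : MUUniv e D) (hb : IsBPMon p b) (a : ℕ →₀ ℕ) :
    basisS hD hb a = MP.of (stdEven 𝒯) B B (dB p a) (wS p b a) := by
  apply (asR_bijective (E := stdEven 𝒯) (B := B) (A := B)).1
  rw [asR_of, of_wS, ← Psi_monomial, ← asR_PsiL]
  congr 1

/-- **The `B`-basis of `B ⊗ B`.** -/
noncomputable def rbB (hD : MUUniv e D) (hb : IsBPMon p b) :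
    RBasis (stdEven 𝒯) B B (ℕ →₀ ℕ) where
  k := dB p
  w := wS p b
  isIso := by
    obtain ⟨σ, hσ, hl, -, hret⟩ := exists_sigma hD hb
    obtain ⟨g, -, -⟩ := D.exists_basis_of b hD
    exact (rbOfBasisRet (Vale.Agent.P093.N1.ofGBasis g) hSph σ (B ◁ b) (isLinear_of_inlM σ hl)
      (Vale.Agent.P093.Nak.isLinear_whiskerLeft b) hret (dB p) (wS p b) (basisS hD hb)
      (basisS_apply hD hb)).isIso

@[simp] theorem rbB_k (hD : MUUniv e D) (hb : IsBPMon p b) (a : ℕ →₀ ℕ) :
    (rbB hD hb).k a = dB p a := rfl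

@[simp] theorem rbB_w (hD : MUUniv e D) (hb : IsBPMon p b) (a : ℕ →₀ ℕ) :
    (rbB hD hb).w a = wS p b a := rfl

end Vale.Agent.P221.H246
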