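import Vale.Agent.P221.H246.B2

/-!
# P221, block B2: homogeneity of `ρ l`, and the assembly

`specB2_of : SpecB1 p n → SpecB3 p n → SpecB2 p n`.
-/

open MvPolynomial

namespace Vale.Agent.P221.H246

open Vale.Agent.P251.F Vale.Agent.P217

/-! ### graded homomorphisms out of polynomial rings -/

section Graded

variable {k : Type*} [CommRing k] {σ τ : Type*}

theorem map_mem_of_graded {A : Type*} [CommRing A] [Algebra k A] (W : σ → ℤ)
    (H : ℤ → Submodule k A) (h1 : (1 : A) ∈ H 0)
    (hmul : ∀ a b x y, x ∈ H a → y ∈ H b → x * y ∈ H (a + b))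
    (φ : MvPolynomial σ k →ₐ[k] A) (hX : ∀ i, φ (X i) ∈ H (W i)) {w : ℤ} {z : MvPolynomial σ k}
    (hz : IsWeightedHomogeneous W z w) : φ z ∈ H w := by
  have hpow : ∀ (i : σ) (m : ℕ), φ (X i) ^ m ∈ H (m • W i) := by
    intro i m
    induction m with
    | zero => rw [pow_zero, zero_smul]; exact h1
    | succ m ih => rw [pow_succ, succ_nsmul]; exact hmul _ _ _ _ ih (hX i)
  have hmono : ∀ d : σ →₀ ℕ, φ (monomial d 1) ∈ H (Finsupp.weight W d) := by
    intro d
    induction d using Finsupp.induction with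
    | zero =>
      rw [map_zero]
      have h2 : (monomial 0 1 : MvPolynomial σ k) = 1 := rfl
      rw [h2, map_one]
      exact h1
    | single_add i m f hf hm ih =>
      have h2 : (monomial (Finsupp.single i m + f) 1 : MvPolynomial σ k) =
          X i ^ m * monomial f 1 := by
        rw [X_pow_eq_monomial, monomial_mul, one_mul]
      rw [h2, map_mul, map_pow, map_add, Finsupp.weight_single]
      exact hmul _ _ _ _ (hpow i m) ih
  rw [z.as_sum, map_sum]
  refine Submodule.sum_mem _ fun d hd => ?_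
  have h2 : (monomial d (coeff d z) : MvPolynomial σ k) = (coeff d z) • monomial d 1 := by
    rw [smul_monomial, smul_eq_mul, mul_one]
  rw [h2, map_smul, ← hz (mem_support_iff.1 hd)]
  exact Submodule.smul_mem _ _ (hmono d)

/-- Graded homomorphisms of polynomial rings commute with the homogeneous components. -/
theorem component_map (W : σ → ℤ) (V : τ → ℤ) (φ : MvPolynomial σ k →ₐ[k] MvPolynomial τ k)
    (hX : ∀ i, IsWeightedHomogeneous V (φ (X i)) (W i)) (w : ℤ) (z : MvPolynomial σ k) :
    weightedHomogeneousComponent V w (φ z) = φ (weightedHomogeneousComponent W w z) := by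
  have hm : ∀ (d : σ →₀ ℕ) (a : k),
      IsWeightedHomogeneous V (φ (monomial d a)) (Finsupp.weight W d) := fun d a =>
    map_mem_of_graded W (fun w => weightedHomogeneousSubmodule k V w)
      (isWeightedHomogeneous_one k V) (fun a b x y hx hy => hx.mul hy) φ hX
      (isWeightedHomogeneous_monomial W d a rfl)
  rw [z.as_sum, map_sum, map_sum, map_sum, map_sum]
  refine Finset.sum_congr rfl fun d _ => ?_
  by_cases h : w = Finsupp.weight W d
  · rw [h, (hm d _).weightedHomogeneousComponent_same,
      (isWeightedHomogeneous_monomial W d _ rfl).weightedHomogeneousComponent_same]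
  · rw [(hm d _).weightedHomogeneousComponent_ne w h,
      (isWeightedHomogeneous_monomial W d _ rfl).weightedHomogeneousComponent_ne w h, map_zero]

/-- homogeneous elements lift to homogeneous elements along a surjective graded homomorphism -/
theorem exists_homogeneous_preimage (W : σ → ℤ) (V : τ → ℤ)
    (φ : MvPolynomial σ k →ₐ[k] MvPolynomial τ k)
    (hX : ∀ i, IsWeightedHomogeneous V (φ (X i)) (W i)) (hs : Function.Surjective φ)
    {w : ℤ} {y : MvPolynomial τ k} (hy : IsWeightedHomogeneous V y w) :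
    ∃ z, IsWeightedHomogeneous W z w ∧ φ z = y := by
  obtain ⟨z, rfl⟩ := hs y
  refine ⟨weightedHomogeneousComponent W w z,
    weightedHomogeneousComponent_isWeightedHomogeneous w z, ?_⟩
  rw [← component_map W V φ hX, hy.weightedHomogeneousComponent_same]

end Graded

/-! ### the bigraded ring `S[T]` -/

section Bigraded

variable (p n : ℕ) (k : Type) [CommRing k]

/-- The elements of `S[T]` whose coefficient at `T^E` has weight `w - |T^E|`. -/
noncomputable def HomO (w : ℤ) : Submodule k (MvPolynomial ℕ (MvPolynomial (Fin n) k)) where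
  carrier := {f | ∀ E, IsWeightedHomogeneous (wV p n) (f.coeff E) (w - dT p E)}
  add_mem' := by
    intro f g hf hg E
    rw [coeff_add]
    exact (hf E).add (hg E)
  zero_mem' := fun E => by
    rw [coeff_zero]
    exact isWeightedHomogeneous_zero _ _ _
  smul_mem' := by
    intro a f hf E
    have h1 : (a • f).coeff E = C a * f.coeff E := by
      have h2 : a • f = (C a : MvPolynomial (Fin n) k) • f := by
        rw [← algebraMap_eq, algebraMap_smul]
      rw [h2, coeff_smul, smul_eq_mul]
    rw [h1]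
    exact (hf E).C_mul a

variable {p n k}

theorem mem_HomO {w : ℤ} {f : MvPolynomial ℕ (MvPolynomial (Fin n) k)} :
    f ∈ HomO p n k w ↔ ∀ E, IsWeightedHomogeneous (wV p n) (f.coeff E) (w - dT p E) := Iff.rfl

theorem dT_add (E E' : ℕ →₀ ℕ) : dT p (E + E') = dT p E + dT p E' := map_add _ _ _

theorem HomO.mul (a b : ℤ) (x y : MvPolynomial ℕ (MvPolynomial (Fin n) k))
    (hx : x ∈ HomO p n k a) (hy : y ∈ HomO p n k b) : x * y ∈ HomO p n k (a + b) := by
  classical
  intro E
  rw [coeff_mul]
  refine IsWeightedHomogeneous.sum _ _ _ fun e he => ?_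
  rw [Finset.HasAntidiagonal.mem_antidiagonal] at he
  have h1 := (hx e.1).mul (hy e.2)
  rwa [show a - dT p e.1 + (b - dT p e.2) = a + b - dT p E by rw [← he, dT_add]; ring] at h1

theorem HomO.C {w : ℤ} {f : MvPolynomial (Fin n) k} (hf : IsWeightedHomogeneous (wV p n) f w) :
    C f ∈ HomO p n k w := by
  classical
  intro E
  rw [coeff_C]
  split_ifs with h
  · rw [← h, dT, map_zero, sub_zero]
    exact hf
  · exact isWeightedHomogeneous_zero _ _ _

theorem HomO.one : (1 : MvPolynomial ℕ (MvPolynomial (Fin n) k)) ∈ HomO p n k 0 := by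
  rw [← C_1]
  exact HomO.C (isWeightedHomogeneous_one k _)

theorem HomO.X (j : ℕ) : (X j : MvPolynomial ℕ (MvPolynomial (Fin n) k)) ∈ HomO p n k (wT p j) := by
  classical
  intro E
  rw [coeff_X]
  split_ifs with h
  · rw [← h, dT, Finsupp.weight_single, one_smul, sub_self]
    exact isWeightedHomogeneous_one k _
  · exact isWeightedHomogeneous_zero _ _ _

end Bigraded

/-! ### assembly -/

section Assembly

variable {p n : ℕ} [hp : Fact p.Prime]

theorem chg_X_hom (h3 : SpecB3 p n) (P : Form p n) (i : ℕ ⊕ PI p n) :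
    IsWeightedHomogeneous (wVB p n) (P.chg (X i)) (wTY p n i) := by
  rw [Form.chg, aeval_X]
  rcases i with j | m
  · have h1 : wTY p n (Sum.inl j) = wVB p n (Sum.inr (p ^ (j + 1) - 2)) := by
      change wT p j = ((p ^ (j + 1) - 2 : ℕ) : ℤ) + 1
      have h2 : p ^ (j + 1) - 2 + 2 = p ^ (j + 1) :=
        Nat.sub_add_cancel (two_le_pow hp.out (Nat.succ_ne_zero j))
      have h3 : ((p ^ (j + 1) - 2 : ℕ) : ℤ) + 2 = (p : ℤ) ^ (j + 1) := by exact_mod_cast h2
      rw [wT, ← h3]
      ring
    rw [h1]
    exact isWeightedHomogeneous_X (ZMod p) (wVB p n) _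
  · exact h3 P m

/-- An element of `k[v, b]` of weight `w` is mapped to weight `w` in `S[T]`. -/
theorem pi_mem_HomO (h1 : ∀ P : Form p n, Function.Surjective P.chg) (h3 : SpecB3 p n)
    {P P' : Form p n}
    {π : VB p n →ₐ[ZMod p] MvPolynomial ℕ (MvPolynomial (Fin n) (ZMod p))}
    (hT : ∀ j, π (X (Sum.inr (p ^ (j + 1) - 2))) = X j)
    (hY : ∀ m, ¬ IsQ p n m → π (yF p P.F m) = C (P'.pol m)) {w : ℤ} {y : VB p n}
    (hy : IsWeightedHomogeneous (wVB p n) y w) : π y ∈ HomO p n (ZMod p) w := by
  obtain ⟨z, hz, rfl⟩ := exists_homogeneous_preimage (wTY p n) (wVB p n) P.chg (chg_X_hom h3 P)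
    (h1 P) hy
  refine map_mem_of_graded (wTY p n) (HomO p n (ZMod p)) HomO.one HomO.mul (π.comp P.chg)
    (fun i => ?_) hz
  rw [AlgHom.comp_apply, Form.chg, aeval_X]
  rcases i with j | m
  · change π (X (Sum.inr (p ^ (j + 1) - 2))) ∈ HomO p n (ZMod p) (wT p j)
    rw [hT]
    exact HomO.X j
  · change π (yF p P.F (m : ℕ)) ∈ HomO p n (ZMod p) (((m : ℕ) : ℤ) + 1)
    rw [hY m m.2]
    exact HomO.C (P'.hom m)

theorem specB2_of_surjective (h1 : ∀ P : Form p n, Function.Surjective P.chg)
    (h3 : SpecB3 p n) : SpecB2 p n := by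
  intro P P' π hT hY
  refine ⟨fun l => ?_, fun l => symb_of hT hY l⟩
  rw [← mem_HomO, ← qi_cast]
  exact Submodule.sub_mem _ (pi_mem_HomO h1 h3 hT hY (h3 P _)) (HomO.C (P'.hom _))

/-- **(B2)** from (B1) and (B3). -/
theorem specB2_of (h1 : SpecB1 p n) (h3 : SpecB3 p n) : SpecB2 p n :=
  specB2_of_surjective (fun P => (h1 P).2) h3

end Assembly

end Vale.Agent.P221.H246
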