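import Vale.Agent.P251.F.LazReg
import Vale.Agent.P251.F.LazWt
import Vale.Agent.P251.F.WtProj
import Vale.Agent.P251.F.Height

/-!
# P221, block B1: the symbol of the relations `v_j`

Let `p = 0` in `B`, `g` a strict series, `F = g • G`. Then
`v_j(G) = ∑ i ≤ j, v_i(F) T_{j-i}^{p^i}` modulo `I² + I J`, where `T_k` is the coefficient of
`x^{p^k}` in `g`, `I` the ideal of all `v_i(F)` and `J` the ideal of the generators `yF p F m`,
`m + 2` not a power of `p`.
-/

namespace Vale.Agent.P221.H246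

open Vale.Agent.P217 Vale.Agent.P251.F

/-! ### weights of polynomials -/

section Weight

variable {σ k : Type*} [CommRing k]

/-- `X_i ↦ t^{w i} X_i` -/
noncomputable def scaleHom (w : σ → ℕ) :
    MvPolynomial σ k →+* LaurentPolynomial (MvPolynomial σ k) :=
  MvPolynomial.eval₂Hom ((LaurentPolynomial.C).comp MvPolynomial.C)
    (fun i => LaurentPolynomial.C (MvPolynomial.X i) * LaurentPolynomial.T (w i : ℤ))

theorem scaleHom_X (w : σ → ℕ) (i : σ) : scaleHom (k := k) w (MvPolynomial.X i) =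
    LaurentPolynomial.C (MvPolynomial.X i) * LaurentPolynomial.T (w i : ℤ) := by
  rw [scaleHom, MvPolynomial.eval₂Hom_X']

theorem scaleHom_monomial (w : σ → ℕ) (d : σ →₀ ℕ) (a : k) :
    scaleHom w (MvPolynomial.monomial d a) =
      LaurentPolynomial.C (MvPolynomial.monomial d a) *
        LaurentPolynomial.T ((Finsupp.weight w d : ℕ) : ℤ) := by
  induction d using Finsupp.induction with
  | zero =>
    rw [map_zero, Nat.cast_zero, LaurentPolynomial.T_zero, mul_one, scaleHom]
    change MvPolynomial.eval₂Hom _ _ (MvPolynomial.C a) = _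
    rw [MvPolynomial.eval₂Hom_C]
    rfl
  | single_add i n f hf hn ih =>
    have h1 : (MvPolynomial.monomial (Finsupp.single i n + f) a : MvPolynomial σ k) =
        MvPolynomial.X i ^ n * MvPolynomial.monomial f a := by
      rw [MvPolynomial.X_pow_eq_monomial, MvPolynomial.monomial_mul, one_mul]
    rw [h1, map_mul, map_pow, scaleHom_X, ih, map_add, mul_pow, map_mul, map_pow,
      LaurentPolynomial.T_pow, Nat.cast_add, LaurentPolynomial.T_add,
      Finsupp.weight_single]
    rw [smul_eq_mul]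
    push_cast
    ring

theorem isWeightedHomogeneous_of_scale {w : σ → ℕ} {m : ℕ} {f : MvPolynomial σ k}
    (h : scaleHom w f = LaurentPolynomial.C f * LaurentPolynomial.T (m : ℤ)) :
    f.IsWeightedHomogeneous w m := by
  classical
  intro d hd
  by_contra hne
  have h1 : scaleHom w f = ∑ e ∈ f.support,
      LaurentPolynomial.C (MvPolynomial.monomial e (f.coeff e)) *
        LaurentPolynomial.T ((Finsupp.weight w e : ℕ) : ℤ) := by
    conv_lhs => rw [f.as_sum]
    rw [map_sum]
    exact Finset.sum_congr rfl fun e _ => scaleHom_monomial w e _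
  have h2 := congrArg (fun z : LaurentPolynomial (MvPolynomial σ k) =>
    z.coeff ((Finsupp.weight w d : ℕ) : ℤ)) (h1.symm.trans h)
  simp only [coeff_C_mul_TW] at h2
  rw [AddMonoidAlgebra.coeff_sum, Finsupp.finsetSum_apply] at h2
  simp only [coeff_C_mul_TW] at h2
  rw [if_neg (fun h => hne (by exact_mod_cast h.symm))] at h2
  have h3 := congrArg (MvPolynomial.coeff d) h2
  rw [MvPolynomial.coeff_sum, MvPolynomial.coeff_zero] at h3
  rw [Finset.sum_eq_single d] at h3
  · rw [if_pos rfl, MvPolynomial.coeff_monomial, if_pos rfl] at h3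
    exact hd h3
  · intro e _ hed
    split_ifs
    · rw [MvPolynomial.coeff_monomial, if_neg hed]
    · rw [MvPolynomial.coeff_zero]
  · intro hd'
    rw [MvPolynomial.notMem_support_iff.1 hd', map_zero]
    simp

end Weight

/-! ### the ideals `I` and `J` -/

section Ideals

variable {A B : Type*} [CommRing A] [CommRing B]

/-- the ideal of all `v_i(F)` -/
noncomputable def Iv (p : ℕ) (F : Law B) : Ideal B := Ideal.span (Set.range fun i => vv p i F)

/-- the ideal of the generators `yF p F m`, `m + 2` not a power of `p` -/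
noncomputable def Jy (p : ℕ) (F : Law B) : Ideal B :=
  Ideal.span {x | ∃ m, (¬ ∃ k, m + 2 = p ^ k) ∧ yF p F m = x}

theorem vv_mem_Iv (p i : ℕ) (F : Law B) : vv p i F ∈ Iv p F := Ideal.subset_span ⟨i, rfl⟩

theorem yF_mem_Jy {p : ℕ} (F : Law B) {m : ℕ} (h : ¬ ∃ k, m + 2 = p ^ k) : yF p F m ∈ Jy p F :=
  Ideal.subset_span ⟨m, h, rfl⟩

theorem Iv_map (p : ℕ) (φ : A →+* B) (F : Law A) : Iv p (F.map φ) = (Iv p F).map φ := by
  rw [Iv, Iv, Ideal.map_span, ← Set.range_comp]
  congr 2
  funext i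
  exact vv_map p i φ F

theorem Jy_map (p : ℕ) (φ : A →+* B) (F : Law A) : Jy p (F.map φ) = (Jy p F).map φ := by
  rw [Jy, Jy, Ideal.map_span]
  congr 1
  ext x
  constructor
  · rintro ⟨m, hm, rfl⟩
    exact ⟨_, ⟨m, hm, rfl⟩, map_yF p φ F m⟩
  · rintro ⟨_, ⟨m, hm, rfl⟩, rfl⟩
    exact ⟨m, hm, (map_yF p φ F m).symm⟩

theorem Iv_smul_le (p : ℕ) [hp : Fact p.Prime] (F : Law B) (f : InvSeries B) :
    Iv p (f • F) ≤ Iv p F := by
  refine Ideal.span_le.2 ?_
  rintro _ ⟨i, rfl⟩
  have h1 : Ih p (i + 1) F ≤ Iv p F := by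
    refine Ideal.span_le.2 ?_
    rintro _ ⟨j, _, rfl⟩
    exact vv_mem_Iv p j F
  exact h1 (vv_smul_mem p (i + 1) F f i (Nat.lt_succ_self i))

/-- invariance of `I` -/
theorem Iv_smul (p : ℕ) [hp : Fact p.Prime] (F : Law B) (f : InvSeries B) :
    Iv p (f • F) = Iv p F := by
  refine le_antisymm (Iv_smul_le p F f) ?_
  conv_lhs => rw [← inv_smul_smul f F]
  exact Iv_smul_le p (f • F) f⁻¹

/-- the coefficients of the `p`-series lie in `I` -/
theorem coeff_multSeries_mem_Iv (p : ℕ) [hp : Fact p.Prime] (F : Law B) (n : ℕ) :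
    PowerSeries.coeff n (multSeries F.toFG p) ∈ Iv p F := by
  rw [← Ideal.Quotient.eq_zero_iff_mem, ← PowerSeries.coeff_map, map_multSeries]
  refine coeff_multSeries_lt p (F.map (Ideal.Quotient.mk (Iv p F))).toFG (n + 1) (fun i _ => ?_) n
    ((Nat.lt_succ_self n).trans (Nat.lt_pow_self hp.out.one_lt))
  change vv p i (F.map (Ideal.Quotient.mk (Iv p F))) = 0
  rw [vv_map, Ideal.Quotient.eq_zero_iff_mem]
  exact vv_mem_Iv p i F

end Ideals

/-! ### the `p`-series of the universal law modulo `p` -/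

section Univ

variable (p : ℕ) [hp : Fact p.Prime]

theorem yLaw_scale : (yLaw p).map (scaleHom fun n => n + 1) =
    (InvSeries.lin (tU (MvPolynomial ℕ (ZMod p))))⁻¹ • (yLaw p).map LaurentPolynomial.C := by
  have hB : ((p : ℕ) : LaurentPolynomial (MvPolynomial ℕ (ZMod p))) = 0 := by
    rw [← map_natCast (LaurentPolynomial.C (R := MvPolynomial ℕ (ZMod p))),
      ← map_natCast (MvPolynomial.C (σ := ℕ) (R := ZMod p)), CharP.cast_eq_zero, map_zero,
      map_zero]
  refine law_ext_yF (p := p) hB fun n => ?_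
  rw [← map_yF, yF_yLaw, yF_lin_inv_smul, ← map_yF, yF_yLaw, scaleHom_X]
  change _ = (LaurentPolynomial.T 1) ^ (n + 1) * _
  rw [LaurentPolynomial.T_pow, mul_one, mul_comm]

theorem wt_coeff_multSeries (m : ℕ) :
    (PowerSeries.coeff (m + 1) (multSeries (yLaw p).toFG p)).IsWeightedHomogeneous
      (fun n : ℕ => n + 1) m := by
  refine isWeightedHomogeneous_of_scale ?_
  rw [← PowerSeries.coeff_map, map_multSeries]
  change PowerSeries.coeff (m + 1) (multSeries ((yLaw p).map _).toFG p) = _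
  rw [yLaw_scale, coeff_multSeries_lin_inv_smul, Law.map_toFG, ← map_multSeries,
    PowerSeries.coeff_map]
  change (LaurentPolynomial.T 1) ^ m * _ = _
  rw [LaurentPolynomial.T_pow, mul_one, mul_comm]

theorem X_mem_Iv {n k : ℕ} (h : n + 2 = p ^ k) :
    (MvPolynomial.X n : MvPolynomial ℕ (ZMod p)) ∈ Iv p (yLaw p) := by
  have h1 := vv_mem_Iv p k (yLaw p)
  rwa [← yF_eq_vv _ h, yF_yLaw] at h1

theorem X_mem_Jy {n : ℕ} (h : ¬ ∃ k, n + 2 = p ^ k) :
    (MvPolynomial.X n : MvPolynomial ℕ (ZMod p)) ∈ Jy p (yLaw p) := by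
  have h1 := yF_mem_Jy (yLaw p) h
  rwa [yF_yLaw] at h1

theorem Iv_yLaw_le : Iv p (yLaw p) ≤
    Ideal.span (MvPolynomial.X '' {n : ℕ | ∃ k, n + 2 = p ^ k}) := by
  refine Ideal.span_le.2 ?_
  rintro _ ⟨k, rfl⟩
  rcases Nat.eq_zero_or_pos k with rfl | hk
  · have h1 : vv p 0 (yLaw p) = 0 := by
      rw [vv_zero, ← map_natCast (MvPolynomial.C (σ := ℕ) (R := ZMod p)), CharP.cast_eq_zero,
        map_zero]
    change vv p 0 (yLaw p) ∈ _
    rw [h1]
    exact Ideal.zero_mem _
  · have h1 : p ^ k - 2 + 2 = p ^ k := Nat.sub_add_cancel (two_le_pow hp.out hk.ne')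
    have h2 : vv p k (yLaw p) = MvPolynomial.X (p ^ k - 2) := by
      rw [← yF_eq_vv _ h1, yF_yLaw]
    change vv p k (yLaw p) ∈ _
    rw [h2]
    exact Ideal.subset_span ⟨_, ⟨k, h1⟩, rfl⟩

/-- The coefficient of `x^m`, `m` not a power of `p`, in the `p`-series of the universal law. -/
theorem coeff_mem_univ {m : ℕ} (hm : ¬ ∃ k, m = p ^ k) :
    PowerSeries.coeff m (multSeries (yLaw p).toFG p) ∈
      Iv p (yLaw p) * (Iv p (yLaw p) ⊔ Jy p (yLaw p)) := by
  classical
  rcases m with _ | m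
  · rw [PowerSeries.coeff_zero_eq_constantCoeff_apply, constantCoeff_multSeries]
    exact Ideal.zero_mem _
  have hw := wt_coeff_multSeries p m
  have hI := Iv_yLaw_le p (coeff_multSeries_mem_Iv p (yLaw p) (m + 1))
  rw [MvPolynomial.mem_ideal_span_X_image] at hI
  rw [(PowerSeries.coeff (m + 1) (multSeries (yLaw p).toFG p)).as_sum]
  refine Submodule.sum_mem _ fun d hd => ?_
  have hwd := hw (MvPolynomial.mem_support_iff.1 hd)
  obtain ⟨i, ⟨k, hk⟩, hi⟩ := hI d hd
  have h1 : Finsupp.single i 1 ≤ d := by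
    rw [Finsupp.single_le_iff]
    omega
  obtain ⟨d', rfl⟩ := exists_add_of_le h1
  have hd' : d' ≠ 0 := by
    rintro rfl
    rw [add_zero, Finsupp.weight_single] at hwd
    apply hm
    refine ⟨k, ?_⟩
    rw [← hk, ← hwd]
    simp
  obtain ⟨i', hi'⟩ := Finsupp.ne_iff.1 hd'
  have h2 : Finsupp.single i' 1 ≤ d' := by
    rw [Finsupp.single_le_iff]
    rw [Finsupp.zero_apply] at hi'
    omega
  obtain ⟨d'', rfl⟩ := exists_add_of_le h2
  have h3 : ∀ a : ZMod p, (MvPolynomial.monomial (Finsupp.single i 1 + (Finsupp.single i' 1 + d''))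
      a : MvPolynomial ℕ (ZMod p)) = MvPolynomial.X i * (MvPolynomial.X i' *
        MvPolynomial.monomial d'' a) := by
    intro a
    rw [MvPolynomial.X, MvPolynomial.X, MvPolynomial.monomial_mul, MvPolynomial.monomial_mul,
      one_mul, one_mul]
  rw [h3]
  refine Ideal.mul_mem_mul (X_mem_Iv p hk) (Ideal.mul_mem_right _ _ ?_)
  by_cases h4 : ∃ k, i' + 2 = p ^ k
  · obtain ⟨k', hk'⟩ := h4
    exact Ideal.mem_sup_left (X_mem_Iv p hk')
  · exact Ideal.mem_sup_right (X_mem_Jy p h4)

end Univ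

/-! ### the symbol -/

section Symbol

variable {p : ℕ} [hp : Fact p.Prime] {B : Type*} [CommRing B]

/-- The coefficient of `x^m`, `m` not a power of `p`, in the `p`-series of a law, `p = 0`. -/
theorem coeff_multSeries_mem (hB : (p : B) = 0) (F : Law B) {m : ℕ} (hm : ¬ ∃ k, m = p ^ k) :
    PowerSeries.coeff m (multSeries F.toFG p) ∈ Iv p F * (Iv p F ⊔ Jy p F) := by
  rcases subsingleton_or_nontrivial B with h1 | h1
  · rw [Subsingleton.elim (PowerSeries.coeff m (multSeries F.toFG p)) 0]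
    exact Ideal.zero_mem _
  have : CharP B p := (CharP.charP_iff_prime_eq_zero hp.out).2 hB
  set χ : MvPolynomial ℕ (ZMod p) →+* B :=
    MvPolynomial.eval₂Hom (ZMod.castHom dvd_rfl B) (yF p F) with hχ
  have h2 : (yLaw p).map χ = F := by
    have h3 := lift_eq_comp_toY p F
    rw [yLaw, Law.map_map, hχ, ← h3, Laz.univ_map_lift]
  have h4 := Ideal.mem_map_of_mem χ (coeff_mem_univ p hm)
  rw [Ideal.map_mul, Ideal.map_sup, ← Iv_map, ← Jy_map, h2, ← PowerSeries.coeff_map,
    map_multSeries] at h4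
  change PowerSeries.coeff m (multSeries ((yLaw p).map χ).toFG p) ∈ _ at h4
  rwa [h2] at h4

theorem coeff_subst_range {u : PowerSeries B} (hu : PowerSeries.constantCoeff u = 0)
    (f : PowerSeries B) (m : ℕ) :
    PowerSeries.coeff m (PowerSeries.subst u f : PowerSeries B) =
      ∑ d ∈ Finset.range (m + 1), PowerSeries.coeff d f * PowerSeries.coeff m (u ^ d) := by
  rw [PowerSeries.coeff_subst' (hasSubst_of_cc hu)]
  refine (finsum_eq_sum_of_support_subset _ ?_).trans rfl
  intro d hd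
  rw [Function.mem_support] at hd
  rw [Finset.coe_range, Set.mem_Iio]
  by_contra h
  apply hd
  have h1 : (PowerSeries.X : PowerSeries B) ^ d ∣ u ^ d :=
    pow_dvd_pow_of_dvd (PowerSeries.X_dvd_iff.mpr hu) d
  rw [(PowerSeries.X_pow_dvd_iff.mp h1) m (by omega), smul_zero]

theorem coeff_pow_char [CharP B p] (g : PowerSeries B) (i n : ℕ) :
    PowerSeries.coeff n (g ^ (p ^ i)) =
      if p ^ i ∣ n then PowerSeries.coeff (n / p ^ i) g ^ (p ^ i) else 0 := by
  have h1 := MvPowerSeries.map_iterateFrobenius_expand p hp.out.ne_zero g i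
  have h2 : PowerSeries.map (iterateFrobenius B p i)
      (PowerSeries.expand (p ^ i) (pow_ne_zero i hp.out.ne_zero) g) = g ^ (p ^ i) := h1
  rw [← h2, PowerSeries.coeff_map, PowerSeries.coeff_expand]
  split_ifs
  · rw [iterateFrobenius_def]
  · rw [map_zero]

/-- If all coefficients of `P` lie in `I` then those of `P ^ (d + 2)` lie in `I * I`. -/
theorem coeff_pow_mem {I : Ideal B} {P : PowerSeries B} (hP : ∀ n, PowerSeries.coeff n P ∈ I)
    (d n : ℕ) : PowerSeries.coeff n (P ^ (d + 2)) ∈ I * I := by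
  have h1 : P ^ (d + 2) = P * P * P ^ d := by ring
  rw [h1, PowerSeries.coeff_mul]
  refine Ideal.sum_mem _ fun x _ => Ideal.mul_mem_right _ _ ?_
  rw [PowerSeries.coeff_mul]
  exact Ideal.sum_mem _ fun y _ => Ideal.mul_mem_mul (hP _) (hP _)

/-- **The symbol of `v_j`.** -/
theorem symbol (hB : (p : B) = 0) (G : Law B) {g : InvSeries B} (hg : g ∈ strict B) (j : ℕ) :
    vv p j G - ∑ i ∈ Finset.range (j + 1), vv p i (g • G) * g.c (p ^ (j - i) - 1) ^ (p ^ i) ∈
      Iv p (g • G) * (Iv p (g • G) ⊔ Jy p (g • G)) := by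
  rcases subsingleton_or_nontrivial B with h1 | h1
  · rw [Subsingleton.elim (vv p j G - ∑ i ∈ Finset.range (j + 1), vv p i (g • G) *
      g.c (p ^ (j - i) - 1) ^ (p ^ i)) 0]
    exact Ideal.zero_mem _
  have : CharP B p := (CharP.charP_iff_prime_eq_zero hp.out).2 hB
  set F := g • G with hF
  set I := Iv p F with hI
  have hG : Iv p G = I := by rw [hI, hF, Iv_smul]
  set P := multSeries G.toFG p with hP
  set Q := multSeries F.toFG p with hQ
  have hPc : PowerSeries.constantCoeff P = 0 := constantCoeff_multSeries _ _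
  have hPI : ∀ n, PowerSeries.coeff n P ∈ I := fun n => by
    rw [← hG]; exact coeff_multSeries_mem_Iv p G n
  have hg1 : PowerSeries.coeff 1 g.val = 1 := mem_strict.1 hg
  have hg0 : PowerSeries.coeff 0 g.val = 0 := by
    rw [PowerSeries.coeff_zero_eq_constantCoeff_apply, g.cc]
  have hpj : 1 ≤ p ^ j := Nat.one_le_pow _ _ hp.out.pos
  -- the left side
  have hL : vv p j G - PowerSeries.coeff (p ^ j) (PowerSeries.subst P g.val : PowerSeries B) ∈
      I * (I ⊔ Jy p F) := by
    rw [coeff_subst_range hPc]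
    obtain ⟨N, hN⟩ := Nat.exists_eq_add_of_le hpj
    have h2 : p ^ j + 1 = N + 1 + 1 := by omega
    rw [h2, Finset.sum_range_succ', Finset.sum_range_succ', hg0, zero_mul, add_zero, zero_add,
      hg1, one_mul, pow_one]
    have h3 : vv p j G - (∑ d ∈ Finset.range N, PowerSeries.coeff (d + 1 + 1) g.val *
        PowerSeries.coeff (p ^ j) (P ^ (d + 1 + 1)) + PowerSeries.coeff (p ^ j) P) =
        -∑ d ∈ Finset.range N, PowerSeries.coeff (d + 1 + 1) g.val *
        PowerSeries.coeff (p ^ j) (P ^ (d + 1 + 1)) := by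
      rw [vv, ← hP]
      ring
    rw [h3, Ideal.neg_mem_iff]
    refine Ideal.sum_mem _ fun d _ => Ideal.mul_mem_left _ _ ?_
    exact Ideal.mul_mono_right le_sup_left (coeff_pow_mem hPI d (p ^ j))
  have hS : (PowerSeries.subst P g.val : PowerSeries B) = PowerSeries.subst g.val Q :=
    smul_multSeries g G p
  have hR : PowerSeries.coeff (p ^ j) (PowerSeries.subst g.val Q : PowerSeries B) -
      ∑ i ∈ Finset.range (j + 1), vv p i F * g.c (p ^ (j - i) - 1) ^ (p ^ i) ∈
      I * (I ⊔ Jy p F) := by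
    have h2 : ∑ i ∈ Finset.range (j + 1), vv p i F * g.c (p ^ (j - i) - 1) ^ (p ^ i) =
        ∑ d ∈ (Finset.range (j + 1)).image (fun i => p ^ i),
          PowerSeries.coeff d Q * PowerSeries.coeff (p ^ j) (g.val ^ d) := by
      rw [Finset.sum_image (fun a _ b _ h => Nat.pow_right_injective hp.out.two_le h)]
      refine Finset.sum_congr rfl fun i hi => ?_
      rw [Finset.mem_range] at hi
      have h3 : p ^ i ∣ p ^ j := pow_dvd_pow p (by omega)
      rw [coeff_pow_char, if_pos h3, Nat.pow_div (by omega) hp.out.pos, InvSeries.c,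
        Nat.sub_add_cancel (Nat.one_le_pow _ _ hp.out.pos)]
      rfl
    have h3 : (Finset.range (j + 1)).image (fun i => p ^ i) ⊆ Finset.range (p ^ j + 1) := by
      intro d hd
      rw [Finset.mem_image] at hd
      obtain ⟨i, hi, rfl⟩ := hd
      rw [Finset.mem_range] at hi ⊢
      have := Nat.pow_le_pow_right hp.out.pos (show i ≤ j by omega)
      omega
    rw [coeff_subst_range g.cc, h2, ← Finset.sum_sdiff h3, add_sub_cancel_right]
    refine Ideal.sum_mem _ fun d hd => Ideal.mul_mem_right _ _ ?_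
    rw [Finset.mem_sdiff, Finset.mem_range, Finset.mem_image] at hd
    refine coeff_multSeries_mem hB F ?_
    rintro ⟨i, rfl⟩
    apply hd.2
    refine ⟨i, ?_, rfl⟩
    rw [Finset.mem_range]
    have h4 : p ^ i ≤ p ^ j := by omega
    have := (Nat.pow_le_pow_iff_right hp.out.one_lt).1 h4
    omega
  rw [← hS] at hR
  have h5 := Ideal.add_mem _ hL hR
  rwa [sub_add_sub_cancel] at h5

/-- The symbol of `v_j` for `F = strictMk b • G`: `T_0 = 1` and `T_k = b_{p^k - 2}`, `k ≥ 1`. -/
theorem symbol_strictMk (hB : (p : B) = 0) (G : Law B) (b : ℕ → B) (j : ℕ) :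
    vv p j G - (vv p j (strictMk b • G) + ∑ i ∈ Finset.range j,
      vv p i (strictMk b • G) * b (p ^ (j - i) - 2) ^ (p ^ i)) ∈
      Iv p (strictMk b • G) * (Iv p (strictMk b • G) ⊔ Jy p (strictMk b • G)) := by
  have h1 := symbol hB G (strictMk_mem b) j
  rw [Finset.sum_range_succ, Nat.sub_self, pow_zero, Nat.sub_self, c_zero_strictMk, one_pow,
    mul_one, add_comm] at h1
  have h2 : ∀ i ∈ Finset.range j, vv p i (strictMk b • G) *
      (strictMk b).c (p ^ (j - i) - 1) ^ (p ^ i) =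
      vv p i (strictMk b • G) * b (p ^ (j - i) - 2) ^ (p ^ i) := by
    intro i hi
    rw [Finset.mem_range] at hi
    have h3 := two_le_pow hp.out (show j - i ≠ 0 by omega)
    rw [show p ^ (j - i) - 1 = (p ^ (j - i) - 2) + 1 by omega, c_succ_strictMk]
  rwa [Finset.sum_congr rfl h2] at h1

/-- The symbol modulo `I² + J`. -/
theorem symbol_mem_sup (hB : (p : B) = 0) (G : Law B) (b : ℕ → B) (j : ℕ) :
    vv p j G - (vv p j (strictMk b • G) + ∑ i ∈ Finset.range j,
      vv p i (strictMk b • G) * b (p ^ (j - i) - 2) ^ (p ^ i)) ∈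
      Iv p (strictMk b • G) ^ 2 ⊔ Jy p (strictMk b • G) := by
  refine SetLike.le_def.1 ?_ (symbol_strictMk hB G b j)
  rw [Ideal.mul_sup, ← pow_two]
  exact sup_le_sup le_rfl Ideal.mul_le_right

end Symbol

end Vale.Agent.P221.H246
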