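import Vale.Agent.P221.DefsB
import Vale.Agent.P221.H246.Symbol

/-!
# P221, block B2: the symbol of the special generators

`specB2_of` : `SpecB1 p n → SpecB3 p n → SpecB2 p n`.
-/

open MvPolynomial

namespace Vale.Agent.P221.H246

open Vale.Agent.P251.F Vale.Agent.P217

variable {p n : ℕ} [hp : Fact p.Prime]

/-! ### weights and the ideal `(v_1, …, v_n)` -/

section Wt

omit hp

variable {k : Type} [CommRing k]

theorem mem_Iv_of_wt {f : MvPolynomial (Fin n) k} {w : ℤ}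
    (hf : IsWeightedHomogeneous (wV p n) f w) (hw : w ≠ 0) : f ∈ Vale.Agent.P221.Iv n k := by
  have h1 : Vale.Agent.P221.Iv n k = idealOfVars (Fin n) k ^ 1 := by
    rw [pow_one]; rfl
  rw [h1, mem_pow_idealOfVars_iff']
  intro x hx
  by_contra h
  have h2 := hf h
  have h3 : x = 0 := (Finsupp.degree_eq_zero_iff x).1 (by omega)
  rw [h3, map_zero] at h2
  exact hw h2.symm

theorem mem_Iv_sq_of_wt {f : MvPolynomial (Fin n) k} {w : ℤ}
    (hf : IsWeightedHomogeneous (wV p n) f w) (hw : w ≠ 0) (hw' : ∀ a : Fin n, wV p n a ≠ w) :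
    f ∈ Vale.Agent.P221.Iv n k ^ 2 := by
  have h1 : Vale.Agent.P221.Iv n k = idealOfVars (Fin n) k := rfl
  rw [h1, mem_pow_idealOfVars_iff']
  intro x hx
  by_contra h
  have h2 := hf h
  rcases Nat.lt_or_ge x.degree 1 with h4 | h4
  · have h3 : x = 0 := (Finsupp.degree_eq_zero_iff x).1 (by omega)
    rw [h3, map_zero] at h2
    exact hw h2.symm
  · have h5 : x.degree = 1 := by omega
    obtain ⟨a, rfl⟩ := (Finsupp.sum_eq_one_iff x).1 (by
      rw [Finsupp.degree_eq_sum] at h5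
      rw [Finsupp.sum_fintype _ _ (fun _ => rfl)]
      exact h5)
    rw [Finsupp.weight_single, one_smul] at h2
    exact hw' a h2

end Wt

/-- the ideal `(v_1, …, v_n)` of `S[T]` -/
noncomputable def IO (n : ℕ) (k : Type) [CommRing k] :
    Ideal (MvPolynomial ℕ (MvPolynomial (Fin n) k)) := (Vale.Agent.P221.Iv n k).map C

theorem qi_add_two (l : ℕ) : qi p n l + 2 = p ^ (n + 1 + l) :=
  Nat.sub_add_cancel (two_le_pow hp.out (by omega))

theorem not_isQ_of_not_pow {m : ℕ} (h : ¬ ∃ k, m + 2 = p ^ k) : ¬ IsQ p n m := by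
  rintro ⟨l, rfl⟩
  exact h ⟨_, qi_add_two l⟩

theorem not_isQ_of_le {i : ℕ} (hi : i ≠ 0) (hin : i ≤ n) : ¬ IsQ p n (p ^ i - 2) := by
  rintro ⟨l, hl⟩
  have h1 := qi_add_two (p := p) (n := n) l
  rw [← hl, Nat.sub_add_cancel (two_le_pow hp.out hi)] at h1
  have := Nat.pow_right_injective hp.out.two_le h1
  omega

theorem qi_cast (l : ℕ) : ((qi p n l : ℕ) : ℤ) + 1 = dq p n l := by
  have h1 := qi_add_two (p := p) (n := n) l
  have h2 : ((qi p n l : ℕ) : ℤ) + 2 = (p : ℤ) ^ (n + 1 + l) := by exact_mod_cast h1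
  rw [dq, ← h2]
  ring

theorem two_le_cast_p : (2 : ℤ) ≤ p := by exact_mod_cast hp.out.two_le

theorem dq_ne_zero (l : ℕ) : dq p n l ≠ 0 := by
  have h1 : (1 : ℤ) < (p : ℤ) ^ (n + 1 + l) :=
    one_lt_pow₀ (by have := two_le_cast_p (p := p); omega) (by omega)
  rw [dq]
  omega

theorem wV_ne_dq (l : ℕ) (a : Fin n) : wV p n a ≠ dq p n l := by
  have h1 : (p : ℤ) ^ ((a : ℕ) + 1) < (p : ℤ) ^ (n + 1 + l) :=
    pow_lt_pow_right₀ (by have := two_le_cast_p (p := p); omega) (by omega)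
  rw [dq, wV]
  omega

/-! ### the symbol -/

section Symb

variable {P P' : Form p n}
  {π : VB p n →ₐ[ZMod p] MvPolynomial ℕ (MvPolynomial (Fin n) (ZMod p))}

theorem cast_p_eq_zero' : ((p : ℕ) : MvPolynomial ℕ (MvPolynomial (Fin n) (ZMod p))) = 0 := by
  rw [← map_natCast (C (σ := ℕ) (R := MvPolynomial (Fin n) (ZMod p))), cast_p_eq_zero, map_zero]

omit hp in
theorem Form.pol_mem_Iv (P : Form p n) (m : ℕ) : P.pol m ∈ Vale.Agent.P221.Iv n (ZMod p) :=
  mem_Iv_of_wt (P.hom m) (by omega)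

theorem Form.pol_qi_mem (P : Form p n) (l : ℕ) :
    P.pol (qi p n l) ∈ Vale.Agent.P221.Iv n (ZMod p) ^ 2 := by
  have h1 := P.hom (qi p n l)
  rw [qi_cast] at h1
  exact mem_Iv_sq_of_wt h1 (dq_ne_zero l) (wV_ne_dq l)

/-- The law `F` over `S[T]`. -/
theorem map_F (P : Form p n)
    (π : VB p n →ₐ[ZMod p] MvPolynomial ℕ (MvPolynomial (Fin n) (ZMod p))) :
    P.F.map π.toRingHom = strictMk (fun m => π (X (Sum.inr m))) • P.G.map π.toRingHom := by
  rw [Form.F, InvSeries.map_smul, map_strictMk]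
  rfl

theorem yF_map_F (m : ℕ) : yF p (P.F.map π.toRingHom) m = π (yF p P.F m) :=
  (map_yF p π.toRingHom P.F m).symm

theorem yF_map_G (m : ℕ) :
    yF p (P.G.map π.toRingHom) m = π (rename (Sum.inl : Fin n → Fin n ⊕ ℕ) (P.pol m)) := by
  rw [← map_yF, Form.G, ← map_yF, Form.yF_law]
  rfl

theorem C_pol_mem (P' : Form p n) (m : ℕ) : C (P'.pol m) ∈ IO n (ZMod p) :=
  Ideal.mem_map_of_mem C (Form.pol_mem_Iv P' m)

/-- All the invariants of the two laws over `S[T]` lie in `(v_1, …, v_n)`. -/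
theorem ideals_le (hY : ∀ m, ¬ IsQ p n m → π (yF p P.F m) = C (P'.pol m)) :
    (∀ a : Fin n, π (X (Sum.inl a)) ∈ IO n (ZMod p)) ∧
      Iv p (P.F.map π.toRingHom) ≤ IO n (ZMod p) ∧ Jy p (P.F.map π.toRingHom) ≤ IO n (ZMod p) := by
  set F := P.F.map π.toRingHom with hF
  set G := P.G.map π.toRingHom with hG
  have hFG : F = strictMk (fun m => π (X (Sum.inr m))) • G := map_F P π
  have h0 : ∀ H : Law (MvPolynomial ℕ (MvPolynomial (Fin n) (ZMod p))), vv p 0 H = 0 := fun H => by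
    rw [vv_zero, cast_p_eq_zero']
  have h1 : Ih p (n + 1) F ≤ IO n (ZMod p) := by
    refine Ideal.span_le.2 ?_
    rintro _ ⟨i, hi, rfl⟩
    rcases Nat.eq_zero_or_pos i with rfl | hi0
    · rw [h0]; exact Ideal.zero_mem _
    · rw [← yF_pow_sub hp.out F hi0.ne', hF, yF_map_F,
        hY _ (not_isQ_of_le hi0.ne' (Nat.lt_succ_iff.1 hi))]
      exact C_pol_mem P' _
  have h2 : ∀ a : Fin n, π (X (Sum.inl a)) ∈ IO n (ZMod p) := by
    intro a
    have h3 : vv p ((a : ℕ) + 1) G ∈ Ih p (n + 1) G :=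
      vv_mem_Ih (Nat.succ_lt_succ a.2) G
    rw [← Ih_smul p (n + 1) G (strictMk fun m => π (X (Sum.inr m))), ← hFG] at h3
    have h4 := h1 h3
    rwa [← yF_pow_sub hp.out G (Nat.succ_ne_zero _), hG, yF_map_G, P.std, rename_X] at h4
  have h3 : ∀ f ∈ Vale.Agent.P221.Iv n (ZMod p),
      π (rename (Sum.inl : Fin n → Fin n ⊕ ℕ) f) ∈ IO n (ZMod p) := by
    intro f hf
    have h4 : (Vale.Agent.P221.Iv n (ZMod p)).map
        (π.comp (rename (Sum.inl : Fin n → Fin n ⊕ ℕ))).toRingHom ≤ IO n (ZMod p) := by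
      rw [Vale.Agent.P221.Iv, Ideal.map_span, Ideal.span_le]
      rintro _ ⟨_, ⟨a, rfl⟩, rfl⟩
      change π (rename (Sum.inl : Fin n → Fin n ⊕ ℕ) (X a)) ∈ IO n (ZMod p)
      rw [rename_X]
      exact h2 a
    exact h4 (Ideal.mem_map_of_mem _ hf)
  refine ⟨h2, ?_, ?_⟩
  · rw [hFG, Iv_smul]
    refine Ideal.span_le.2 ?_
    rintro _ ⟨i, rfl⟩
    change vv p i G ∈ IO n (ZMod p)
    rcases Nat.eq_zero_or_pos i with rfl | hi0
    · rw [h0]; exact Ideal.zero_mem _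
    · rw [← yF_pow_sub hp.out G hi0.ne', hG, yF_map_G]
      exact h3 _ (Form.pol_mem_Iv P _)
  · refine Ideal.span_le.2 ?_
    rintro _ ⟨m, hm, rfl⟩
    change yF p F m ∈ IO n (ZMod p)
    rw [hF, yF_map_F, hY m (not_isQ_of_not_pow hm)]
    exact C_pol_mem P' _

/-- The relation in `S[T]` modulo `(v)²`. -/
theorem relation_mem (hT : ∀ j, π (X (Sum.inr (p ^ (j + 1) - 2))) = X j)
    (hY : ∀ m, ¬ IsQ p n m → π (yF p P.F m) = C (P'.pol m)) (l : ℕ) :
    π (yF p P.F (qi p n l)) + R p n (ZMod p) l +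
      ∑ m ∈ Finset.range l, X (l - m - 1) ^ p ^ (n + 1 + m) * π (yF p P.F (qi p n m)) ∈
      IO n (ZMod p) ^ 2 := by
  obtain ⟨h2, hI, hJ⟩ := ideals_le hY
  set F := P.F.map π.toRingHom with hF
  set G := P.G.map π.toRingHom with hG
  have hFG : F = strictMk (fun m => π (X (Sum.inr m))) • G := map_F P π
  have h0 : ∀ H : Law (MvPolynomial ℕ (MvPolynomial (Fin n) (ZMod p))), vv p 0 H = 0 := fun H => by
    rw [vv_zero, cast_p_eq_zero']
  have h1 := symbol_strictMk (p := p) cast_p_eq_zero' G (fun m => π (X (Sum.inr m))) (n + 1 + l)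
  rw [← hFG] at h1
  have h3 : Iv p F * (Iv p F ⊔ Jy p F) ≤ IO n (ZMod p) ^ 2 := by
    rw [pow_two]
    exact Ideal.mul_mono hI (sup_le hI hJ)
  have h4 := h3 h1
  have hq : ∀ m, vv p (n + 1 + m) F = π (yF p P.F (qi p n m)) := by
    intro m
    rw [← yF_eq_vv F (qi_add_two m), hF, yF_map_F]
  have h5 : vv p (n + 1 + l) G ∈ IO n (ZMod p) ^ 2 := by
    rw [← yF_eq_vv G (qi_add_two l), hG, yF_map_G]
    have h6 : (Vale.Agent.P221.Iv n (ZMod p)).map
        (π.comp (rename (Sum.inl : Fin n → Fin n ⊕ ℕ))).toRingHom ≤ IO n (ZMod p) := by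
      rw [Vale.Agent.P221.Iv, Ideal.map_span, Ideal.span_le]
      rintro _ ⟨_, ⟨a, rfl⟩, rfl⟩
      change π (rename (Sum.inl : Fin n → Fin n ⊕ ℕ) (X a)) ∈ IO n (ZMod p)
      rw [rename_X]
      exact h2 a
    have h7 := Ideal.mem_map_of_mem (π.comp (rename (Sum.inl : Fin n → Fin n ⊕ ℕ))).toRingHom
      (Form.pol_qi_mem P l)
    rw [Ideal.map_pow] at h7
    exact Ideal.pow_right_mono h6 2 h7
  have h6 := Ideal.sub_mem _ h5 h4
  rw [sub_sub_cancel] at h6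
  have h7 : ∑ i ∈ Finset.range (n + 1 + l), vv p i F *
      π (X (Sum.inr (p ^ (n + 1 + l - i) - 2))) ^ p ^ i = R p n (ZMod p) l +
      ∑ m ∈ Finset.range l, X (l - m - 1) ^ p ^ (n + 1 + m) * π (yF p P.F (qi p n m)) := by
    rw [Finset.sum_range_add, Finset.sum_range_succ', h0, zero_mul, add_zero]
    congr 1
    · rw [R, Finset.sum_range]
      refine Finset.sum_congr rfl fun a _ => ?_
      have h8 : n + 1 + l - ((a : ℕ) + 1) = (n - 1 - a + l) + 1 := by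
        have := a.2
        omega
      rw [h8, hT, ← yF_pow_sub hp.out F (Nat.succ_ne_zero _), hF, yF_map_F,
        hY _ (not_isQ_of_le (Nat.succ_ne_zero _) a.2), P'.std]
    · refine Finset.sum_congr rfl fun m hm => ?_
      rw [Finset.mem_range] at hm
      have h8 : n + 1 + l - (n + 1 + m) = (l - m - 1) + 1 := by omega
      rw [h8, hT, hq, mul_comm]
  rw [h7, hq, ← add_assoc] at h6
  exact h6

theorem symb_of (hT : ∀ j, π (X (Sum.inr (p ^ (j + 1) - 2))) = X j)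
    (hY : ∀ m, ¬ IsQ p n m → π (yF p P.F m) = C (P'.pol m)) (l : ℕ) :
    ∃ h : ℕ → MvPolynomial ℕ (MvPolynomial (Fin n) (ZMod p)), ∀ E,
      ((π (yF p P.F (qi p n l)) - C (P'.pol (qi p n l))) + R p n (ZMod p) l +
        ∑ m ∈ Finset.range l, h m * (π (yF p P.F (qi p n m)) - C (P'.pol (qi p n m)))).coeff E ∈
        (Vale.Agent.P221.Iv n (ZMod p)) ^ 2 := by
  refine ⟨fun m => X (l - m - 1) ^ p ^ (n + 1 + m), ?_⟩
  rw [← mem_map_C_iff, Ideal.map_pow]
  change _ ∈ IO n (ZMod p) ^ 2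
  have hC : ∀ m, C (P'.pol (qi p n m)) ∈ IO n (ZMod p) ^ 2 := by
    intro m
    have h1 := Ideal.mem_map_of_mem (C (σ := ℕ)) (Form.pol_qi_mem P' m)
    rwa [Ideal.map_pow] at h1
  have h1 := relation_mem hT hY l
  have h2 : ∑ m ∈ Finset.range l, X (l - m - 1) ^ p ^ (n + 1 + m) * C (P'.pol (qi p n m)) ∈
      IO n (ZMod p) ^ 2 := Ideal.sum_mem _ fun m _ => Ideal.mul_mem_left _ _ (hC m)
  have h3 := Ideal.sub_mem _ (Ideal.sub_mem _ h1 (hC l)) h2
  have h4 : (π (yF p P.F (qi p n l)) - C (P'.pol (qi p n l))) + R p n (ZMod p) l +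
      ∑ m ∈ Finset.range l, X (l - m - 1) ^ p ^ (n + 1 + m) *
        (π (yF p P.F (qi p n m)) - C (P'.pol (qi p n m))) =
      π (yF p P.F (qi p n l)) + R p n (ZMod p) l +
      ∑ m ∈ Finset.range l, X (l - m - 1) ^ p ^ (n + 1 + m) * π (yF p P.F (qi p n m)) -
      C (P'.pol (qi p n l)) -
      ∑ m ∈ Finset.range l, X (l - m - 1) ^ p ^ (n + 1 + m) * C (P'.pol (qi p n m)) := by
    simp only [mul_sub, Finset.sum_sub_distrib]
    ring
  rw [h4]
  exact h3

end Symb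

end Vale.Agent.P221.H246
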