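import Vale.Agent.P221.H246.SymbolZ
import Vale.Agent.P221.H246.TypS
import Vale.Agent.P257.H80.HazVV
import Vale.Agent.P257.H80.HazWt

/-!
# P221 (helper246): the right unit modulo `I ^ 2`

`F = (haz p).map φ`, `g` a strict series and `g⁻¹ • F = (haz p).map ψ`. Then
`ψ (v_{k+1}) = ∑ i ≤ k + 1, v_i S_{k+1-i}^{p^i}` modulo `I ^ 2`, where `v_i = φ (v_i)`, `v_0 = p`,
`S_j = g.c (p^j - 1)` and `I = (p, φ (v_1), φ (v_2), …)`.
-/

namespace Vale.Agent.P221.H246

open Vale.Agent.P217 Vale.Agent.P251.F Vale.Agent.P257.H80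

variable (p : ℕ) [hp : Fact p.Prime]

/-! ### weights -/

theorem haz_scaleHom : (haz p).map (scaleHom (wv p)) =
    (InvSeries.lin (tU (MvPolynomial ℕ ℤ)))⁻¹ • (haz p).map LaurentPolynomial.C := by
  refine haz_lin p (tU (MvPolynomial ℕ ℤ)) fun k => ?_
  rw [scaleHom_X]
  change _ = (LaurentPolynomial.T 1) ^ (p ^ (k + 1) - 1) * _
  rw [LaurentPolynomial.T_pow, mul_one, mul_comm]
  rfl

theorem wt_vv_haz (k : ℕ) :
    (vv p (k + 1) (haz p)).IsWeightedHomogeneous (wv p) (p ^ (k + 1) - 1) := by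
  refine isWeightedHomogeneous_of_scale ?_
  have h1 : p ^ (k + 1) = (p ^ (k + 1) - 1) + 1 :=
    (Nat.sub_add_cancel (Nat.one_le_pow _ _ hp.out.pos)).symm
  rw [vv, h1, ← PowerSeries.coeff_map, map_multSeries, Nat.add_sub_cancel]
  change PowerSeries.coeff _ (multSeries ((haz p).map _).toFG p) = _
  rw [haz_scaleHom, coeff_multSeries_lin_inv_smul, Law.map_toFG, ← map_multSeries,
    PowerSeries.coeff_map]
  change (LaurentPolynomial.T 1) ^ _ * _ = _
  rw [LaurentPolynomial.T_pow, mul_one, mul_comm]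

/-! ### the ideal `(p, v_1, v_2, …)` -/

variable {A B : Type*} [CommRing A] [CommRing B]

/-- the ideal `(p, v_1, v_2, …)` -/
def IB (φ : MvPolynomial ℕ ℤ →+* B) : Ideal B :=
  Ideal.span (insert (p : B) (Set.range fun j => φ (MvPolynomial.X j)))

omit hp in
theorem p_mem_IB (φ : MvPolynomial ℕ ℤ →+* B) : (p : B) ∈ IB p φ :=
  Ideal.subset_span (Set.mem_insert _ _)

omit hp in
theorem X_mem_IB (φ : MvPolynomial ℕ ℤ →+* B) (j : ℕ) : φ (MvPolynomial.X j) ∈ IB p φ :=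
  Ideal.subset_span (Set.mem_insert_of_mem _ ⟨j, rfl⟩)

omit hp in
theorem HI_le_IB (φ : MvPolynomial ℕ ℤ →+* B) (k : ℕ) : HI p φ k ≤ IB p φ := by
  refine Ideal.span_le.2 (Set.insert_subset (p_mem_IB p φ) ?_)
  rintro _ ⟨j, _, rfl⟩
  exact X_mem_IB p φ j

omit hp in
theorem IB_map (φ : MvPolynomial ℕ ℤ →+* A) (θ : A →+* B) :
    (IB p φ).map θ = IB p (θ.comp φ) := by
  rw [IB, IB, Ideal.map_span, Set.image_insert_eq, map_natCast, ← Set.range_comp]
  rfl

/-- `v_0 = p, v_1, v_2, …` -/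
noncomputable def v0 (φ : MvPolynomial ℕ ℤ →+* B) : ℕ → B
  | 0 => (p : B)
  | i + 1 => φ (MvPolynomial.X i)

omit hp in
theorem v0_mem (φ : MvPolynomial ℕ ℤ →+* B) (i : ℕ) : v0 p φ i ∈ IB p φ := by
  rcases i with _ | i
  · exact p_mem_IB p φ
  · exact X_mem_IB p φ i

omit hp in
theorem law_map_id (F : Law B) : F.map (RingHom.id B) = F := by
  apply Law.ext_ps
  rw [Law.map_ps, MvPowerSeries.map_id]
  rfl

omit hp in
theorem exists_single_add {e : ℕ →₀ ℕ} (h : e ≠ 0) :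
    ∃ (j : ℕ) (e' : ℕ →₀ ℕ), e = Finsupp.single j 1 + e' := by
  obtain ⟨j, hj⟩ := Finsupp.ne_iff.1 h
  rw [Finsupp.coe_zero, Pi.zero_apply] at hj
  refine ⟨j, e - Finsupp.single j 1, (add_tsub_cancel_of_le ?_).symm⟩
  rw [Finsupp.single_le_iff]
  omega

theorem vv_haz_univ_mem (k : ℕ) :
    vv p (k + 1) (haz p) - MvPolynomial.X k ∈ IB p (RingHom.id (MvPolynomial ℕ ℤ)) ^ 2 := by
  set f := vv p (k + 1) (haz p) - MvPolynomial.X k with hf
  have h1 : f ∈ HI p (RingHom.id (MvPolynomial ℕ ℤ)) k := by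
    have h := vv_haz_sub_mem p (RingHom.id (MvPolynomial ℕ ℤ)) k
    rw [law_map_id] at h
    exact h
  have h2 : f.IsWeightedHomogeneous (wv p) (p ^ (k + 1) - 1) :=
    Submodule.sub_mem (MvPolynomial.weightedHomogeneousSubmodule ℤ (wv p) (p ^ (k + 1) - 1))
      (wt_vv_haz p k) (MvPolynomial.isWeightedHomogeneous_X ℤ (wv p) k)
  -- the coefficient of `v_{k+1}` is divisible by `p`
  have h3 : (p : ℤ) ∣ f.coeff (Finsupp.single k 1) := by
    have h4 : HI p (RingHom.id (MvPolynomial ℕ ℤ)) k =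
        Ideal.span {(p : MvPolynomial ℕ ℤ)} ⊔ Ideal.span (MvPolynomial.X '' {j | j < k}) := by
      rw [HI, Set.insert_eq, Ideal.span_union]
      rfl
    rw [h4] at h1
    obtain ⟨y, hy, z, hz, hyz⟩ := Submodule.mem_sup.1 h1
    obtain ⟨y', rfl⟩ := Ideal.mem_span_singleton.1 hy
    have h5 : z.coeff (Finsupp.single k 1) = 0 := by
      by_contra hne
      obtain ⟨i, hi, hi'⟩ := MvPolynomial.mem_ideal_span_X_image.1 hz _
        (MvPolynomial.mem_support_iff.2 hne)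
      change i < k at hi
      rw [Finsupp.single_apply, if_neg (by omega)] at hi'
      exact hi' rfl
    rw [← hyz, MvPolynomial.coeff_add, h5, add_zero]
    have h6 : ((p : ℕ) : MvPolynomial ℕ ℤ) = MvPolynomial.C (p : ℤ) := by
      rw [map_natCast]
    rw [h6, MvPolynomial.coeff_C_mul]
    exact dvd_mul_right _ _
  have hX : ∀ j, (MvPolynomial.X j : MvPolynomial ℕ ℤ) ∈
      IB p (RingHom.id (MvPolynomial ℕ ℤ)) := fun j => X_mem_IB p (RingHom.id _) j
  have hpI : ((p : ℕ) : MvPolynomial ℕ ℤ) ∈ IB p (RingHom.id (MvPolynomial ℕ ℤ)) :=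
    p_mem_IB p (RingHom.id _)
  rw [f.as_sum]
  refine Ideal.sum_mem _ fun e he => ?_
  have hw := h2 (MvPolynomial.mem_support_iff.1 he)
  have h0 : e ≠ 0 := by
    rintro rfl
    have hpk : 1 < p ^ (k + 1) := Nat.one_lt_pow (Nat.succ_ne_zero k) hp.out.one_lt
    rw [map_zero] at hw
    omega
  obtain ⟨j, e', rfl⟩ := exists_single_add h0
  rcases eq_or_ne e' 0 with rfl | h1'
  · rw [add_zero] at hw ⊢
    rw [Finsupp.weight_single, smul_eq_mul, one_mul, wv] at hw
    have hj : j = k := by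
      have h9 : p ^ (j + 1) = p ^ (k + 1) := by
        have h10 := Nat.one_le_pow (j + 1) p hp.out.pos
        have h11 := Nat.one_le_pow (k + 1) p hp.out.pos
        omega
      have := Nat.pow_right_injective hp.out.two_le h9
      omega
    subst hj
    obtain ⟨c, hc⟩ := h3
    have h9 : MvPolynomial.monomial (Finsupp.single j 1) (f.coeff (Finsupp.single j 1)) =
        ((p : ℕ) : MvPolynomial ℕ ℤ) * MvPolynomial.X j * MvPolynomial.C c := by
      rw [hc, ← MvPolynomial.C_mul_X_eq_monomial, map_mul, map_natCast]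
      ring
    rw [h9, sq]
    exact Ideal.mul_mem_right _ _ (Ideal.mul_mem_mul hpI (hX j))
  · obtain ⟨j', e'', rfl⟩ := exists_single_add h1'
    have h9 : ∀ c : ℤ, MvPolynomial.monomial (Finsupp.single j 1 + (Finsupp.single j' 1 + e'')) c =
        (MvPolynomial.X j : MvPolynomial ℕ ℤ) * MvPolynomial.X j' *
          MvPolynomial.monomial e'' c := by
      intro c
      rw [MvPolynomial.X, MvPolynomial.X, mul_assoc, MvPolynomial.monomial_mul,
        MvPolynomial.monomial_mul, one_mul, one_mul]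
    rw [h9, sq]
    exact Ideal.mul_mem_right _ _ (Ideal.mul_mem_mul (hX j) (hX j'))

/-- `v_i(F) = v_i` modulo `I ^ 2` -/
theorem vv_sub_mem (φ : MvPolynomial ℕ ℤ →+* B) (i : ℕ) :
    vv p i ((haz p).map φ) - v0 p φ i ∈ IB p φ ^ 2 := by
  rcases i with _ | k
  · rw [vv_zero, v0, sub_self]
    exact Ideal.zero_mem _
  · have h1 := Ideal.mem_map_of_mem φ (vv_haz_univ_mem p k)
    rw [Ideal.map_pow, IB_map, RingHom.comp_id, map_sub, ← vv_map] at h1
    exact h1

theorem Iv_haz (φ : MvPolynomial ℕ ℤ →+* B) : Iv p ((haz p).map φ) = IB p φ := by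
  apply le_antisymm
  · refine Ideal.span_le.2 ?_
    rintro _ ⟨i, rfl⟩
    have h1 : vv p i ((haz p).map φ) = (vv p i ((haz p).map φ) - v0 p φ i) + v0 p φ i := by ring
    change vv p i ((haz p).map φ) ∈ _
    rw [h1]
    exact Ideal.add_mem _ (Ideal.pow_le_self two_ne_zero (vv_sub_mem p φ i)) (v0_mem p φ i)
  · have key : ∀ k, φ (MvPolynomial.X k) ∈ Iv p ((haz p).map φ) := by
      intro k
      induction k using Nat.strong_induction_on with
      | _ k ih =>
        have h1 : HI p φ k ≤ Iv p ((haz p).map φ) := by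
          refine Ideal.span_le.2 (Set.insert_subset (natCast_mem_Iv p _) ?_)
          rintro _ ⟨j, hj, rfl⟩
          exact ih j hj
        have h2 : φ (MvPolynomial.X k) = vv p (k + 1) ((haz p).map φ) -
          (vv p (k + 1) ((haz p).map φ) - φ (MvPolynomial.X k)) := by ring
        rw [h2]
        exact Ideal.sub_mem _ (vv_mem_Iv p _ _) (h1 (vv_haz_sub_mem p φ k))
    refine Ideal.span_le.2 (Set.insert_subset (natCast_mem_Iv p _) ?_)
    rintro _ ⟨j, rfl⟩
    exact key j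

theorem Jy_haz_le (φ : MvPolynomial ℕ ℤ →+* B) : Jy p ((haz p).map φ) ≤ IB p φ := by
  refine Ideal.span_le.2 ?_
  rintro _ ⟨m, hm, rfl⟩
  rw [SetLike.mem_coe, ← Ideal.Quotient.eq_zero_iff_mem, map_yF, Law.map_map]
  have h1 : (Ideal.Quotient.mk (IB p φ)).comp φ = spZ (B ⧸ IB p φ) := by
    apply MvPolynomial.ringHom_ext
    · intro r
      simp
    · intro i
      rw [RingHom.comp_apply, Ideal.Quotient.eq_zero_iff_mem.2 (X_mem_IB p φ i)]
      simp [spZ]
  rw [h1, haz_spZ, yF_eq_xC _ hm, xC_addLaw]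

/-- **The right unit modulo `I ^ 2`.** -/
theorem eta_mem {φ ψ : MvPolynomial ℕ ℤ →+* B} {g : InvSeries B} (hg : g ∈ strict B)
    (h : g⁻¹ • (haz p).map φ = (haz p).map ψ) (k : ℕ) :
    IB p ψ = IB p φ ∧ ψ (MvPolynomial.X k) - ∑ i ∈ Finset.range (k + 2),
      v0 p φ i * g.c (p ^ (k + 1 - i) - 1) ^ (p ^ i) ∈ IB p φ ^ 2 := by
  have h0 : g • (haz p).map ψ = (haz p).map φ := by rw [← h, smul_inv_smul]
  have h1 : IB p ψ = IB p φ := by rw [← Iv_haz, ← Iv_haz, ← h0, Iv_smul]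
  refine ⟨h1, ?_⟩
  have h2 := symbolZ (p := p) ((haz p).map ψ) hg (k + 1)
  rw [h0, Iv_haz] at h2
  have h3 : IB p φ * (IB p φ ⊔ Jy p ((haz p).map φ)) ≤ IB p φ ^ 2 := by
    rw [sq]
    exact Ideal.mul_mono_right (sup_le le_rfl (Jy_haz_le p φ))
  have h4 := h3 h2
  have h5 := vv_sub_mem p ψ (k + 1)
  rw [h1] at h5
  have h6 : ∑ i ∈ Finset.range (k + 2), vv p i ((haz p).map φ) *
      g.c (p ^ (k + 1 - i) - 1) ^ (p ^ i) - ∑ i ∈ Finset.range (k + 2),
      v0 p φ i * g.c (p ^ (k + 1 - i) - 1) ^ (p ^ i) ∈ IB p φ ^ 2 := by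
    rw [← Finset.sum_sub_distrib]
    refine Ideal.sum_mem _ fun i _ => ?_
    rw [← sub_mul]
    exact Ideal.mul_mem_right _ _ (vv_sub_mem p φ i)
  have h7 := Ideal.add_mem _ (Ideal.sub_mem _ h4 h5) h6
  convert h7 using 1
  rw [v0]
  ring

end Vale.Agent.P221.H246
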