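import Vale.Agent.P221.H903.E3
import Vale.Agent.P221.H924.Std
import Vale.Agent.P221.H509.Match
import Vale.Agent.P221.T.H598.Mult

/-!
# P221, part (E3-5) (helper246): forms of the statement layer

`isForm_of_khyp` : a quotient map `q : P ⟶ B` of the `p`-complete Brown-Peterson spectrum `P` with
`KHyp p C x q`, where the `x l` are the multiplications by `v_{n+1+l}`, gives a form `B` of `BP⟨n⟩`.
-/

open CategoryTheory MonoidalCategory MonObj Limits Pretriangulated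
open MvPolynomial (C X coeff monomial)

set_option linter.unusedSectionVars false

noncomputable section

namespace Vale.Agent.P221.H246

open Vale.Agent.P251 Vale.Agent.P251.S Vale.Agent.P251.T Vale.Agent.P251.M Vale.Agent.P251.F
  Vale.Agent.P251.I EvenSpheres Vale.Agent.P257.H702 Vale.Agent.P257.H80 Vale.Agent.P251.Q
  Vale.Agent.P251.St Vale.Agent.P257.St Vale.Agent.P221.H509 Vale.Agent.P221.H924
open Vale.Agent.P221.T (BPS sV KK dd ext hat IsLin rmul gc fm)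
open Vale.Agent.P221.H903 (KHyp HH xh tm)

variable {T : SHCat} {S : Susp T} {p : ℕ} [hp : Fact p.Prime] {n : ℕ} {P : RingSp T}
  {φ : P257.St.GHom S p P} {Pc W : T.C} (b : BPS p P.obj Pc W)

/-- multiplication by the Hazewinkel generators -/
theorem exists_theta (hv : Matches b φ) (i : ℕ) {k : ℤ} (hk : k = sV p (i + 1)) :
    ∃ θ : P.obj⟦k⟧ ≅ P.obj ⊗ S.obj (Cn (p ^ (i + 1) - 1)),
      hat b.MP (b.cls k (X i)) = θ.hom ≫ mx (fun j => hazV φ j) (i + 1) ≫ b.c := by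
  subst hk
  obtain ⟨ε, hε⟩ := hv i
  refine ⟨(shiftFunctor T.C (sV p (i + 1))).mapIso (ρ_ P.obj).symm ≪≫
    ((tensorLeft P.obj).commShiftIso (sV p (i + 1))).symm.app (𝟙_ T.C) ≪≫
      (tensorLeft P.obj).mapIso ε, ?_⟩
  rw [Vale.Agent.P221.T.H598.hat_cls_X, hε]
  unfold rmul mx fm
  rw [Functor.map_comp]
  simp only [Iso.trans_hom, Functor.mapIso_hom, Iso.symm_hom, Category.assoc, Iso.app_hom]
  rfl

theorem tm_shift {C P P' Z : T.C} {e : ℤ} (f : P' ⟶ P) (a : P⟦e⟧ ⟶ Z) :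
    tm C (f⟦e⟧' ≫ a) = (f ▷ C)⟦e⟧' ≫ tm C a := Vale.Agent.P221.T.shift_fm (tensorRight C) f a

/-- the Hazewinkel generators are polynomial generators -/
theorem isPolyGen_hazV (φ : P257.St.GHom S p P) (j : ℕ) (hj : 0 < j) :
    P221.St.IsPolyGen φ j (hazV φ j) := by
  obtain ⟨i, rfl⟩ : ∃ i, j = i + 1 := ⟨j - 1, by omega⟩
  have h1 : ¬ (p : ℤ) ∣ 1 := fun h =>
    hp.out.one_lt.ne' (by exact_mod_cast Int.eq_one_of_dvd_one (Int.natCast_nonneg p) h)
  refine ⟨1, ⟨vEl p (i + 1), vEl_mem p (i + 1)⟩, h1, ?_, ?_⟩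
  · have h2 : MvPolynomial.coeff (Finsupp.single (i + 1 - 1) 1)
        (MvPolynomial.X i : MvPolynomial ℕ ℤ) = 1 := by
      rw [Nat.add_sub_cancel, MvPolynomial.coeff_X, if_pos rfl]
    change ¬ (p : ℤ) ∣ MvPolynomial.coeff (Finsupp.single (i + 1 - 1) 1)
      (MvPolynomial.X i : MvPolynomial ℕ ℤ)
    rw [h2]
    exact h1
  · change (1 : ℤ) • hazV φ (i + 1) = _
    rw [one_smul]
    rfl

include b in
/-- the completion is an isomorphism modulo `p` -/
theorem isIso_c {C : T.C} {i : 𝟙_ T.C ⟶ C} {δ : C ⟶ (𝟙_ T.C)⟦(1 : ℤ)⟧}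
    (hC : Triangle.mk ((p : ℤ) • 𝟙 (𝟙_ T.C)) i δ ∈ distTriang T.C) : IsIso (b.c ▷ C) :=
  H395.isIso_mod_of_univ hC b.c b.cP fun Z hZ f => (b.c_bij0' Z hZ).existsUnique f

/-- **(E3-5)** -/
theorem isForm_of_khyp {o : St.Oriented S P} (hP : P257.St.IsBrownPeterson p o φ)
    (hv : Matches b φ) {xc : ∀ l, Pc⟦dd p n l⟧ ⟶ Pc}
    (hx : ∀ l, b.c⟦dd p n l⟧' ≫ xc l = hat b.MP (b.cls (dd p n l) (X (n + l))))
    {C : T.C} {i : 𝟙_ T.C ⟶ C} {δ : C ⟶ (𝟙_ T.C)⟦(1 : ℤ)⟧}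
    (hC : Triangle.mk ((p : ℤ) • 𝟙 (𝟙_ T.C)) i δ ∈ distTriang T.C) {B : T.C} {q : Pc ⟶ B}
    (H : KHyp p C xc q) (MB : ModStr P.obj B) (hq : b.MP.IsLinear MB q) :
    P221.St.IsForm S p n B := by
  let x : ∀ j : ℕ, SHCat.Hom (S.obj (Cn (p ^ j - 1))) P.obj := fun j => hazV φ j
  -- the generators in terms of the statement layer
  have hθ : ∀ l, ∃ θ : P.obj⟦dd p n l⟧ ≅ P.obj ⊗ S.obj (Cn (p ^ (n + l + 1) - 1)),
      b.c⟦dd p n l⟧' ≫ xc l = θ.hom ≫ mx x (n + l + 1) ≫ b.c := fun l => by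
    rw [hx]
    exact exists_theta b hv (n + l) (by unfold dd; congr 1; omega)
  choose θ hθ using hθ
  have hq' : μ[P.obj] ≫ b.c ≫ q = (P.obj ◁ (b.c ≫ q)) ≫ MB.act := by
    have h1 : b.MP.act ≫ q = (P.obj ◁ q) ≫ MB.act := hq
    rw [← Category.assoc, b.c_lin, Category.assoc, h1, MonoidalCategory.whiskerLeft_comp,
      Category.assoc]
  have hxq : ∀ j, n < j → x j ≫ b.c ≫ q = 0 := by
    intro j hj
    obtain ⟨l, rfl⟩ : ∃ l, j = n + l + 1 := ⟨j - n - 1, by omega⟩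
    have h1 : mx x (n + l + 1) ≫ b.c ≫ q = 0 := by
      have h2 := congrArg (fun z => z ≫ q) (hθ l)
      simp only [Category.assoc] at h2
      rw [H.x_q, comp_zero] at h2
      rw [← cancel_epi (θ l).hom, ← h2, comp_zero]
    have h3 : x (n + l + 1) = (λ_ _).inv ≫ (η[P.obj] ▷ _) ≫ mx x (n + l + 1) := by
      unfold mx
      rw [← whisker_exchange_assoc, MonObj.one_mul, leftUnitor_naturality,
        Iso.inv_hom_id_assoc]
    rw [h3, Category.assoc, Category.assoc, h1, comp_zero, comp_zero]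
  have hic : IsIso (b.c ▷ C) := isIso_c b hC
  -- the kernel
  have hker : ∀ (k : ℤ) (u : (𝟙_ T.C)⟦k⟧ ⟶ P.obj ⊗ C), u ≫ ((b.c ≫ q) ▷ C) = 0 →
      P221.St.InGen n x C u := by
    intro k u hu
    rw [comp_whiskerRight, ← Category.assoc] at hu
    obtain ⟨m, w, hw⟩ := H.ker k _ hu
    have h1 : u = ∑ l ∈ Finset.range m, gc (show dd p n l + (k - dd p n l) = k by ring)
        (w l ≫ inv (b.c ▷ C)) (tm C (θ l).hom) ≫ (mx x (n + l + 1) ▷ C) := by
      rw [← cancel_mono (b.c ▷ C), hw, Preadditive.sum_comp]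
      refine Finset.sum_congr rfl fun l _ => ?_
      rw [Vale.Agent.P221.H903.xh_apply _ _ (show dd p n l + (k - dd p n l) = k by ring)]
      rw [Category.assoc, ← comp_whiskerRight, ← Vale.Agent.P221.T.gc_comp,
        ← Vale.Agent.P221.H903.tm_comp, ← hθ l, tm_shift, ← Vale.Agent.P221.T.gc_map,
        Category.assoc, IsIso.inv_hom_id, Category.comp_id]
    rw [h1]
    exact inGen_sum _ _ fun l _ => inGen_single (by omega) _
  refine ⟨P, o, φ, x, MB.act, b.c ≫ q, hP, fun j hj => isPolyGen_hazV φ j (by omega), H.pB,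
    isAct_of_modStr MB, hq', ?_⟩
  rintro M ⟨i', δ', hM⟩
  -- the comparison of the Moore spectra
  obtain ⟨e, -⟩ : ∃ e : C ≅ M, True := by
    obtain ⟨e, he⟩ : ∃ e : Triangle.mk ((p : ℤ) • 𝟙 (𝟙_ T.C)) i δ ≅
        Triangle.mk ((p : ℤ) • 𝟙 (𝟙_ T.C)) i' δ', True :=
      ⟨isoTriangleOfIso₁₂ _ _ hC hM (Iso.refl _) (Iso.refl _)
        ((Category.comp_id _).trans (Category.id_comp _).symm), trivial⟩
    exact ⟨Triangle.π₃.mapIso e, trivial⟩
  constructor
  · intro k y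
    obtain ⟨z, hz⟩ := H.onto k (y ≫ (B ◁ e.inv))
    refine ⟨z ≫ inv (b.c ▷ C) ≫ (P.obj ◁ e.hom), ?_⟩
    change (z ≫ inv (b.c ▷ C) ≫ (P.obj ◁ e.hom)) ≫ ((b.c ≫ q) ▷ M) = y
    rw [Category.assoc, Category.assoc, whisker_exchange, comp_whiskerRight, Category.assoc,
      IsIso.inv_hom_id_assoc, ← Category.assoc, hz, Category.assoc,
      ← MonoidalCategory.whiskerLeft_comp, Iso.inv_hom_id, MonoidalCategory.whiskerLeft_id,
      Category.comp_id]
  · intro k u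
    constructor
    · intro hu
      change u ≫ ((b.c ≫ q) ▷ M) = 0 at hu
      have h1 := inGen_whisker e.hom (hker k (u ≫ (P.obj ◁ e.inv)) (by
        rw [Category.assoc, whisker_exchange, ← Category.assoc, hu, zero_comp]))
      rwa [Category.assoc, ← MonoidalCategory.whiskerLeft_comp, Iso.inv_hom_id,
        MonoidalCategory.whiskerLeft_id, Category.comp_id] at h1
    · intro hu
      exact comp_eq_zero_of_inGen MB hq' hxq hu

end Vale.Agent.P221.H246
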