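import Vale.Agent.P221.H246.FormE
import Vale.Agent.P221.T.H598.HBfin
import Vale.Agent.P221.T.H520.Tow4
import Vale.Agent.P221.T.H520.E31
import Vale.Agent.P221.T.H817.H1P2
import Vale.Agent.P221.T.H903.PHyp
import Vale.Agent.P221.T.H903.Act
import Vale.Agent.P257.H702.HasV

/-!
# P221, part (E3) (helper246): existence of forms of `BP⟨n⟩`

`exists_isForm` : in every stable homotopy category with a suspension spectrum functor there is a
form of `BP⟨n⟩_p`, for all primes `p` and all `n`.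
-/

open CategoryTheory MonoidalCategory MonObj Limits Pretriangulated

set_option linter.unusedSectionVars false

noncomputable section

namespace Vale.Agent.P221.H246

open Vale.Agent.P251 Vale.Agent.P251.S Vale.Agent.P251.T Vale.Agent.P251.M Vale.Agent.P251.F
  Vale.Agent.P251.I EvenSpheres Vale.Agent.P257.H702 Vale.Agent.P257.H80 Vale.Agent.P251.Q
  Vale.Agent.P251.St Vale.Agent.P257.St
open Vale.Agent.P221.T (BPS sV KK dd hat HK II)
open Vale.Agent.P221.H903 (KHyp PHyp)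

section lib

universe u

variable {𝒯 : Type u} [Category.{0} 𝒯] [Preadditive 𝒯] [HasZeroObject 𝒯]
    [HasShift 𝒯 ℤ] [∀ n : ℤ, (shiftFunctor 𝒯 n).Additive] [Pretriangulated 𝒯] [IsTriangulated 𝒯]
    [MonoidalCategory 𝒯] [SymmetricCategory 𝒯] [TensorTriangulated 𝒯] [MonoidalClosed 𝒯]
    [HasCoproducts.{0} 𝒯] [HasProducts.{0} 𝒯] [StableCat 𝒯]

/-- existence of the quotient of the `p`-complete Brown-Peterson spectrum `P` -/
theorem exists_quotient {p : ℕ} [hp : Fact p.Prime] (n : ℕ) {R P W : 𝒯} [MonObj R]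
    [IsCommMonObj R] (b : BPS p R P W)
    (hPar : ∀ K : 𝒯, H395.PComplete p K → (∀ (j : ℤ) (f : (𝟙_ 𝒯)⟦2 * j⟧ ⟶ K), f = 0) →
      ∀ f : P ⟶ K, f = 0)
    {C : 𝒯} {i : 𝟙_ 𝒯 ⟶ C} {δ : C ⟶ (𝟙_ 𝒯)⟦(1 : ℤ)⟧}
    (hC : Triangle.mk ((p : ℤ) • 𝟙 (𝟙_ 𝒯)) i δ ∈ distTriang 𝒯) :
    ∃ (x : ∀ l, P⟦dd p n l⟧ ⟶ P) (B : 𝒯) (q : P ⟶ B) (MB : ModStr R B),
      (∀ l, b.c⟦dd p n l⟧' ≫ x l = hat b.MP (b.cls (dd p n l) (MvPolynomial.X (n + l)))) ∧
        KHyp p C x q ∧ b.MP.IsLinear MB q := by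
  have hx : ∀ l, b.c⟦dd p n l⟧' ≫ b.mult (dd p n l) (MvPolynomial.X (n + l)) =
      hat b.MP (b.cls (dd p n l) (MvPolynomial.X (n + l))) := fun l => b.c_cext b.cP _
  have hdeg : ∀ l, HK p (dd p n l) (MvPolynomial.X (n + l)) := fun l => by
    have h := MvPolynomial.isWeightedHomogeneous_X ℤ_[p] (fun i : ℕ => sV p (i + 1)) (n + l)
    have h2 : sV p (n + l + 1) = dd p n l := by
      unfold dd
      congr 1
      omega
    rw [← h2]
    exact h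
  have H : PHyp p C fun l => b.mult (dd p n l) (MvPolynomial.X (n + l)) :=
    H903.pHyp b hdeg hx hC (fun l => by
      rw [sub_self]
      exact Ideal.zero_mem _) hPar
  have h1 := Vale.Agent.P221.T.H817.h1P b hC hx
  obtain ⟨B, q, hq⟩ := Vale.Agent.P221.T.H520.specTow p C ⟨i, δ, hC⟩ P _ _ H
    (Vale.Agent.P221.T.H520.homEx H) h1
  obtain ⟨MB, hMB⟩ := Vale.Agent.P221.T.H903.exists_act b ⟨i, δ, hC⟩ (H903.isLin_xc b hx) hq h1
  exact ⟨_, B, q, MB, hx, hq, hMB⟩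

end lib

/-- **existence of forms of `BP⟨n⟩`** -/
theorem exists_isForm {T : SHCat} (S : Susp T) (p n : ℕ) [hp : Fact p.Prime] :
    ∃ B : T.C, P221.St.IsForm S p n B := by
  obtain ⟨D, hD, hA, ⟨U⟩⟩ := H924.exists_mu S.toSpaceFunctor (M.lineIso S.toSpaceFunctor)
  obtain ⟨P, o, φ, hP⟩ := exists_isBrownPeterson S p
  obtain ⟨b₀, _, κ, Φ, hκ, hφ, hΦ⟩ := H509.exists_bpOut' hD hA U hP
  obtain ⟨Pc, W, b, hv⟩ := Vale.Agent.P221.T.H598.exists_BPS hD hA hκ.mon hΦ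
  obtain ⟨C, i, δ, hC⟩ := distinguished_cocone_triangle ((p : ℤ) • 𝟙 (𝟙_ T.C))
  obtain ⟨x, B, q, MB, hx, H, hq⟩ := exists_quotient n b (H136.par hD hκ.mon b) hC
  exact ⟨B, isForm_of_khyp b hP (H509.matches_of_vPhi b hφ hv) hx hC H MB hq⟩

end Vale.Agent.P221.H246
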