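import Vale.Agent.P221.H746.Kap
import Vale.Agent.P221.H395.Comp3
import Vale.Agent.P221.H509.DCHom

/-!
# P221, part T (helper246): the homotopy of the `p`-completion

`c : X ⟶ Y` a `p`-completion, `Good p X` (`π_even X` without `p`-torsion, `p` bijective on
`π_odd X`). Then `π_odd Y = 0`, `π_* Y` has no `p`-torsion, and `π_even X / p ⟶ π_even Y / p` is
bijective.
-/

open CategoryTheory MonoidalCategory MonObj Limits Pretriangulated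

set_option linter.unusedSectionVars false

universe u

namespace Vale.Agent.P221.H246

open Vale.Agent.P251 Vale.Agent.P251.S Vale.Agent.P251.T Vale.Agent.P251.M Vale.Agent.P251.Q
  Vale.Agent.P221.H746

variable {𝒯 : Type u} [Category.{0} 𝒯] [Preadditive 𝒯] [HasZeroObject 𝒯]
    [HasShift 𝒯 ℤ] [∀ n : ℤ, (shiftFunctor 𝒯 n).Additive] [Pretriangulated 𝒯] [IsTriangulated 𝒯]
    [MonoidalCategory 𝒯] [SymmetricCategory 𝒯] [TensorTriangulated 𝒯] [MonoidalClosed 𝒯]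
    [HasCoproducts.{0} 𝒯] [HasProducts.{0} 𝒯] [StableCat 𝒯]

/-- the homotopy of `Y` in terms of the homotopy of `X` -/
structure CG (p : ℕ) {X Y : 𝒯} (c : X ⟶ Y) : Prop where
  odd : ∀ (k : ℤ) (z : (𝟙_ 𝒯)⟦2 * k + 1⟧ ⟶ Y), z = 0
  tf : ∀ (k : ℤ) (z : (𝟙_ 𝒯)⟦k⟧ ⟶ Y), (p : ℤ) • z = 0 → z = 0
  surj : ∀ (k : ℤ) (z : (𝟙_ 𝒯)⟦2 * k⟧ ⟶ Y), ∃ (a : (𝟙_ 𝒯)⟦2 * k⟧ ⟶ X) (z' : (𝟙_ 𝒯)⟦2 * k⟧ ⟶ Y),
    z = a ≫ c + (p : ℤ) • z'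
  inj : ∀ (k : ℤ) (a : (𝟙_ 𝒯)⟦2 * k⟧ ⟶ X) (z' : (𝟙_ 𝒯)⟦2 * k⟧ ⟶ Y), a ≫ c = (p : ℤ) • z' →
    ∃ a', a = (p : ℤ) • a'

variable {p : ℕ} {X Y : 𝒯} {c : X ⟶ Y} {C : 𝒯} {i : 𝟙_ 𝒯 ⟶ C} {δ : C ⟶ (𝟙_ 𝒯)⟦(1 : ℤ)⟧}

theorem reduction_naturality (c : X ⟶ Y) (i : 𝟙_ 𝒯 ⟶ C) :
    ((ρ_ X).inv ≫ (X ◁ i)) ≫ (c ▷ C) = c ≫ (ρ_ Y).inv ≫ (Y ◁ i) := by
  rw [Category.assoc, whisker_exchange, rightUnitor_inv_naturality_assoc]

/-- the homotopy of the completion -/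
theorem cg_of_good (hC : Triangle.mk ((p : ℤ) • 𝟙 (𝟙_ 𝒯)) i δ ∈ distTriang 𝒯)
    (h : Good p X) (hY : H395.PComplete p Y) (hc : IsIso (c ▷ C)) : CG p c := by
  have htfE : ∀ (k : ℤ) (a : (𝟙_ 𝒯)⟦2 * k⟧ ⟶ X), (p : ℤ) • a = 0 → a = 0 := by
    intro k a ha
    have h1 := h.tfE k ((stdSph k).hom ≫ a) (by rw [← Preadditive.comp_zsmul, ha, comp_zero])
    rw [← cancel_epi (stdSph k).hom, h1, comp_zero]
  -- the odd homotopy of `X ⊗ C` vanishes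
  have hoddX : ∀ (k : ℤ) (f : (𝟙_ 𝒯)⟦2 * k + 1⟧ ⟶ X ⊗ C), f = 0 := fun k f =>
    ModP.eq_zero hC (ModP.torsionFree_shift
      ((shiftFunctorAdd' 𝒯 (2 * k) 1 (2 * k + 1) rfl).app _) (htfE k)) (h.oddDiv k) f
  have hoddY : ∀ (k : ℤ) (f : (𝟙_ 𝒯)⟦2 * k + 1⟧ ⟶ Y ⊗ C), f = 0 := by
    intro k f
    rw [← cancel_mono (inv (c ▷ C)), hoddX k (f ≫ inv (c ▷ C)), zero_comp]
  -- every even class of `X ⊗ C` lifts
  have hlift : ∀ (k : ℤ) (f : (𝟙_ 𝒯)⟦2 * k⟧ ⟶ X ⊗ C),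
      ∃ a : (𝟙_ 𝒯)⟦2 * k⟧ ⟶ X, f = a ≫ (ρ_ X).inv ≫ (X ◁ i) := fun k f =>
    ModP.exists_lift hC (ModP.torsionFree_shift
      ((shiftFunctorAdd' 𝒯 (2 * (k - 1) + 1) 1 (2 * k) (by ring)).app _) (h.oddTf (k - 1))) f
  have hodd : ∀ (k : ℤ) (z : (𝟙_ 𝒯)⟦2 * k + 1⟧ ⟶ Y), z = 0 := fun k z =>
    hY.hom_eq_zero_of_div hC
      (fun g => ModP.exists_zsmul_of_comp_eq_zero hC g (hoddY k _)) z
  refine ⟨hodd, fun k z hz => ?_, fun k z => ?_, fun k a z' ha => ?_⟩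
  · obtain ⟨l, hl⟩ := Int.even_or_odd' k
    rcases hl with rfl | rfl
    · refine torsionFree_of_lift hC (fun f => ⟨0, ?_⟩) z hz
      rw [zero_comp, ← cancel_epi ((shiftFunctorAdd' 𝒯 (2 * l) 1 (2 * l + 1) rfl).hom.app (𝟙_ 𝒯)),
        comp_zero]
      exact hoddY l _
    · exact hodd l z
  · obtain ⟨a, ha⟩ := hlift k ((z ≫ (ρ_ Y).inv ≫ (Y ◁ i)) ≫ inv (c ▷ C))
    have h1 : (z - a ≫ c) ≫ (ρ_ Y).inv ≫ (Y ◁ i) = 0 := by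
      have h2 := congrArg (fun f => f ≫ (c ▷ C)) ha
      simp only [Category.assoc, IsIso.inv_hom_id, Category.comp_id] at h2
      rw [Preadditive.sub_comp, h2, Category.assoc, ← reduction_naturality c i]
      simp only [Category.assoc, sub_self]
    obtain ⟨z', hz'⟩ := ModP.exists_zsmul_of_comp_eq_zero hC _ h1
    exact ⟨a, z', by rw [← hz']; abel⟩
  · apply ModP.exists_zsmul_of_comp_eq_zero hC a
    rw [← cancel_mono (c ▷ C), zero_comp, Category.assoc, reduction_naturality, ← Category.assoc,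
      ha]
    exact ModP.zsmul_comp_eq_zero hC z'

end Vale.Agent.P221.H246
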