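import Vale.Agent.P221.H246.EtaT
import Vale.Agent.P221.H246.GenC

/-!
# P221, part T (helper246): `π_* W` modulo `p`

`W` the `p`-completion of `B ⊗ B`. The classes `v^a t^E` are a basis of `π_* W` modulo `p`:

* `surjZ_W` : every class of `π_* W` is modulo `p` a combination of the `v^a t^E`;
* `injZ_W` : a combination of the `v^a t^E` which is divisible by `p` has coefficients divisible
  by `p`.
-/

open CategoryTheory MonoidalCategory MonObj Limits Pretriangulated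

set_option linter.unusedSectionVars false

universe v u

namespace Vale.Agent.P221.H246

/-! ### Algebra -/

section alg

variable {σ A A' : Type*} [CommRing A] [CommRing A'] {p : ℕ}

theorem exists_of_map_eq_zero (κ : A →+* A') (h : ∀ y, κ y = 0 → ∃ y', y = (p : A) * y')
    (X : MvPolynomial σ A) (hX : MvPolynomial.map κ X = 0) :
    ∃ X', X = (p : MvPolynomial σ A) * X' := by
  have h1 : ∀ E, ∃ y, MvPolynomial.coeff E X = (p : A) * y := fun E => by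
    apply h
    rw [← MvPolynomial.coeff_map, hX, MvPolynomial.coeff_zero]
  choose f hf using h1
  refine ⟨∑ E ∈ X.support, MvPolynomial.monomial E (f E), ?_⟩
  conv_lhs => rw [X.as_sum]
  rw [Finset.mul_sum]
  refine Finset.sum_congr rfl fun E _ => ?_
  rw [hf E, ← map_natCast (MvPolynomial.C : A →+* MvPolynomial σ A) p,
    MvPolynomial.C_mul_monomial]

theorem redP_ker [Fact p.Prime] (f : MvPolynomial ℕ ℤ) (h : H924.redP p f = 0) :
    ∃ f', f = (p : MvPolynomial ℕ ℤ) * f' :=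
  exists_of_map_eq_zero (Int.castRingHom (ZMod p)) (fun y hy => by
    obtain ⟨y', hy'⟩ := (ZMod.intCast_zmod_eq_zero_iff_dvd y p).1 hy
    exact ⟨y', by rw [hy']⟩) f h

theorem redP_surjective (p : ℕ) [Fact p.Prime] : Function.Surjective (H924.redP p) :=
  MvPolynomial.map_surjective _ ZMod.intCast_surjective

end alg

open Vale.Agent.P251 Vale.Agent.P251.S Vale.Agent.P251.T Vale.Agent.P251.M Vale.Agent.P251.F
  Vale.Agent.P251.I EvenSpheres Vale.Agent.P257.H80 Vale.Agent.P093.Nak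
  Vale.Agent.P093.N.HH

open Vale.Agent.P251.X hiding lawOf
open Vale.Agent.P221.T Vale.Agent.P093.N0

variable {𝒯 : Type u} [Category.{0} 𝒯] [Preadditive 𝒯] [HasZeroObject 𝒯]
    [HasShift 𝒯 ℤ] [∀ n : ℤ, (shiftFunctor 𝒯 n).Additive] [Pretriangulated 𝒯] [IsTriangulated 𝒯]
    [MonoidalCategory 𝒯] [SymmetricCategory 𝒯] [TensorTriangulated 𝒯] [MonoidalClosed 𝒯]
    [HasCoproducts.{0} 𝒯] [HasProducts.{0} 𝒯] [StableCat 𝒯]

variable {D : MUData 𝒯} {F : SpaceFunctor 𝒯} {e : F.S.obj CCF ≅ (stdEven 𝒯).L}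
  {p : ℕ} [hp : Fact p.Prime] {B : 𝒯} [MonObj B] [IsCommMonObj B]
  {b : D.R ⟶ B} [IsMonHom b]

theorem kappa_comp {κ : HRing (stdEven 𝒯) B →+* MvPolynomial ℕ (ZMod p)}
    {Φ : MvPolynomial ℕ ℤ →+* HRing (stdEven 𝒯) B} (hκ : (lawOf b).map κ = H924.hazk p)
    (hΦ : lawOf b = (haz p).map Φ) : κ.comp Φ = H924.redP p := by
  apply haz_map_injective p (H746.pLoc_of_char (H924.natCast_zero p))
  rw [← Law.map_map, ← hΦ, hκ]
  rfl

variable (p b) in
/-- `ℤ[v][t] → π_{2*}(B ⊗ B)` -/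
noncomputable abbrev OmZ (Φ : MvPolynomial ℕ ℤ →+* HRing (stdEven 𝒯) B) :
    MvPolynomial ℕ (MvPolynomial ℕ ℤ) →+* HRing (stdEven 𝒯) (B ⊗ B) :=
  Om p b (Int.castRingHom _) Φ

theorem PhiT_Z (Φ : MvPolynomial ℕ ℤ →+* HRing (stdEven 𝒯) B) :
    PhiT (Int.castRingHom _) Φ = Φ := by
  apply MvPolynomial.ringHom_ext
  · intro r
    simp [PhiT]
  · intro i
    rw [PhiT_X]

theorem OmZ_eq (Φ : MvPolynomial ℕ ℤ →+* HRing (stdEven 𝒯) B)
    (G : MvPolynomial ℕ (MvPolynomial ℕ ℤ)) : OmZ p b Φ G = Psi p b (MvPolynomial.map Φ G) := by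
  rw [OmZ, Om, RingHom.comp_apply, PhiT_Z]

theorem span_BB (hD : MUUniv e D) (hA : MUAll D) (hb : IsBPMon p b)
    {Φ : MvPolynomial ℕ ℤ →+* HRing (stdEven 𝒯) B} (hΦ : lawOf b = (haz p).map Φ)
    (x : HRing (stdEven 𝒯) (B ⊗ B)) : ∃ (G : MvPolynomial ℕ (MvPolynomial ℕ ℤ))
      (y : HRing (stdEven 𝒯) (B ⊗ B)), x = OmZ p b Φ G + (p : HRing (stdEven 𝒯) (B ⊗ B)) * y := by
  obtain ⟨κ, -, hker, hκ⟩ := H746.exists_kappa hD hA hb
  have h0 := kappa_comp hκ hΦ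
  obtain ⟨X, rfl⟩ := (Psi_bijective hD hb).2 x
  obtain ⟨G, hG⟩ := MvPolynomial.map_surjective (σ := ℕ) (H924.redP p) (redP_surjective p)
    (MvPolynomial.map κ X)
  obtain ⟨X', hX'⟩ := exists_of_map_eq_zero κ hker (X - MvPolynomial.map Φ G) (by
    rw [map_sub, MvPolynomial.map_map, h0, hG, sub_self])
  refine ⟨G, Psi p b X', ?_⟩
  rw [OmZ_eq, ← map_natCast (Psi p b) p, ← map_mul, ← map_add, ← hX']
  congr 1
  abel

theorem ind_BB (hD : MUUniv e D) (hA : MUAll D) (hb : IsBPMon p b)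
    {Φ : MvPolynomial ℕ ℤ →+* HRing (stdEven 𝒯) B} (hΦ : lawOf b = (haz p).map Φ)
    (G : MvPolynomial ℕ (MvPolynomial ℕ ℤ)) (y : HRing (stdEven 𝒯) (B ⊗ B))
    (h : OmZ p b Φ G = (p : HRing (stdEven 𝒯) (B ⊗ B)) * y) :
    ∃ G', G = (p : MvPolynomial ℕ (MvPolynomial ℕ ℤ)) * G' := by
  obtain ⟨κ, -, hker, hκ⟩ := H746.exists_kappa hD hA hb
  have h0 := kappa_comp hκ hΦ
  obtain ⟨Y, rfl⟩ := (Psi_bijective hD hb).2 y
  rw [OmZ_eq, ← map_natCast (Psi p b) p, ← map_mul] at h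
  have h1 := (Psi_bijective hD hb).1 h
  have h2 : MvPolynomial.map (H924.redP p) G = 0 := by
    rw [← h0, ← MvPolynomial.map_map, h1, map_mul, map_natCast]
    have h3 : ((p : ℕ) : MvPolynomial ℕ (MvPolynomial ℕ (ZMod p))) = 0 := by
      rw [← map_natCast (MvPolynomial.C : MvPolynomial ℕ (ZMod p) →+* _) p,
        H924.natCast_zero, map_zero]
    rw [h3, zero_mul]
  exact exists_of_map_eq_zero (H924.redP p) (fun f hf => redP_ker f hf) G h2

variable {W : 𝒯} {w : B ⊗ B ⟶ W} {MW : ModStr B W}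

theorem Fw_apply (x : HRing (stdEven 𝒯) (B ⊗ B)) (n : ℤ) :
    (Fw w x) (2 * n) = (stdSph n).inv ≫ x n ≫ w := by
  induction x using DirectSum.induction_on with
  | zero =>
    rw [map_zero]
    change 0 = (stdSph n).inv ≫ (0 : (stdEven 𝒯).S n ⟶ B ⊗ B) ≫ w
    rw [zero_comp, comp_zero]
  | of m y =>
    refine (congrArg (fun z : PiM W => z (2 * n)) (Fw_of w (rfl : 2 * m = 2 * m) y)).trans ?_
    rw [sI_rfl]
    change (DirectSum.of (fun k => ((𝟙_ 𝒯)⟦k⟧ ⟶ W)) (2 * m) ((stdSph m).inv ≫ y ≫ w)) (2 * n) = _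
    rcases eq_or_ne m n with rfl | hmn
    · rw [DirectSum.of_eq_same, DirectSum.of_eq_same]
    · rw [DirectSum.of_eq_of_ne _ _ _ (by omega), DirectSum.of_eq_of_ne _ _ _ (by omega),
        zero_comp, comp_zero]
  | add x y hx hy =>
    rw [map_add]
    change (Fw w x) (2 * n) + (Fw w y) (2 * n) = (stdSph n).inv ≫ (x n + y n) ≫ w
    rw [hx, hy, Preadditive.add_comp, Preadditive.comp_add]

theorem exists_of_Fw (h : CG p w) (x : HRing (stdEven 𝒯) (B ⊗ B)) (m : PiM W)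
    (hx : Fw w x = p • m) : ∃ y, x = (p : HRing (stdEven 𝒯) (B ⊗ B)) * y := by
  classical
  have h1 : ∀ n, ∃ f : (stdEven 𝒯).S n ⟶ B ⊗ B, x n = (p : ℤ) • f := by
    intro n
    have h2 : (stdSph n).inv ≫ x n ≫ w = (p : ℤ) • m (2 * n) := by
      rw [← Fw_apply, hx, natCast_zsmul]
      rfl
    obtain ⟨a', ha'⟩ := h.inj n ((stdSph n).inv ≫ x n) _ ((Category.assoc _ _ _).trans h2)
    refine ⟨(stdSph n).hom ≫ a', ?_⟩
    rw [← Preadditive.comp_zsmul, ← ha', Iso.hom_inv_id_assoc]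
  choose f hf using h1
  refine ⟨DirectSum.mk ((stdEven 𝒯).Gr (B ⊗ B)) x.support fun n => f n, ?_⟩
  rw [← nsmul_eq_mul]
  refine DFinsupp.ext fun n => ?_
  change x n = p • (DirectSum.mk ((stdEven 𝒯).Gr (B ⊗ B)) x.support fun n => f n) n
  by_cases hn : n ∈ x.support
  · rw [DirectSum.mk_apply_of_mem hn, hf n, natCast_zsmul]
  · rw [DirectSum.mk_apply_of_notMem hn, smul_zero]
    exact DFinsupp.notMem_support_iff.1 hn

/-- combinations of the classes `v^a t^E` -/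
theorem sum_eq_Fw (hb : IsBPMon p b) {Φ : MvPolynomial ℕ ℤ →+* HRing (stdEven 𝒯) B}
    (hΦ : lawOf b = (haz p).map Φ) (hw : (ModStr.free B B).IsLinear MW w)
    (cW : H395.PComplete p W) (kk : KK p →+* AddMonoid.End (PiM W))
    (kk_v : ∀ (i : ℕ) {k k' : ℤ} (h : k + sV p (i + 1) = k') (y : (𝟙_ 𝒯)⟦k⟧ ⟶ W),
      kk (MvPolynomial.X i) (PiM.of W k y) = PiM.of W k' (mul MW h (vcl p Φ i) y))
    (g : (ℕ →₀ ℕ) →₀ MvPolynomial ℕ ℤ) :
    (g.sum fun E f => kk (MvPolynomial.map (Int.castRingHom ℤ_[p]) f)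
      (PiM.of W (dT p E) (tau p b E ≫ w))) =
        Fw w (OmZ p b Φ (g.sum fun E f => MvPolynomial.monomial E f)) := by
  rw [map_finsuppSum, map_finsuppSum]
  refine Finsupp.sum_congr fun E _ => ?_
  rw [Om_monomial, ← Fw_Sm, ← of_wS,
    Fw_left hb hΦ hw cW kk kk_v (fun z => ⟨1, z, fun h => hp.out.one_lt.ne'
      (Nat.dvd_one.1 h), by rw [Nat.cast_one, _root_.one_mul, Int.cast_id]⟩) _
      (Int.castRingHom ℤ_[p]) _ _ (dB_nonneg E)]

theorem surjZ_W (hD : MUUniv e D) (hA : MUAll D) (hb : IsBPMon p b)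
    {Φ : MvPolynomial ℕ ℤ →+* HRing (stdEven 𝒯) B} (hΦ : lawOf b = (haz p).map Φ)
    (hw : (ModStr.free B B).IsLinear MW w)
    (cW : H395.PComplete p W) (hG : CG p w) (kk : KK p →+* AddMonoid.End (PiM W))
    (kk_v : ∀ (i : ℕ) {k k' : ℤ} (h : k + sV p (i + 1) = k') (y : (𝟙_ 𝒯)⟦k⟧ ⟶ W),
      kk (MvPolynomial.X i) (PiM.of W k y) = PiM.of W k' (mul MW h (vcl p Φ i) y))
    (k : ℤ) (z : (𝟙_ 𝒯)⟦k⟧ ⟶ W) :
    ∃ (g : (ℕ →₀ ℕ) →₀ MvPolynomial ℕ ℤ) (z' : PiM W), PiM.of W k z =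
      (g.sum fun E f => kk (MvPolynomial.map (Int.castRingHom ℤ_[p]) f)
        (PiM.of W (dT p E) (tau p b E ≫ w))) + p • z' := by
  obtain ⟨l, hl⟩ := Int.even_or_odd' k
  rcases hl with rfl | rfl
  · obtain ⟨a, z', hz⟩ := hG.surj l z
    obtain ⟨G, y, hy⟩ := span_BB hD hA hb hΦ
      (HRing.of (stdEven 𝒯) (B ⊗ B) l ((stdSph l).hom ≫ a))
    have h1 : PiM.of W (2 * l) (a ≫ w) = Fw w (OmZ p b Φ G) + p • Fw w y := by
      rw [← map_nsmul, ← map_add, nsmul_eq_mul, ← hy, Fw_of w (rfl : 2 * l = 2 * l), sI_rfl,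
        Category.assoc]
      congr 1
      exact (Iso.inv_hom_id_assoc (stdSph l) (a ≫ w)).symm
    refine ⟨Finsupp.onFinset G.support (fun E => MvPolynomial.coeff E G)
      (fun E hE => MvPolynomial.mem_support_iff.2 hE), Fw w y + PiM.of W (2 * l) z', ?_⟩
    have h2 : ((Finsupp.onFinset G.support (fun E => MvPolynomial.coeff E G)
      (fun E hE => MvPolynomial.mem_support_iff.2 hE)).sum
        fun E f => (MvPolynomial.monomial E f : MvPolynomial ℕ (MvPolynomial ℕ ℤ))) = G := by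
      rw [Finsupp.onFinset_sum _ (fun E => by rw [map_zero])]
      exact G.as_sum.symm
    rw [sum_eq_Fw hb hΦ hw cW kk kk_v, h2, hz, map_add, h1, smul_add, map_zsmul, natCast_zsmul]
    abel
  · refine ⟨0, 0, ?_⟩
    rw [hG.odd l z, map_zero, Finsupp.sum_zero_index, smul_zero, add_zero]

theorem injZ_W (hD : MUUniv e D) (hA : MUAll D) (hb : IsBPMon p b)
    {Φ : MvPolynomial ℕ ℤ →+* HRing (stdEven 𝒯) B} (hΦ : lawOf b = (haz p).map Φ)
    (hw : (ModStr.free B B).IsLinear MW w)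
    (cW : H395.PComplete p W) (hG : CG p w) (kk : KK p →+* AddMonoid.End (PiM W))
    (kk_v : ∀ (i : ℕ) {k k' : ℤ} (h : k + sV p (i + 1) = k') (y : (𝟙_ 𝒯)⟦k⟧ ⟶ W),
      kk (MvPolynomial.X i) (PiM.of W k y) = PiM.of W k' (mul MW h (vcl p Φ i) y))
    (g : (ℕ →₀ ℕ) →₀ MvPolynomial ℕ ℤ) (z' : PiM W)
    (h : (g.sum fun E f => kk (MvPolynomial.map (Int.castRingHom ℤ_[p]) f)
      (PiM.of W (dT p E) (tau p b E ≫ w))) = p • z') (E : ℕ →₀ ℕ) :
    (MvPolynomial.C (p : ℤ) : MvPolynomial ℕ ℤ) ∣ g E := by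
  rw [sum_eq_Fw hb hΦ hw cW kk kk_v] at h
  obtain ⟨y, hy⟩ := exists_of_Fw hG _ _ h
  obtain ⟨G', hG'⟩ := ind_BB hD hA hb hΦ _ _ hy
  have h1 := congrArg (MvPolynomial.coeff E) hG'
  have h2 : MvPolynomial.coeff E (g.sum fun E f =>
      (MvPolynomial.monomial E f : MvPolynomial ℕ (MvPolynomial ℕ ℤ))) = g E := by
    classical
    rw [Finsupp.sum, MvPolynomial.coeff_sum]
    simp only [MvPolynomial.coeff_monomial]
    rw [Finset.sum_ite_eq']
    split_ifs with h3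
    · rfl
    · exact (Finsupp.notMem_support_iff.1 h3).symm
  rw [h2, ← map_natCast (MvPolynomial.C : MvPolynomial ℕ ℤ →+* _) p,
    MvPolynomial.coeff_C_mul] at h1
  refine ⟨MvPolynomial.coeff E G', ?_⟩
  rw [h1]
  simp

/-- `surjZ_W` with finite sums -/
theorem surjF_W (hD : MUUniv e D) (hA : MUAll D) (hb : IsBPMon p b)
    {Φ : MvPolynomial ℕ ℤ →+* HRing (stdEven 𝒯) B} (hΦ : lawOf b = (haz p).map Φ)
    (hw : (ModStr.free B B).IsLinear MW w)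
    (cW : H395.PComplete p W) (hG : CG p w) (kk : KK p →+* AddMonoid.End (PiM W))
    (kk_v : ∀ (i : ℕ) {k k' : ℤ} (h : k + sV p (i + 1) = k') (y : (𝟙_ 𝒯)⟦k⟧ ⟶ W),
      kk (MvPolynomial.X i) (PiM.of W k y) = PiM.of W k' (mul MW h (vcl p Φ i) y))
    (k : ℤ) (z : (𝟙_ 𝒯)⟦k⟧ ⟶ W) :
    ∃ (s : Finset (ℕ →₀ ℕ)) (g : (ℕ →₀ ℕ) → MvPolynomial ℕ ℤ) (z' : PiM W), PiM.of W k z =
      ∑ E ∈ s, kk (MvPolynomial.map (Int.castRingHom ℤ_[p]) (g E))
        (PiM.of W (dT p E) (tau p b E ≫ w)) + p • z' := by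
  obtain ⟨g, z', h⟩ := surjZ_W hD hA hb hΦ hw cW hG kk kk_v k z
  exact ⟨g.support, g, z', h⟩

/-- `injZ_W` with finite sums -/
theorem injF_W (hD : MUUniv e D) (hA : MUAll D) (hb : IsBPMon p b)
    {Φ : MvPolynomial ℕ ℤ →+* HRing (stdEven 𝒯) B} (hΦ : lawOf b = (haz p).map Φ)
    (hw : (ModStr.free B B).IsLinear MW w)
    (cW : H395.PComplete p W) (hG : CG p w) (kk : KK p →+* AddMonoid.End (PiM W))
    (kk_v : ∀ (i : ℕ) {k k' : ℤ} (h : k + sV p (i + 1) = k') (y : (𝟙_ 𝒯)⟦k⟧ ⟶ W),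
      kk (MvPolynomial.X i) (PiM.of W k y) = PiM.of W k' (mul MW h (vcl p Φ i) y))
    (s : Finset (ℕ →₀ ℕ)) (g : (ℕ →₀ ℕ) → MvPolynomial ℕ ℤ) (z' : PiM W)
    (h : ∑ E ∈ s, kk (MvPolynomial.map (Int.castRingHom ℤ_[p]) (g E))
      (PiM.of W (dT p E) (tau p b E ≫ w)) = p • z') (E : ℕ →₀ ℕ) (hE : E ∈ s) :
    (p : MvPolynomial ℕ ℤ) ∣ g E := by
  classical
  have h1 : ((Finsupp.onFinset s (fun E => if E ∈ s then g E else 0) (fun E hE => by
      by_contra h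
      exact hE (if_neg h))).sum fun E f => kk (MvPolynomial.map (Int.castRingHom ℤ_[p]) f)
        (PiM.of W (dT p E) (tau p b E ≫ w))) = p • z' := by
    rw [Finsupp.onFinset_sum _ (fun E => by rw [map_zero, map_zero]; rfl), ← h]
    refine Finset.sum_congr rfl fun E hE => ?_
    rw [if_pos hE]
  have h2 := injZ_W hD hA hb hΦ hw cW hG kk kk_v _ z' h1 E
  rw [Finsupp.onFinset_apply, if_pos hE] at h2
  convert h2 using 1
  simp

end Vale.Agent.P221.H246
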