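import Vale.Agent.P221.H395.Fp.Main
import Vale.Agent.P221.H509.Fin
import Vale.Agent.P221.H395.Comp2

/-!
# P221, version 2, leaf L4 (helper246): finiteness of homotopy groups mod `p`

* `finite_of_fpType` : `π_j (X ⊗ C)` is finite for every fp-spectrum `X` (`C = S / p`);
* `totallyFinite_of_bounded` : if `π_j (W ⊗ C)` is finite for all `j` and `W` is bounded, then
  `W ⊗ V` is totally finite for all generalised Moore spectra `V`.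
-/

open CategoryTheory MonoidalCategory Limits Pretriangulated

set_option linter.unusedSectionVars false

namespace Vale.Agent.P221.H246

open Vale.Agent.P251.St Vale.Agent.P251.St.SHCat Vale.Agent.P257.St Vale.Agent.P221.St
open Vale.Agent.P251.S Vale.Agent.P251.M
open Vale.Agent.P221.H521 (thick_of_iso thick_map thick_trans)
open Vale.Agent.P221.H509 (homShift tf_of_thick')
open Vale.Agent.P221.H395.Fp (BBd degree_eq selfMap_dist)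

section grp

theorem finite_of_exact {G₁ G₂ G₃ : Type*} [AddCommGroup G₁] [AddCommGroup G₂] [AddCommGroup G₃]
    (f : G₁ →+ G₂) (g : G₂ →+ G₃) (h : ∀ y, g y = 0 → ∃ x, f x = y) [Finite G₁] [Finite G₃] :
    Finite G₂ := by
  have hker : Finite g.ker := by
    have h3 : ∀ x : g.ker, ∃ y, f y = x := fun x => h x.1 x.2
    choose y hy using h3
    exact Finite.of_injective y fun a b hab => Subtype.ext ((hy a).symm.trans (by rw [hab, hy]))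
  have hran : Finite g.range := inferInstance
  exact Finite.of_equiv _ (AddSubgroup.addGroupEquivQuotientProdAddSubgroup (s := g.ker)).symm

end grp

variable {T : SHCat} {S : Susp T} {p : ℕ} {R : RingSp T}

/-- all homotopy groups are finite -/
def PiFin (X : T.C) : Prop := ∀ k : ℤ, Finite ((𝟙_ T.C)⟦k⟧ ⟶ X)

theorem PiFin.of_iso {X Y : T.C} (h : PiFin X) (e : X ≅ Y) : PiFin Y := fun k => by
  have := h k
  exact Finite.of_injective (fun u : (𝟙_ T.C)⟦k⟧ ⟶ Y => u ≫ e.inv) fun a b hab =>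
    (cancel_mono e.inv).1 hab

theorem PiFin.mid {X Y Z : T.C} {f : X ⟶ Y} {g : Y ⟶ Z} {h : Z ⟶ X⟦(1 : ℤ)⟧}
    (hT : Triangle.mk f g h ∈ distTriang T.C) {k : ℤ} (h₁ : Finite ((𝟙_ T.C)⟦k⟧ ⟶ X))
    (h₃ : Finite ((𝟙_ T.C)⟦k⟧ ⟶ Z)) : Finite ((𝟙_ T.C)⟦k⟧ ⟶ Y) := by
  refine finite_of_exact (Preadditive.rightComp ((𝟙_ T.C)⟦k⟧) f)
    (Preadditive.rightComp ((𝟙_ T.C)⟦k⟧) g) fun y hy => ?_
  obtain ⟨x, hx⟩ := Triangle.coyoneda_exact₂ _ hT y hy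
  exact ⟨x, hx.symm⟩

/-- from `Y / (self map of positive degree)` to `Y` -/
theorem piFin_of_self {Y Z : T.C} {d : ℤ} (hd : 0 < d) (hY : BBd Y) {f : Y⟦d⟧ ⟶ Y} {g : Y ⟶ Z}
    {h : Z ⟶ (Y⟦d⟧)⟦(1 : ℤ)⟧} (hT : Triangle.mk f g h ∈ distTriang T.C) (hZ : PiFin Z) :
    PiFin Y := by
  obtain ⟨K, hK⟩ := hY
  have key : ∀ m : ℕ, ∀ k : ℤ, k < K + m * d → Finite ((𝟙_ T.C)⟦k⟧ ⟶ Y) := by
    intro m
    induction m with
    | zero =>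
      intro k hk
      have : Subsingleton ((𝟙_ T.C)⟦k⟧ ⟶ Y) :=
        ⟨fun a b => (hK k (by simpa using hk) a).trans (hK k (by simpa using hk) b).symm⟩
      infer_instance
    | succ m ih =>
      intro k hk
      push_cast at hk
      have h1 := ih (k - d) (by linarith)
      obtain ⟨e⟩ := homShift Y k d
      exact PiFin.mid hT (Finite.of_equiv _ e.symm.toEquiv) (hZ k)
  intro k
  refine key (k - K + 1).toNat k ?_
  have h1 : (k - K + 1) ≤ ((k - K + 1).toNat : ℤ) := Int.self_le_toNat _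
  have h2 : ((k - K + 1).toNat : ℤ) ≤ ((k - K + 1).toNat : ℤ) * d :=
    le_mul_of_one_le_right (Int.natCast_nonneg _) (by omega)
  linarith

/-- from `S / p ^ i` to `S / p` -/
theorem piFin_pow {C V : T.C} {i : 𝟙_ T.C ⟶ C} {δ : C ⟶ (𝟙_ T.C)⟦(1 : ℤ)⟧}
    (hC : Triangle.mk ((p : ℤ) • 𝟙 (𝟙_ T.C)) i δ ∈ distTriang T.C) {m : ℕ} (hm : 0 < m)
    {g : 𝟙_ T.C ⟶ V} {h : V ⟶ (𝟙_ T.C)⟦(1 : ℤ)⟧}
    (hV : Triangle.mk (((p : ℤ) ^ m) • 𝟙 (𝟙_ T.C)) g h ∈ distTriang T.C) {X : T.C}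
    (hX : PiFin (X ⊗ V)) : PiFin (X ⊗ C) := by
  intro k
  have := hX k
  have hCX := redTri_distinguished hC X
  have hVX := redTri_distinguished hV X
  -- the image of `π_k X`
  let FC : ((𝟙_ T.C)⟦k⟧ ⟶ X) →+ ((𝟙_ T.C)⟦k⟧ ⟶ X ⊗ C) :=
    Preadditive.rightComp ((𝟙_ T.C)⟦k⟧) ((redC i).app X)
  let FV : ((𝟙_ T.C)⟦k⟧ ⟶ X) →+ ((𝟙_ T.C)⟦k⟧ ⟶ X ⊗ V) :=
    Preadditive.rightComp ((𝟙_ T.C)⟦k⟧) ((redC g).app X)
  have h1 : FV.ker ≤ FC.ker := by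
    intro x hx
    obtain ⟨y, hy⟩ := exists_zsmul_of_red hV x hx
    obtain ⟨m', rfl⟩ : ∃ m', m = m' + 1 := ⟨m - 1, by omega⟩
    have h2 : x = (p : ℤ) • (((p : ℤ) ^ m') • y) := by
      rw [← mul_smul, ← hy, pow_succ, mul_comm]
    change x ≫ (redC i).app X = 0
    rw [h2]
    exact zsmul_comp_red hC _
  have h2 : Finite FC.range := by
    have hs : ∀ z : FC.range, ∃ x, FC x = z := fun z => z.2
    choose s hs using hs
    refine Finite.of_injective (fun z => FV (s z)) fun a b hab => Subtype.ext ?_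
    rw [← hs a, ← hs b, ← sub_eq_zero, ← map_sub]
    refine h1 ?_
    rw [AddMonoidHom.mem_ker, map_sub, sub_eq_zero]
    exact hab
  -- the elements killed by `p`
  let BC : ((𝟙_ T.C)⟦k⟧ ⟶ X ⊗ C) →+ ((𝟙_ T.C)⟦k⟧ ⟶ X⟦(1 : ℤ)⟧) :=
    Preadditive.rightComp ((𝟙_ T.C)⟦k⟧) (bdC δ X)
  let BV : ((𝟙_ T.C)⟦k⟧ ⟶ X ⊗ V) →+ ((𝟙_ T.C)⟦k⟧ ⟶ X⟦(1 : ℤ)⟧) :=
    Preadditive.rightComp ((𝟙_ T.C)⟦k⟧) (bdC h X)
  have h3 : BC.range ≤ BV.range := by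
    rintro _ ⟨y, rfl⟩
    have h4 : (y ≫ bdC δ X) ≫ ((((p : ℤ) ^ m) • 𝟙 X)⟦(1 : ℤ)⟧') = 0 := by
      rw [Functor.map_zsmul, CategoryTheory.Functor.map_id, Preadditive.comp_zsmul,
        Category.comp_id]
      obtain ⟨m', rfl⟩ : ∃ m', m = m' + 1 := ⟨m - 1, by omega⟩
      rw [pow_succ, mul_smul, ← Preadditive.comp_zsmul, bdC_zsmul hC, comp_zero, smul_zero]
    obtain ⟨z, hz⟩ : ∃ z : (𝟙_ T.C)⟦k⟧ ⟶ X ⊗ V, y ≫ bdC δ X = z ≫ bdC h X :=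
      Triangle.coyoneda_exact₁ _ hVX _ h4
    exact ⟨z, hz.symm⟩
  have hBV : Finite BV.range := Finite.of_surjective BV.rangeRestrict BV.rangeRestrict_surjective
  have h5 : Finite BC.range := Finite.of_injective (AddSubgroup.inclusion h3)
    (AddSubgroup.inclusion_injective h3)
  refine finite_of_exact FC.range.subtype BC.rangeRestrict fun y hy => ?_
  have h6 : y ≫ bdC δ X = 0 := congrArg Subtype.val hy
  obtain ⟨x, hx⟩ : ∃ x : (𝟙_ T.C)⟦k⟧ ⟶ X, y = x ≫ (redC i).app X :=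
    Triangle.coyoneda_exact₃ _ hCX y h6
  exact ⟨⟨y, ⟨x, hx.symm⟩⟩, rfl⟩

/-- `X ⊗ (V ⊗ S^{2k})` as a shift -/
noncomputable def tensSIso (X V : T.C) (d : ℤ) :
    X ⊗ (V ⊗ (stdEven T.C).S d) ≅ (X ⊗ V)⟦(2 * d : ℤ)⟧ :=
  (α_ _ _ _).symm ≪≫ ((stdEven T.C).shiftNat (Iso.refl _) d).app (X ⊗ V)

/-- the induction of L4 (a) -/
theorem genMoore_ind (hp : p.Prime) {φ : GHom S p R} {C : T.C} {i : 𝟙_ T.C ⟶ C}
    {δ : C ⟶ (𝟙_ T.C)⟦(1 : ℤ)⟧}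
    (hC : Triangle.mk ((p : ℤ) • 𝟙 (𝟙_ T.C)) i δ ∈ distTriang T.C) {j : ℕ} {V : T.C}
    (hV : IsGenMoore φ j V) : 1 ≤ j ∧ (∀ N : T.C, BBd N → BBd (N ⊗ V)) ∧
      ∀ N : T.C, BBd N → PiFin (N ⊗ V) → PiFin (N ⊗ C) := by
  induction hV with
  | @base m V g h hm hT =>
    refine ⟨le_refl _, fun N hN => BBd.whisker hT (hN.of_iso (ρ_ N).symm) (hN.of_iso (ρ_ N).symm),
      fun N _ h => piFin_pow hC hm hT h⟩
  | @step j k m V W f g h w hV hm hw hf hT ih =>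
    obtain ⟨hj, hbd, ih⟩ := ih
    obtain ⟨h', hT'⟩ := selfMap_dist hT
    refine ⟨by omega, fun N hN => BBd.whisker hT' ((hbd N hN).tensS k) (hbd N hN),
      fun N hN hfin => ih N hN ?_⟩
    have hk := degree_eq hp w hw
    have hpj : 1 < p ^ j := Nat.one_lt_pow (by omega) hp.one_lt
    have hd : (0 : ℤ) < 2 * (k : ℤ) := by
      have h1 : 0 < k := by
        rw [hk]
        exact Nat.mul_pos hm (by omega)
      omega
    have hT2 : Triangle.mk (N ◁ H395.Fp.selfMap f) (N ◁ g)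
        (N ◁ h' ≫ ((tensorLeft N).commShiftIso (1 : ℤ)).hom.app (V ⊗ (stdEven T.C).S k)) ∈
        distTriang T.C := dist_whiskerLeft N hT'
    let e := tensSIso N V k
    refine piFin_of_self hd (hbd N hN) (f := e.inv ≫ (N ◁ H395.Fp.selfMap f)) (g := N ◁ g)
      (h := (N ◁ h' ≫ ((tensorLeft N).commShiftIso (1 : ℤ)).hom.app _) ≫ e.hom⟦(1 : ℤ)⟧') ?_ hfin
    refine isomorphic_distinguished _ hT2 _ (Triangle.isoMk _ _ e.symm (Iso.refl _) (Iso.refl _)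
      ?_ ?_ ?_)
    · exact Category.comp_id _
    · exact (Category.comp_id _).trans (Category.id_comp _).symm
    · refine Eq.trans ?_ (Category.id_comp _).symm
      change ((N ◁ h' ≫ ((tensorLeft N).commShiftIso (1 : ℤ)).hom.app _) ≫ e.hom⟦(1 : ℤ)⟧') ≫
        e.inv⟦(1 : ℤ)⟧' =
        N ◁ h' ≫ ((tensorLeft N).commShiftIso (1 : ℤ)).hom.app (V ⊗ (stdEven T.C).S k)
      have h1 : e.hom⟦(1 : ℤ)⟧' ≫ e.inv⟦(1 : ℤ)⟧' = 𝟙 _ := by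
        rw [← Functor.map_comp, Iso.hom_inv_id, CategoryTheory.Functor.map_id]
      exact (Category.assoc _ _ _).trans ((congrArg _ h1).trans (Category.comp_id _))

/-- **L4 (a)** -/
theorem finite_of_fpType (hp : p.Prime) {n : ℕ} {X : T.C} (hX : IsFpType S p n X) {C : T.C}
    {i : 𝟙_ T.C ⟶ C} {δ : C ⟶ (𝟙_ T.C)⟦(1 : ℤ)⟧}
    (hC : Triangle.mk ((p : ℤ) • 𝟙 (𝟙_ T.C)) i δ ∈ distTriang T.C) (j : ℤ) :
    Finite ((𝟙_ T.C)⟦j⟧ ⟶ X ⊗ C) := by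
  obtain ⟨-, hb, P, o, φ, V, -, hV, hfin⟩ := hX
  exact (genMoore_ind hp hC hV).2.2 X hb (fun k => hfin.1 k) j

/-! ### L4 (b) -/

theorem thick_mid {B X Y Z : T.C} {f : X ⟶ Y} {g : Y ⟶ Z} {h : Z ⟶ X⟦(1 : ℤ)⟧}
    (hT : Triangle.mk f g h ∈ distTriang T.C) (h₁ : Thick B X) (h₃ : Thick B Z) : Thick B Y :=
  Thick.cof (inv_rot_of_distTriang _ hT) (Thick.susp (-1) h₃) h₁

/-- `S / p ^ m` is built from `S / p` -/
theorem thick_pow {C : T.C} {i : 𝟙_ T.C ⟶ C} {δ : C ⟶ (𝟙_ T.C)⟦(1 : ℤ)⟧}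
    (hC : Triangle.mk ((p : ℤ) • 𝟙 (𝟙_ T.C)) i δ ∈ distTriang T.C) (m : ℕ) :
    ∀ {V : T.C} {g : 𝟙_ T.C ⟶ V} {h : V ⟶ (𝟙_ T.C)⟦(1 : ℤ)⟧},
      Triangle.mk (((p : ℤ) ^ m) • 𝟙 (𝟙_ T.C)) g h ∈ distTriang T.C → Thick C V := by
  induction m with
  | zero =>
    intro V g h hV
    refine Thick.zero ?_
    have h1 : IsIso (Triangle.mk (((p : ℤ) ^ 0) • 𝟙 (𝟙_ T.C)) g h).mor₁ := by
      change IsIso (((p : ℤ) ^ 0) • 𝟙 (𝟙_ T.C))
      rw [pow_zero, one_smul]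
      infer_instance
    exact (IsZero.iff_id_eq_zero _).1 ((Triangle.isZero₃_iff_isIso₁ _ hV).2 h1)
  | succ m ih =>
    intro V g h hV
    obtain ⟨V', g', h', hV'⟩ := distinguished_cocone_triangle (((p : ℤ) ^ m) • 𝟙 (𝟙_ T.C))
    have hcomm : (((p : ℤ) ^ m) • 𝟙 (𝟙_ T.C)) ≫ ((p : ℤ) • 𝟙 (𝟙_ T.C)) =
        ((p : ℤ) ^ (m + 1)) • 𝟙 (𝟙_ T.C) := by
      rw [Preadditive.zsmul_comp, Category.id_comp, ← mul_smul, pow_succ]
    have O := Triangulated.someOctahedron hcomm hV' hC hV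
    exact thick_mid O.mem (ih hV') Thick.base

/-- generalised Moore spectra are built from `S / p` -/
theorem thick_genMoore {φ : GHom S p R} {C : T.C} {i : 𝟙_ T.C ⟶ C}
    {δ : C ⟶ (𝟙_ T.C)⟦(1 : ℤ)⟧}
    (hC : Triangle.mk ((p : ℤ) • 𝟙 (𝟙_ T.C)) i δ ∈ distTriang T.C) {j : ℕ} {V : T.C}
    (hV : IsGenMoore φ j V) : Thick C V := by
  induction hV with
  | @base m V g h hm hT => exact thick_pow hC m hT
  | @step j k m V W f g h w hV hm hw hf hT ih =>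
    obtain ⟨h', hT'⟩ := selfMap_dist hT
    refine Thick.cof hT' ?_ ih
    have e : V ⊗ (stdEven T.C).S k ≅ V⟦(2 * (k : ℤ) : ℤ)⟧ :=
      ((stdEven T.C).shiftNat (Iso.refl _) k).app V
    exact thick_of_iso e.symm (Thick.susp _ ih)

/-- `X ⊗ C` vanishes in high degrees if `X` does -/
theorem ten_zero_of_high {X C : T.C} {i : 𝟙_ T.C ⟶ C} {δ : C ⟶ (𝟙_ T.C)⟦(1 : ℤ)⟧}
    (hC : Triangle.mk ((p : ℤ) • 𝟙 (𝟙_ T.C)) i δ ∈ distTriang T.C) {N : ℤ}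
    (hX : ∀ k > N, ∀ f : (𝟙_ T.C)⟦k⟧ ⟶ X, f = 0) (k : ℤ) (hk : N + 1 < k)
    (f : (𝟙_ T.C)⟦k⟧ ⟶ X ⊗ C) : f = 0 := by
  have h1 : f ≫ bdC δ X = 0 := by
    obtain ⟨e⟩ := homShift X k 1
    exact e.injective ((hX (k - 1) (by omega) _).trans (map_zero e).symm)
  obtain ⟨x, hx⟩ : ∃ x : (𝟙_ T.C)⟦k⟧ ⟶ X, f = x ≫ (redC i).app X :=
    Triangle.coyoneda_exact₃ _ (redTri_distinguished hC X) f h1
  rw [hx, hX k (by omega) x, zero_comp]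

/-- `X ⊗ C` vanishes in low degrees if `X` does -/
theorem ten_zero_of_low {X C : T.C} {i : 𝟙_ T.C ⟶ C} {δ : C ⟶ (𝟙_ T.C)⟦(1 : ℤ)⟧}
    (hC : Triangle.mk ((p : ℤ) • 𝟙 (𝟙_ T.C)) i δ ∈ distTriang T.C) {N : ℤ}
    (hX : ∀ k < N, ∀ f : (𝟙_ T.C)⟦k⟧ ⟶ X, f = 0) (k : ℤ) (hk : k < N)
    (f : (𝟙_ T.C)⟦k⟧ ⟶ X ⊗ C) : f = 0 := by
  have h1 : f ≫ bdC δ X = 0 := by
    obtain ⟨e⟩ := homShift X k 1
    exact e.injective ((hX (k - 1) (by omega) _).trans (map_zero e).symm)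
  obtain ⟨x, hx⟩ : ∃ x : (𝟙_ T.C)⟦k⟧ ⟶ X, f = x ≫ (redC i).app X :=
    Triangle.coyoneda_exact₃ _ (redTri_distinguished hC X) f h1
  rw [hx, hX k hk x, zero_comp]

/-- **L4 (b)** -/
theorem totallyFinite_of_bounded {φ : GHom S p R} {C : T.C} {i : 𝟙_ T.C ⟶ C}
    {δ : C ⟶ (𝟙_ T.C)⟦(1 : ℤ)⟧}
    (hC : Triangle.mk ((p : ℤ) • 𝟙 (𝟙_ T.C)) i δ ∈ distTriang T.C) {W : T.C}
    (hfin : ∀ k : ℤ, Finite ((𝟙_ T.C)⟦k⟧ ⟶ W ⊗ C)) (hb : BoundedBelow W)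
    (ha : ∃ N : ℤ, ∀ k > N, ∀ f : (𝟙_ T.C)⟦k⟧ ⟶ W, f = 0) {m : ℕ} {V : T.C}
    (hV : IsGenMoore φ m V) : TotallyFinite (ten W V) := by
  obtain ⟨N₁, h₁⟩ := hb
  obtain ⟨N₂, h₂⟩ := ha
  have h0 : TotallyFinite (ten W C) := by
    refine ⟨hfin, |N₁| + |N₂| + 1, fun k hk y => ?_⟩
    have a1 := le_abs_self N₁
    have a2 := neg_abs_le N₁
    have a3 := le_abs_self N₂
    have a4 := neg_abs_le N₂
    have a5 := abs_nonneg N₁
    have a6 := abs_nonneg N₂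
    rcases lt_abs.1 hk with h | h
    · exact ten_zero_of_high hC h₂ k (by omega) y
    · exact ten_zero_of_low hC h₁ k (by omega) y
  exact tf_of_thick' h0 (thick_map (tensorLeft W) (thick_genMoore hC hV))

end Vale.Agent.P221.H246
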