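import Vale.Agent.P221.H903.E3
import Vale.Agent.P221.T.H509.KKT

/-!
# P221, part (E3-1) (helper246): exactness of the Koszul complex on homotopy groups

`pi_exact` : for completed free objects and Koszul differentials `D : Z ⟶ W`, `D' : W ⟶ V` the
sequence `π_* Z ⟶ π_* W ⟶ π_* V` is exact.
-/

open CategoryTheory MonoidalCategory Limits Pretriangulated
open Vale.Agent.P251.T Vale.Agent.P251.S Vale.Agent.P221.H395 Vale.Agent.P221.T
open Vale.Agent.P221.H903 Vale.Agent.P221.H509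

set_option linter.unusedSectionVars false

universe v u

namespace Vale.Agent.P221.H246

/-- exactness of derived complete groups -/
theorem dc_exact {p : ℕ} {G₁ G₂ G₃ : Type*} [AddCommGroup G₁] [AddCommGroup G₂] [AddCommGroup G₃]
    (h₁ : DC p G₁) (h₂ : DC p G₂) (f : G₁ →+ G₂) (g : G₂ →+ G₃)
    (h : ∀ y, g y = 0 → ∃ z y', y = f z + p • y' ∧ g y' = 0) (y : G₂) (hy : g y = 0) :
    ∃ z, f z = y := by
  choose! z y' e1 e2 using h
  let b : ℕ → G₂ := fun n => y'^[n] y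
  have hb : ∀ n, g (b n) = 0 := by
    intro n
    induction n with
    | zero => exact hy
    | succ n ih =>
      change g (y'^[n + 1] y) = 0
      rw [Function.iterate_succ_apply']
      exact e2 _ ih
  let w : ℕ → G₁ := h₁.sol fun n => z (b n)
  have hw : ∀ n, w n = z (b n) + p • w (n + 1) := h₁.sol_spec fun n => z (b n)
  have h3 : ∀ n, b n - f (w n) = p • (b (n + 1) - f (w (n + 1))) := by
    intro n
    have h4 : b (n + 1) = y' (b n) := Function.iterate_succ_apply' y' n y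
    rw [h4, smul_sub]
    conv_lhs => rw [e1 _ (hb n), hw n, map_add, map_nsmul]
    abel
  have h5 := h₂.eq_zero_of_div (fun x => ∃ n, x = b n - f (w n)) (by
    rintro _ ⟨n, rfl⟩
    exact ⟨_, ⟨n + 1, rfl⟩, h3 n⟩) _ ⟨0, rfl⟩
  exact ⟨w 0, (sub_eq_zero.1 h5).symm⟩

variable {𝒯 : Type u} [Category.{0} 𝒯] [Preadditive 𝒯] [HasZeroObject 𝒯]
    [HasShift 𝒯 ℤ] [∀ n : ℤ, (shiftFunctor 𝒯 n).Additive] [Pretriangulated 𝒯] [IsTriangulated 𝒯]
    [MonoidalCategory 𝒯] [SymmetricCategory 𝒯] [TensorTriangulated 𝒯] [MonoidalClosed 𝒯]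
    [HasCoproducts.{0} 𝒯] [HasProducts.{0} 𝒯] [StableCat 𝒯]

variable {p : ℕ} {C P : 𝒯} {d : ℕ → ℤ} {x : ∀ l, P⟦d l⟧ ⟶ P}

section modp

variable (comm : XComm x) (reg : ∀ (m : ℕ) (k : ℤ) (y : HH C P k) (w : ∀ l, HH C P (k + d m - d l)),
    xh x C m rfl y = ∑ l ∈ Finset.range m, xh x C l (sub_add_cancel (k + d m) (d l)) (w l) →
    ∃ w' : ∀ l, HH C P (k - d l),
      y = ∑ l ∈ Finset.range m, xh x C l (sub_add_cancel k (d l)) (w' l))

include reg in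
theorem reg' (m : ℕ) (k : ℤ) (y : ∀ k, HH C P k) (hy : y ∈ gsub (HH C P) k)
    (w : ℕ → ∀ k, HH C P k) (_hw : ∀ l < m, w l ∈ gsub (HH C P) (k + d m - d l))
    (h : XH x C m y = ∑ l ∈ Finset.range m, XH x C l (w l)) :
    ∃ w' : ℕ → ∀ k, HH C P k, (∀ l < m, w' l ∈ gsub (HH C P) (k - d l)) ∧
      y = ∑ l ∈ Finset.range m, XH x C l (w' l) := by
  obtain ⟨w', hw'⟩ := reg m k (y k) (fun l => w l (k + d m - d l)) (by
    have h1 := congrFun h (k + d m)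
    rw [xop_apply _ m y rfl, Finset.sum_apply] at h1
    rw [h1]
    exact Finset.sum_congr rfl fun l _ => xop_apply _ l (w l) (sub_add_cancel (k + d m) (d l)))
  refine ⟨fun l => Pi.single (k - d l) (w' l), fun l _ => single_mem _ _, ?_⟩
  refine gsub_ext hy (AddSubgroup.sum_mem _ fun l _ => ?_) ?_
  · have := XH_mem (x := x) (C := C) l (k - d l) _ (single_mem (H := HH C P) (k - d l) (w' l))
    rwa [sub_add_cancel] at this
  · rw [hw', Finset.sum_apply]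
    refine Finset.sum_congr rfl fun l _ => ?_
    rw [xop_apply _ l _ (sub_add_cancel k (d l))]
    beta_reduce
    rw [Pi.single_eq_same]

include comm reg in
/-- exactness mod `p` -/
theorem modp_exact {n : ℤ} {c : ℕ} {Z W V : 𝒯} {𝔽 : FreeOn p C P d n (c + 1 + 1) Z}
    {𝔾 : FreeOn p C P d n (c + 1) W} {𝔼 : FreeOn p C P d n c V} {D : Z ⟶ W} {D' : W ⟶ V}
    (h : IsKos x 𝔽 𝔾 D) (h' : IsKos x 𝔾 𝔼 D') (k : ℤ) (y : HH C W k) (hy : y ≫ D' ▷ C = 0) :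
    ∃ z : HH C Z k, z ≫ D ▷ C = y := by
  obtain ⟨m, z, hz, hyz⟩ := 𝔾.gen k y
  have hG : ∀ J, k - (dI d J + n) = k - n - dI d J := fun J => by ring
  have h1 : ∀ J ∈ pws c m, bd (XH x C) m z J = 0 := by
    intro J hJ
    have h2 := 𝔼.indep k m (bd (XH x C) m z) (by rw [← h'.pair, ← hyz, hy]) J hJ
    exact gsub_ext (k := k - (dI d J + n)) (bd_mem XH_mem fun l _ => hz (insert l J))
      (zero_mem _) h2
  obtain ⟨z', hz', hbz⟩ := claimB (X := XH x C) (G := gsub (HH C P)) (d := d) XH_mem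
    (XH_comm comm C) (reg' reg) c m (k - n) z (fun I _ _ => by
      rw [← hG]
      exact hz I) (fun J hJ hJc => h1 J (mem_pws.2 ⟨hJ, by omega⟩))
  refine ⟨∑ I ∈ pws (c + 1 + 1) m, pair k (z' I) (𝔽.ι I), ?_⟩
  rw [h.pair, hyz]
  refine Finset.sum_congr rfl fun I hI => ?_
  rw [hbz I (mem_pws.1 hI).1 (mem_pws.1 hI).2]

end modp

section pi

variable {i : 𝟙_ 𝒯 ⟶ C} {δ : C ⟶ (𝟙_ 𝒯)⟦(1 : ℤ)⟧}
  (hC : Triangle.mk ((p : ℤ) • 𝟙 (𝟙_ 𝒯)) i δ ∈ distTriang 𝒯)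

include hC

/-- the homotopy of a `p`-complete object concentrated in the parity of `s` -/
theorem Conc.eq_zero {s : ℤ} {X : 𝒯} (h : Conc C s X) (hX : PComplete p X) {k : ℤ}
    (hk : Odd (k - s)) (f : (𝟙_ 𝒯)⟦k⟧ ⟶ X) : f = 0 :=
  hX.hom_eq_zero_of_mod hC (h k hk) f

theorem Conc.tf {s : ℤ} {X : 𝒯} (h : Conc C s X) {k : ℤ} (hk : Even (k - s))
    (f : (𝟙_ 𝒯)⟦k⟧ ⟶ X) (hf : (p : ℤ) • f = 0) : f = 0 :=
  torsionFree_of_red_shift hC k (k + 1) rfl (h (k + 1) (by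
    have := hk.add_one
    rwa [show k - s + 1 = k + 1 - s by ring] at this)) f hf

theorem Conc.lift {s : ℤ} {X : 𝒯} (h : Conc C s X) (hX : PComplete p X) {k : ℤ}
    (hk : Even (k - s)) (f : (𝟙_ 𝒯)⟦k⟧ ⟶ X ⊗ C) : ∃ g : (𝟙_ 𝒯)⟦k⟧ ⟶ X, g ≫ (redC i).app X = f := by
  refine exists_lift_of_torsionFree hC (fun g _ => ?_) f
  refine Conc.eq_zero hC h.shift (hX.shift 1) (k := k) ?_ g
  have := hk.sub_odd odd_one
  rwa [show k - s - 1 = k - (s + 1) by ring] at this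

/-- **Exactness of the Koszul complex on homotopy groups.** -/
theorem pi_exact (H : PHyp p C x) {n : ℤ} {c : ℕ} {Z W V : 𝒯}
    {𝔽 : FreeOn p C P d n (c + 1 + 1) Z} {𝔾 : FreeOn p C P d n (c + 1) W}
    {𝔼 : FreeOn p C P d n c V} {D : Z ⟶ W} {D' : W ⟶ V}
    (h : IsKos x 𝔽 𝔾 D) (h' : IsKos x 𝔾 𝔼 D') (k : ℤ) (y : (𝟙_ 𝒯)⟦k⟧ ⟶ W) (hy : y ≫ D' = 0) :
    ∃ z : (𝟙_ 𝒯)⟦k⟧ ⟶ Z, z ≫ D = y := by
  have cZ : Conc C n Z := 𝔽.conc H.even H.cP
  have cW : Conc C n W := 𝔾.conc H.even H.cP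
  have cV : Conc C n V := 𝔼.conc H.even H.cP
  rcases Int.even_or_odd (k - n) with hk | hk
  · refine dc_exact (dc_hom hC 𝔽.pc _) (dc_hom hC 𝔾.pc _)
      (Preadditive.rightComp ((𝟙_ 𝒯)⟦k⟧) D) (Preadditive.rightComp ((𝟙_ 𝒯)⟦k⟧) D')
      (fun y hy => ?_) y hy
    change y ≫ D' = 0 at hy
    obtain ⟨u, hu⟩ := modp_exact H.comm H.reg h h' k (y ≫ (redC i).app W) (by
      have h1 := (redC i).naturality D'
      change D' ≫ (redC i).app V = (redC i).app W ≫ (D' ▷ C) at h1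
      rw [Category.assoc, ← h1, ← Category.assoc, hy, zero_comp])
    obtain ⟨z, hz⟩ := Conc.lift hC cZ 𝔽.pc hk u
    obtain ⟨y', hy'⟩ := exists_zsmul_of_red hC (y - z ≫ D) (by
      have h1 := (redC i).naturality D
      change D ≫ (redC i).app W = (redC i).app Z ≫ (D ▷ C) at h1
      rw [Preadditive.sub_comp, Category.assoc, h1, ← Category.assoc, hz, hu, sub_self])
    refine ⟨z, y', ?_, ?_⟩
    · change y = z ≫ D + p • y'
      rw [← natCast_zsmul, hy', add_sub_cancel]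
    · change y' ≫ D' = 0
      refine Conc.tf hC cV hk _ ?_
      rw [← Preadditive.zsmul_comp, hy', Preadditive.sub_comp, Category.assoc,
        h.comp_zero H.comm h', comp_zero, hy, sub_zero]
  · exact ⟨0, by rw [zero_comp, Conc.eq_zero hC cW 𝔾.pc hk y]⟩

end pi

end Vale.Agent.P221.H246
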