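import Vale.Agent.P257.H80.HomTyp

/-!
# P221 (helper246): cocycle property of the series of pairs of monoid maps out of `MU`

* `ser_trans` : `ser u' u'' * ser u u' = ser u u''`, `ser_inv` : `(ser u u')⁻¹ = ser u' u`;
* `isHomog_ser` : the coefficients are homogeneous.
-/

open CategoryTheory MonoidalCategory MonObj Limits Pretriangulated

set_option linter.unusedSectionVars false

universe v u

namespace Vale.Agent.P221.H246

open Vale.Agent.P251 Vale.Agent.P251.S Vale.Agent.P251.T Vale.Agent.P251.M Vale.Agent.P251.F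
  Vale.Agent.P251.I EvenSpheres Vale.Agent.P257.H80

variable {T : Type u} [Category.{v} T] [Preadditive T] [HasZeroObject T]
    [HasShift T ℤ] [∀ n : ℤ, (shiftFunctor T n).Additive] [Pretriangulated T] [IsTriangulated T]
    [MonoidalCategory T] [SymmetricCategory T] [TensorTriangulated T] [MonoidalClosed T]
    [HasCoproducts.{0} T] [HasProducts.{0} T] [StableCat T]
  {D : MUData T} {K : T} [MonObj K] [IsCommMonObj K]

/-- the series of two vertices of `Am R (n + 1) ⟶ K` -/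
theorem ser_eq {n : ℕ} (h : Am D.R (n + 1) ⟶ K) [IsMonHom h] (i j : Fin (n + 1))
    (u u' : D.R ⟶ K) [IsMonHom u] [IsMonHom u'] (hi : Am.v D.R i ≫ h = u)
    (hj : Am.v D.R j ≫ h = u') :
    ser u u' = InvSeries.map ((HRing.map (E := stdEven T) h).comp (D.ev n))
      ((Cob.univ Laz n).g j * ((Cob.univ Laz n).g i)⁻¹) := by
  let α : Fin (1 + 1) → Fin (n + 1) := ![i, j]
  have h1 : Am.map D.R α ≫ h = pairM u u' := by
    apply eq_pairM
    · rw [← Category.assoc, Am.v_map]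
      exact hi
    · rw [← Category.assoc, Am.v_map]
      exact hj
  have h2 : ((Cob.univ Laz n).res α).g 1 =
      (Cob.univ Laz n).g j * ((Cob.univ Laz n).g i)⁻¹ := by
    rw [Chain.res_g]
    rfl
  have h3 : InvSeries.map (Cob.map (N := Laz) α) ((Cob.univ Laz 1).g 1) =
      (Cob.univ Laz n).g j * ((Cob.univ Laz n).g i)⁻¹ := by
    rw [← h2, Cob.map, ← Chain.map_g, Cob.univ_map_ev]
  rw [← h3, ser, MUData.strictIso]
  apply InvSeries.ext_c
  intro m
  rw [InvSeries.c_map, InvSeries.c_map, InvSeries.c_map, InvSeries.c_map, RingHom.comp_apply,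
    ← D.ev_map, ← RingHom.comp_apply (HRing.map h), ← HRing.map_comp, HRing_map_congr' h1]

theorem ser_trans (u u' u'' : D.R ⟶ K) [IsMonHom u] [IsMonHom u'] [IsMonHom u''] :
    ser u' u'' * ser u u' = ser u u'' := by
  have hf : ∀ i, IsMonHom ((![u, u', u''] : Fin (2 + 1) → (D.R ⟶ K)) i) := by
    intro i
    fin_cases i
    · exact ‹IsMonHom u›
    · exact ‹IsMonHom u'›
    · exact ‹IsMonHom u''›
  let h : Am D.R (2 + 1) ⟶ K := Am.lift ![u, u', u'']
  have hh : IsMonHom h := Am.isMonHom_lift _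
  have h0 : Am.v D.R (0 : Fin (2 + 1)) ≫ h = u := Am.v_lift ![u, u', u''] 0
  have h1 : Am.v D.R (1 : Fin (2 + 1)) ≫ h = u' := Am.v_lift ![u, u', u''] 1
  have h2 : Am.v D.R (2 : Fin (2 + 1)) ≫ h = u'' := Am.v_lift ![u, u', u''] 2
  rw [ser_eq h 1 2 u' u'' h1 h2, ser_eq h 0 1 u u' h0 h1, ser_eq h 0 2 u u'' h0 h2, ← map_mul]
  congr 1
  group

theorem ser_inv (u u' : D.R ⟶ K) [IsMonHom u] [IsMonHom u'] : (ser u u')⁻¹ = ser u' u := by
  rw [inv_eq_iff_mul_eq_one, ser_trans, ser_self]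

theorem isHomog_ser (u u' : D.R ⟶ K) [IsMonHom u] [IsMonHom u'] (i : ℕ) :
    IsHomog K ((i + 1 : ℕ) : ℤ) ((ser u u').c (i + 1)) := by
  have hw : Cob.IsWt ((i + 1 : ℕ) : ℤ) (MvPolynomial.X ((0 : Fin 1), i) : Cob Laz 1) :=
    Cob.isWt_X (0 : Fin 1) i
  obtain ⟨a, ha⟩ := D.ev_wt 1 _ _ hw
  exact ⟨a ≫ pairM u u', by rw [ser_c, ha, HRing.map_of]⟩

end Vale.Agent.P221.H246
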