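import Vale.Agent.P221.H246.Symbol
import Vale.Agent.P257.H604.Log

/-!
# P221: the symbol of `v_j`, integral version

No hypothesis `p = 0`: `I` is the ideal of all `v_i(F)`, `v_0 = p`.  For every law `G`, every strict
series `g` and `F = g • G`,
`v_j(G) = ∑ i ≤ j, v_i(F) T_{j-i}^{p^i}` modulo `I * (I + J)`.
-/

namespace Vale.Agent.P221.H246

open Vale.Agent.P217 Vale.Agent.P251.F

section SymbolZ

variable {A B : Type*} [CommRing A] [CommRing B]

theorem natCast_mem_Iv (p : ℕ) (F : Law B) : (p : B) ∈ Iv p F := by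
  rw [← vv_zero p F]
  exact vv_mem_Iv p 0 F

variable {p : ℕ} [hp : Fact p.Prime]

/-- A law with `yF = 0` over a ring with `p = 0` is additive. -/
theorem eq_addLaw_of_yF (hB : (p : B) = 0) (F : Law B) (hF : ∀ n, yF p F n = 0) :
    F = addLaw B := by
  refine law_ext_yF (p := p) hB fun n => ?_
  rw [hF]
  by_cases h : ∃ k, n + 2 = p ^ k
  · obtain ⟨k, hk⟩ := h
    rw [yF_eq_vv _ hk, Vale.Agent.P257.H604.vv_addLaw hB]
  · rw [yF_eq_xC _ h, xC]
    symm
    refine Finset.sum_eq_zero fun i hi => ?_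
    rw [Finset.mem_Ioo] at hi
    rw [addLaw_ps, map_add, MvPowerSeries.coeff_X, MvPowerSeries.coeff_X, if_neg, if_neg,
      add_zero, smul_zero]
    · intro h6
      have := congrArg (fun e : Fin 2 →₀ ℕ => e 0) h6
      simp only [e2_zero, Finsupp.single_apply] at this
      simp at this
      omega
    · intro h6
      have := congrArg (fun e : Fin 2 →₀ ℕ => e 1) h6
      simp only [e2_one, Finsupp.single_apply] at this
      simp at this
      omega

/-- Every law is additive modulo `I + J`. -/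
theorem map_mk_eq_addLaw (F : Law B) :
    F.map (Ideal.Quotient.mk (Iv p F ⊔ Jy p F)) = addLaw (B ⧸ (Iv p F ⊔ Jy p F)) := by
  have hB : ((p : ℕ) : B ⧸ (Iv p F ⊔ Jy p F)) = 0 := by
    rw [← map_natCast (Ideal.Quotient.mk (Iv p F ⊔ Jy p F))]
    exact Ideal.Quotient.eq_zero_iff_mem.2 (Ideal.mem_sup_left (natCast_mem_Iv p F))
  refine eq_addLaw_of_yF (p := p) hB _ fun n => ?_
  rw [← map_yF]
  refine Ideal.Quotient.eq_zero_iff_mem.2 ?_
  by_cases h : ∃ k, n + 2 = p ^ k
  · obtain ⟨k, hk⟩ := h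
    rw [yF_eq_vv _ hk]
    exact Ideal.mem_sup_left (vv_mem_Iv p k _)
  · exact Ideal.mem_sup_right (yF_mem_Jy _ h)

/-- the augmentation `Laz → ℤ` -/
noncomputable def aug : Laz →+* ℤ := Laz.lift (addLaw ℤ)

theorem sub_aug_mem (z : Laz) :
    z - ((aug z : ℤ) : Laz) ∈ Iv p Laz.univ ⊔ Jy p Laz.univ := by
  rw [← Ideal.Quotient.eq_zero_iff_mem, map_sub, sub_eq_zero]
  have h1 := congrArg (fun φ : Laz →+* _ => φ z)
    (Laz.lift_map_univ (Ideal.Quotient.mk (Iv p Laz.univ ⊔ Jy p Laz.univ)))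
  rw [map_mk_eq_addLaw] at h1
  have h2 : addLaw (Laz ⧸ (Iv p Laz.univ ⊔ Jy p Laz.univ)) =
      (addLaw ℤ).map (Int.castRingHom _) := by
    apply Law.ext_ps
    rw [Law.map_ps, addLaw_ps, addLaw_ps, map_add, MvPowerSeries.map_X, MvPowerSeries.map_X]
  rw [h2, ← Laz.comp_lift] at h1
  rw [map_intCast]
  exact h1.symm

/-- The coefficient of `x^m`, `m` not a power of `p`, in the `p`-series of the universal law. -/
theorem coeff_mem_Laz {m : ℕ} (hm : ¬ ∃ k, m = p ^ k) :
    PowerSeries.coeff m (multSeries Laz.univ.toFG p) ∈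
      Iv p Laz.univ * (Iv p Laz.univ ⊔ Jy p Laz.univ) := by
  set c := PowerSeries.coeff m (multSeries Laz.univ.toFG p) with hc
  set I := Iv p Laz.univ with hI
  set J := Jy p Laz.univ with hJ
  have h1 : toY p c ∈ (I * (I ⊔ J)).map (toY p) := by
    rw [Ideal.map_mul, Ideal.map_sup, hI, hJ, ← Iv_map, ← Jy_map, hc, ← PowerSeries.coeff_map,
      map_multSeries]
    exact coeff_mem_univ p hm
  obtain ⟨a, ha, hac⟩ := (Ideal.mem_map_iff_of_surjective _ (toY_surjective p)).1 h1
  have h2 : c - a ∈ RingHom.ker (toY p) := by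
    rw [RingHom.mem_ker, map_sub, hac, sub_self]
  rw [ker_toY, Ideal.mem_span_singleton] at h2
  obtain ⟨z, hz⟩ := h2
  -- augmentations
  have hc0 : aug c = 0 := by
    rw [hc, aug, ← PowerSeries.coeff_map, map_multSeries]
    have h3 : Laz.univ.toFG.map (Laz.lift (addLaw ℤ)) = (addLaw ℤ).toFG := by
      rw [← Law.map_toFG, Laz.univ_map_lift]
    have h4 : multSeries (Laz.univ.toFG.map (Laz.lift (addLaw ℤ))) p =
        multSeries (addLaw ℤ).toFG p := by rw [h3]
    rw [h4, Vale.Agent.P257.H604.multSeries_addLaw]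
    have h5 : (p : PowerSeries ℤ) = PowerSeries.C (p : ℤ) := (map_natCast _ _).symm
    rw [h5, PowerSeries.coeff_C_mul, PowerSeries.coeff_X, if_neg, mul_zero]
    rintro rfl
    exact hm ⟨0, by rw [pow_zero]⟩
  have hIa : I.map aug ≤ Ideal.span {(p : ℤ)} := by
    rw [hI, Iv, Ideal.map_span, Ideal.span_le]
    rintro _ ⟨_, ⟨i, rfl⟩, rfl⟩
    change aug (vv p i Laz.univ) ∈ Ideal.span {(p : ℤ)}
    rw [aug, ← vv_map, Laz.univ_map_lift, vv, Vale.Agent.P257.H604.multSeries_addLaw]
    have h5 : (p : PowerSeries ℤ) = PowerSeries.C (p : ℤ) := (map_natCast _ _).symm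
    rw [h5, PowerSeries.coeff_C_mul]
    exact Ideal.mul_mem_right _ _ (Ideal.mem_span_singleton_self _)
  have hJa : J.map aug ≤ Ideal.span {(p : ℤ)} := by
    rw [hJ, Jy, Ideal.map_span, Ideal.span_le]
    rintro _ ⟨_, ⟨m', hm', rfl⟩, rfl⟩
    rw [SetLike.mem_coe, aug, map_yF, Laz.univ_map_lift, yF_eq_xC _ hm', xC]
    have h6 : ∑ i ∈ Finset.Ioo 0 (m' + 2), lz m' i •
        MvPowerSeries.coeff (e2 i (m' + 2 - i)) (addLaw ℤ).ps = 0 := by
      refine Finset.sum_eq_zero fun i hi => ?_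
      rw [Finset.mem_Ioo] at hi
      rw [addLaw_ps, map_add, MvPowerSeries.coeff_X, MvPowerSeries.coeff_X, if_neg, if_neg,
        add_zero, smul_zero]
      · intro h6
        have := congrArg (fun e : Fin 2 →₀ ℕ => e 0) h6
        simp only [e2_zero, Finsupp.single_apply] at this
        simp at this
        omega
      · intro h6
        have := congrArg (fun e : Fin 2 →₀ ℕ => e 1) h6
        simp only [e2_one, Finsupp.single_apply] at this
        simp at this
        omega
    rw [h6]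
    exact Ideal.zero_mem _
  have haa : aug a ∈ Ideal.span {(p : ℤ)} * Ideal.span {(p : ℤ)} := by
    have h6 := Ideal.mem_map_of_mem aug ha
    rw [Ideal.map_mul, Ideal.map_sup] at h6
    exact Ideal.mul_mono hIa (sup_le hIa hJa) h6
  rw [Ideal.span_singleton_mul_span_singleton, Ideal.mem_span_singleton] at haa
  obtain ⟨b, hb⟩ := haa
  have hz' := congrArg aug hz
  rw [map_sub, hc0, zero_sub, hb, map_mul, map_natCast] at hz'
  have hp0 : (p : ℤ) ≠ 0 := by exact_mod_cast hp.out.ne_zero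
  have hz2 : aug z = p * (-b) := mul_left_cancel₀ hp0 (by rw [← hz']; ring)
  have hcz : c = a + (p : Laz) * (z - ((aug z : ℤ) : Laz)) +
      (p : Laz) * ((p : Laz) * ((-b : ℤ) : Laz)) := by
    have h7 : ((aug z : ℤ) : Laz) = (p : Laz) * ((-b : ℤ) : Laz) := by
      rw [hz2]
      push_cast
      ring
    rw [← h7]
    linear_combination hz
  rw [hcz]
  have hpI : (p : Laz) ∈ I := natCast_mem_Iv p _
  refine Ideal.add_mem _ (Ideal.add_mem _ ha ?_) ?_
  · exact Ideal.mul_mem_mul hpI (sub_aug_mem z)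
  · exact Ideal.mul_mem_mul hpI (Ideal.mem_sup_left (Ideal.mul_mem_right _ _ hpI))

theorem coeff_multSeries_memZ (F : Law B) {m : ℕ} (hm : ¬ ∃ k, m = p ^ k) :
    PowerSeries.coeff m (multSeries F.toFG p) ∈ Iv p F * (Iv p F ⊔ Jy p F) := by
  have h4 := Ideal.mem_map_of_mem (Laz.lift F) (coeff_mem_Laz (p := p) hm)
  rw [Ideal.map_mul, Ideal.map_sup, ← Iv_map, ← Jy_map, Laz.univ_map_lift,
    ← PowerSeries.coeff_map, map_multSeries] at h4
  change PowerSeries.coeff m (multSeries (Laz.univ.map (Laz.lift F)).toFG p) ∈ _ at h4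
  rwa [Laz.univ_map_lift] at h4

/-- powers modulo an ideal containing `p` -/
theorem coeff_pow_char_mem {I : Ideal B} (hI : (p : B) ∈ I) (g : PowerSeries B) (i n : ℕ) :
    PowerSeries.coeff n (g ^ (p ^ i)) -
      (if p ^ i ∣ n then PowerSeries.coeff (n / p ^ i) g ^ (p ^ i) else 0) ∈ I := by
  rw [← Ideal.Quotient.eq_zero_iff_mem]
  rcases subsingleton_or_nontrivial (B ⧸ I) with h1 | h1
  · exact Subsingleton.elim _ _
  have hB : ((p : ℕ) : B ⧸ I) = 0 := by
    rw [← map_natCast (Ideal.Quotient.mk I)]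
    exact Ideal.Quotient.eq_zero_iff_mem.2 hI
  have : CharP (B ⧸ I) p := (CharP.charP_iff_prime_eq_zero hp.out).2 hB
  rw [map_sub, ← PowerSeries.coeff_map, map_pow, coeff_pow_char]
  split_ifs
  · rw [PowerSeries.coeff_map, map_pow, sub_self]
  · rw [map_zero, sub_zero]

/-- **The symbol of `v_j`**, integral version. -/
theorem symbolZ (G : Law B) {g : InvSeries B} (hg : g ∈ strict B) (j : ℕ) :
    vv p j G - ∑ i ∈ Finset.range (j + 1), vv p i (g • G) * g.c (p ^ (j - i) - 1) ^ (p ^ i) ∈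
      Iv p (g • G) * (Iv p (g • G) ⊔ Jy p (g • G)) := by
  set F := g • G with hF
  set I := Iv p F with hI
  have hG : Iv p G = I := by rw [hI, hF, Iv_smul]
  have hpI : (p : B) ∈ I := natCast_mem_Iv p F
  set P := multSeries G.toFG p with hP
  set Q := multSeries F.toFG p with hQ
  have hPc : PowerSeries.constantCoeff P = 0 := constantCoeff_multSeries _ _
  have hPI : ∀ n, PowerSeries.coeff n P ∈ I := fun n => by
    rw [← hG]; exact coeff_multSeries_mem_Iv p G n
  have hQI : ∀ n, PowerSeries.coeff n Q ∈ I := fun n => coeff_multSeries_mem_Iv p F n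
  have hg1 : PowerSeries.coeff 1 g.val = 1 := mem_strict.1 hg
  have hg0 : PowerSeries.coeff 0 g.val = 0 := by
    rw [PowerSeries.coeff_zero_eq_constantCoeff_apply, g.cc]
  have hpj : 1 ≤ p ^ j := Nat.one_le_pow _ _ hp.out.pos
  -- the left side
  have hL : vv p j G - PowerSeries.coeff (p ^ j) (PowerSeries.subst P g.val : PowerSeries B) ∈
      I * (I ⊔ Jy p F) := by
    rw [coeff_subst_range hPc]
    obtain ⟨N, hN⟩ := Nat.exists_eq_add_of_le hpj
    have h2 : p ^ j + 1 = N + 1 + 1 := by omega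
    rw [h2, Finset.sum_range_succ', Finset.sum_range_succ', hg0, zero_mul, add_zero, zero_add,
      hg1, one_mul, pow_one]
    have h3 : vv p j G - (∑ d ∈ Finset.range N, PowerSeries.coeff (d + 1 + 1) g.val *
        PowerSeries.coeff (p ^ j) (P ^ (d + 1 + 1)) + PowerSeries.coeff (p ^ j) P) =
        -∑ d ∈ Finset.range N, PowerSeries.coeff (d + 1 + 1) g.val *
        PowerSeries.coeff (p ^ j) (P ^ (d + 1 + 1)) := by
      rw [vv, ← hP]
      ring
    rw [h3, Ideal.neg_mem_iff]
    refine Ideal.sum_mem _ fun d _ => Ideal.mul_mem_left _ _ ?_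
    exact Ideal.mul_mono_right le_sup_left (coeff_pow_mem hPI d (p ^ j))
  have hS : (PowerSeries.subst P g.val : PowerSeries B) = PowerSeries.subst g.val Q :=
    smul_multSeries g G p
  have hR : PowerSeries.coeff (p ^ j) (PowerSeries.subst g.val Q : PowerSeries B) -
      ∑ i ∈ Finset.range (j + 1), vv p i F * g.c (p ^ (j - i) - 1) ^ (p ^ i) ∈
      I * (I ⊔ Jy p F) := by
    have h2 : ∑ i ∈ Finset.range (j + 1), PowerSeries.coeff (p ^ i) Q *
        PowerSeries.coeff (p ^ j) (g.val ^ (p ^ i)) =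
        ∑ d ∈ (Finset.range (j + 1)).image (fun i => p ^ i),
          PowerSeries.coeff d Q * PowerSeries.coeff (p ^ j) (g.val ^ d) := by
      rw [Finset.sum_image (fun a _ b _ h => Nat.pow_right_injective hp.out.two_le h)]
    have h2' : ∑ i ∈ Finset.range (j + 1), PowerSeries.coeff (p ^ i) Q *
        PowerSeries.coeff (p ^ j) (g.val ^ (p ^ i)) -
        ∑ i ∈ Finset.range (j + 1), vv p i F * g.c (p ^ (j - i) - 1) ^ (p ^ i) ∈
        I * (I ⊔ Jy p F) := by
      rw [← Finset.sum_sub_distrib]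
      refine Ideal.sum_mem _ fun i hi => ?_
      rw [Finset.mem_range] at hi
      have h3 : p ^ i ∣ p ^ j := pow_dvd_pow p (by omega)
      have h4 := coeff_pow_char_mem hpI g.val i (p ^ j)
      rw [if_pos h3, Nat.pow_div (by omega) hp.out.pos] at h4
      have h5 : g.c (p ^ (j - i) - 1) = PowerSeries.coeff (p ^ (j - i)) g.val := by
        rw [InvSeries.c, Nat.sub_add_cancel (Nat.one_le_pow _ _ hp.out.pos)]
      have h6 : vv p i F = PowerSeries.coeff (p ^ i) Q := rfl
      rw [h5, h6, ← mul_sub]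
      exact Ideal.mul_mem_mul (hQI _) (Ideal.mem_sup_left h4)
    have h3 : (Finset.range (j + 1)).image (fun i => p ^ i) ⊆ Finset.range (p ^ j + 1) := by
      intro d hd
      rw [Finset.mem_image] at hd
      obtain ⟨i, hi, rfl⟩ := hd
      rw [Finset.mem_range] at hi ⊢
      have := Nat.pow_le_pow_right hp.out.pos (show i ≤ j by omega)
      omega
    have h7 : PowerSeries.coeff (p ^ j) (PowerSeries.subst g.val Q : PowerSeries B) -
        ∑ i ∈ Finset.range (j + 1), PowerSeries.coeff (p ^ i) Q *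
          PowerSeries.coeff (p ^ j) (g.val ^ (p ^ i)) ∈ I * (I ⊔ Jy p F) := by
      rw [coeff_subst_range g.cc, h2, ← Finset.sum_sdiff h3, add_sub_cancel_right]
      refine Ideal.sum_mem _ fun d hd => Ideal.mul_mem_right _ _ ?_
      rw [Finset.mem_sdiff, Finset.mem_range, Finset.mem_image] at hd
      refine coeff_multSeries_memZ F ?_
      rintro ⟨i, rfl⟩
      apply hd.2
      refine ⟨i, ?_, rfl⟩
      rw [Finset.mem_range]
      have h4 : p ^ i ≤ p ^ j := by omega
      have := (Nat.pow_le_pow_iff_right hp.out.one_lt).1 h4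
      omega
    have h8 := Ideal.add_mem _ h7 h2'
    rwa [sub_add_sub_cancel] at h8
  rw [← hS] at hR
  have h5 := Ideal.add_mem _ hL hR
  rwa [sub_add_sub_cancel] at h5

/-- The symbol for `F = strictMk b • G`: `T_0 = 1`, `T_k = b_{p^k - 2}` for `k ≥ 1`. -/
theorem symbolZ_strictMk (G : Law B) (b : ℕ → B) (j : ℕ) :
    vv p j G - (vv p j (strictMk b • G) + ∑ i ∈ Finset.range j,
      vv p i (strictMk b • G) * b (p ^ (j - i) - 2) ^ (p ^ i)) ∈
      Iv p (strictMk b • G) * (Iv p (strictMk b • G) ⊔ Jy p (strictMk b • G)) := by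
  have h1 := symbolZ (p := p) G (strictMk_mem b) j
  rw [Finset.sum_range_succ, Nat.sub_self, pow_zero, Nat.sub_self, c_zero_strictMk, one_pow,
    mul_one, add_comm] at h1
  have h2 : ∀ i ∈ Finset.range j, vv p i (strictMk b • G) *
      (strictMk b).c (p ^ (j - i) - 1) ^ (p ^ i) =
      vv p i (strictMk b • G) * b (p ^ (j - i) - 2) ^ (p ^ i) := by
    intro i hi
    rw [Finset.mem_range] at hi
    have h3 := two_le_pow hp.out (show j - i ≠ 0 by omega)
    rw [show p ^ (j - i) - 1 = (p ^ (j - i) - 2) + 1 by omega, c_succ_strictMk]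
  rwa [Finset.sum_congr rfl h2] at h1

end SymbolZ

end Vale.Agent.P221.H246
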