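import Vale.Agent.P221.H246.BPC
import Vale.Agent.P221.T.H817.Lin

/-!
# P221, part T (helper246): the classes `t^E` of `π_*(B ⊗ B)`

* `sI h : 𝟙⟦k⟧ ≅ S n`, `k = 2 n`; `tau p b E : 𝟙⟦dT p E⟧ ⟶ B ⊗ B`;
* `tau_zero`, `tau_mul` : `t^0 = 1`, the augmentation;
* `tau_basis` : `[B⟦k⟧, Y] = ∏_E π_{k + dT E} Y` for a `B`-module `Y`.
These are fields of `BPS`.
-/

open CategoryTheory MonoidalCategory MonObj Limits Pretriangulated

set_option linter.unusedSectionVars false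

universe v u

namespace Vale.Agent.P221.H246

open Vale.Agent.P251 Vale.Agent.P251.S Vale.Agent.P251.T Vale.Agent.P251.M Vale.Agent.P251.F
  Vale.Agent.P251.I EvenSpheres Vale.Agent.P257.H80 Vale.Agent.P093.Nak
  Vale.Agent.P093.N.HH

open Vale.Agent.P251.X hiding lawOf
open Vale.Agent.P221.T

variable {𝒯 : Type u} [Category.{0} 𝒯] [Preadditive 𝒯] [HasZeroObject 𝒯]
    [HasShift 𝒯 ℤ] [∀ n : ℤ, (shiftFunctor 𝒯 n).Additive] [Pretriangulated 𝒯] [IsTriangulated 𝒯]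
    [MonoidalCategory 𝒯] [SymmetricCategory 𝒯] [TensorTriangulated 𝒯] [MonoidalClosed 𝒯]
    [HasCoproducts.{0} 𝒯] [HasProducts.{0} 𝒯] [StableCat 𝒯]

/-! ### degrees -/

theorem dT_eq (p : ℕ) (E : ℕ →₀ ℕ) : dT p E = 2 * dB p E := by
  rw [dT, dB, Finsupp.weight_apply, Finsupp.weight_apply, Finsupp.sum, Finsupp.sum,
    Finset.mul_sum]
  refine Finset.sum_congr rfl fun j _ => ?_
  rw [sV, nsmul_eq_mul, nsmul_eq_mul]
  ring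

/-- `𝟙⟦k⟧ ≅ S n` for `k = 2 n` -/
noncomputable def sI {n k : ℤ} (h : k = 2 * n) : (𝟙_ 𝒯)⟦k⟧ ≅ (stdEven 𝒯).S n :=
  eqToIso (by rw [h]) ≪≫ (stdSph n).symm

theorem sI_rfl (n : ℤ) : (sI (𝒯 := 𝒯) (rfl : 2 * n = 2 * n)) = (stdSph n).symm := by
  unfold sI
  rw [eqToIso_refl, Iso.refl_trans]

/-- the even homotopy as a part of the homotopy -/
noncomputable def Fl (Y : 𝒯) : DirectSum ℤ ((stdEven 𝒯).Gr Y) →+ PiM Y :=
  DirectSum.toAddMonoid fun n => (PiM.of Y (2 * n)).comp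
    { toFun := fun x => (stdSph n).inv ≫ x
      map_zero' := comp_zero
      map_add' := fun _ _ => Preadditive.comp_add _ _ _ _ _ _ }

theorem Fl_of {Y : 𝒯} {n k : ℤ} (h : k = 2 * n) (x : (stdEven 𝒯).S n ⟶ Y) :
    Fl Y (DirectSum.of ((stdEven 𝒯).Gr Y) n x) = PiM.of Y k ((sI h).hom ≫ x) := by
  subst h
  rw [Fl, DirectSum.toAddMonoid_of, sI_rfl]
  rfl

/-- the identification in degree zero -/
theorem sI_zero : (sI (𝒯 := 𝒯) (rfl : (0 : ℤ) = 2 * 0)).hom = zr 𝒯 ≫ (stdEven 𝒯).zero.hom := by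
  have h1 : (stdSph (T := 𝒯) 0).inv = (shiftFunctorZero' 𝒯 (2 * 0 : ℤ) rfl).hom.app (𝟙_ 𝒯) ≫
      (ρ_ (𝟙_ 𝒯)).inv ≫ (λ_ (𝟙_ 𝒯)).hom := by
    change ((λ_ _).symm ≪≫ (rightUnitorNatIso 𝒯 ≪≫ (shiftFunctorZero' 𝒯 (2 * (0 : ℕ) : ℤ)
      (by simp)).symm).app (𝟙_ 𝒯)).inv = _
    simp
  have h2 : (shiftFunctorZero' 𝒯 (2 * 0 : ℤ) rfl).hom.app (𝟙_ 𝒯) = zr 𝒯 := by
    rw [shiftFunctorZero', Iso.trans_hom, eqToIso.hom, NatTrans.comp_app, eqToHom_app]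
    exact Category.id_comp _
  have h3 : (ρ_ (𝟙_ 𝒯)).inv ≫ (λ_ (𝟙_ 𝒯)).hom = (stdEven 𝒯).zero.hom := by
    rw [← unitors_inv_equal, Iso.inv_hom_id]
    rfl
  have h4 : (sI (𝒯 := 𝒯) (rfl : (0 : ℤ) = 2 * 0)).hom = (stdSph (T := 𝒯) 0).inv := by
    exact Category.id_comp _
  rw [h4, h1, h2, h3]
  rfl

/-! ### maps from shifted coproducts -/

theorem existsUnique_desc_shift {J : Type} (S : J → 𝒯) {Y : 𝒯} (k : ℤ) (y : ∀ j, (S j)⟦k⟧ ⟶ Y) :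
    ∃! d : (∐ S)⟦k⟧ ⟶ Y, ∀ j, (Sigma.ι S j)⟦k⟧' ≫ d = y j := by
  obtain ⟨H, hnat⟩ : ∃ H : ∀ X Z : 𝒯, (X⟦k⟧ ⟶ Z) ≃ (X ⟶ Z⟦-k⟧),
      ∀ (X X' Z : 𝒯) (f : X' ⟶ X) (g : X⟦k⟧ ⟶ Z), H X' Z (f⟦k⟧' ≫ g) = f ≫ H X Z g :=
    ⟨fun X Z => (shiftEquiv 𝒯 k).toAdjunction.homEquiv X Z, fun X X' Z f g =>
      (shiftEquiv 𝒯 k).toAdjunction.homEquiv_naturality_left f g⟩
  refine ⟨(H _ _).symm (Sigma.desc fun j => H _ _ (y j)), fun j => ?_, fun d hd => ?_⟩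
  · apply (H _ _).injective
    rw [hnat, Equiv.apply_symm_apply, Sigma.ι_desc]
  · apply (H _ _).injective
    rw [Equiv.apply_symm_apply]
    refine Sigma.hom_ext _ _ fun j => ?_
    rw [Sigma.ι_desc, ← hd j, hnat]

variable {D : MUData 𝒯} {F : SpaceFunctor 𝒯} {e : F.S.obj CCF ≅ (stdEven 𝒯).L}
  {p : ℕ} [hp : Fact p.Prime] {B : 𝒯} [MonObj B] [IsCommMonObj B] {b : D.R ⟶ B} [IsMonHom b]

variable (p b) in
/-- **the class `t^E`** -/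
noncomputable def tau (E : ℕ →₀ ℕ) : (𝟙_ 𝒯)⟦dT p E⟧ ⟶ B ⊗ B := (sI (dT_eq p E)).hom ≫ wS p b E

/-- `𝟙⟦k + dT E⟧ ≅ (S (dB E))⟦k⟧` -/
noncomputable def uI (p : ℕ) (k : ℤ) (E : ℕ →₀ ℕ) :
    (𝟙_ 𝒯)⟦k + dT p E⟧ ≅ ((stdEven 𝒯).S (dB p E))⟦k⟧ :=
  (shiftFunctorAdd' 𝒯 (dT p E) k (k + dT p E) (by omega)).app (𝟙_ 𝒯) ≪≫
    (shiftFunctor 𝒯 k).mapIso (sI (dT_eq p E))

theorem gc_tau {Y : 𝒯} (k : ℤ) (E : ℕ →₀ ℕ) (f : (B ⊗ B)⟦k⟧ ⟶ Y) :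
    gc rfl (tau p b E) f = (uI p k E).hom ≫ (wS p b E)⟦k⟧' ≫ f := by
  unfold gc tau uI
  rw [Functor.map_comp, Iso.trans_hom, Category.assoc, Category.assoc]
  rfl

/-- **`[B⟦k⟧, Y] = ∏_E π_{k + dT E} Y`** -/
theorem tau_basis (hD : MUUniv e D) (hb : IsBPMon p b) {Y : 𝒯} (M : ModStr B Y) (k : ℤ)
    (y : ∀ E : ℕ →₀ ℕ, (𝟙_ 𝒯)⟦k + dT p E⟧ ⟶ Y) :
    ∃! a : B⟦k⟧ ⟶ Y, ∀ E, gc rfl (tau p b E) (ext M a) = y E := by
  have hiso : IsIso (lin (ModStr.free B B) (Sigma.desc (wS p b))) :=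
    (isIso_desc_iff _ _).1 (rbB hD hb).isIso
  set L := lin (ModStr.free B B) (Sigma.desc (wS p b)) with hL
  have hlin : (ModStr.free B _).IsLinear (ModStr.free B B) L := lin_isLinear _ _
  have hlin' : (ModStr.free B B).IsLinear (ModStr.free B _) (inv L) := by
    have h1 : (ModStr.free B _).act ≫ L = (B ◁ L) ≫ (ModStr.free B B).act := hlin
    change (ModStr.free B B).act ≫ inv L = (B ◁ inv L) ≫ (ModStr.free B _).act
    rw [← cancel_mono L, Category.assoc, Category.assoc, IsIso.inv_hom_id, h1,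
      ← MonoidalCategory.whiskerLeft_comp_assoc, IsIso.inv_hom_id]
    simp
  have hun : ModStr.unitMap B _ ≫ L = Sigma.desc (wS p b) := un_lin _ _
  -- the extension of `a` in terms of the basis
  have hext : ∀ a : B⟦k⟧ ⟶ Y, L⟦k⟧' ≫ ext M a = ext M ((Sigma.desc (wS p b))⟦k⟧' ≫ ext M a) := by
    intro a
    rw [(IsLin.shift_comp hlin (ext_isLin M a)).eq_ext, ← Functor.map_comp_assoc, hun]
  have hι : ∀ (E : ℕ →₀ ℕ) (g : (B ⊗ B)⟦k⟧ ⟶ Y),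
      (Sigma.ι (fun E => (stdEven 𝒯).S (dB p E)) E)⟦k⟧' ≫ (Sigma.desc (wS p b))⟦k⟧' ≫ g =
        (wS p b E)⟦k⟧' ≫ g := by
    intro E g
    rw [← Functor.map_comp_assoc, Sigma.ι_desc]
  obtain ⟨d, hd, huniq⟩ := existsUnique_desc_shift (fun E => (stdEven 𝒯).S (dB p E)) k
    fun E => (uI p k E).inv ≫ y E
  have hg : IsLin (ModStr.free B B) M ((inv L)⟦k⟧' ≫ ext M d) :=
    IsLin.shift_comp hlin' (ext_isLin M d)
  have hLg : L⟦k⟧' ≫ (inv L)⟦k⟧' ≫ ext M d = ext M d := by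
    rw [← Functor.map_comp_assoc, IsIso.hom_inv_id, CategoryTheory.Functor.map_id,
      Category.id_comp]
  have hS : (Sigma.desc (wS p b))⟦k⟧' ≫ (inv L)⟦k⟧' ≫ ext M d = d := by
    rw [← hun, Functor.map_comp_assoc, hLg, unit_ext]
  refine ⟨(ModStr.unitMap B B)⟦k⟧' ≫ (inv L)⟦k⟧' ≫ ext M d, fun E => ?_, fun a ha => ?_⟩
  · have h1 : (wS p b E)⟦k⟧' ≫ (inv L)⟦k⟧' ≫ ext M d =
        (Sigma.ι (fun E => (stdEven 𝒯).S (dB p E)) E)⟦k⟧' ≫ d :=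
      (hι E _).symm.trans (congrArg (fun z => (Sigma.ι (fun E => (stdEven 𝒯).S (dB p E)) E)⟦k⟧' ≫ z)
        hS)
    rw [gc_tau, ← hg.eq_ext, h1, hd, Iso.hom_inv_id_assoc]
  · have h1 : (Sigma.desc (wS p b))⟦k⟧' ≫ ext M a = d := by
      apply huniq
      intro E
      rw [hι, ← ha E, gc_tau, Iso.inv_hom_id_assoc]
    have h2 : ext M a = (inv L)⟦k⟧' ≫ ext M d := by
      rw [← h1, ← hext a, ← Functor.map_comp_assoc, IsIso.inv_hom_id,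
        CategoryTheory.Functor.map_id, Category.id_comp]
    rw [← h2, unit_ext]

variable (p b) in
theorem Fl_wS (E : ℕ →₀ ℕ) :
    Fl (B ⊗ B) (Sm p b E) = PiM.of (B ⊗ B) (dT p E) (tau p b E) := by
  rw [← of_wS]
  exact Fl_of (dT_eq p E) (wS p b E)

/-- `t^0 = 1` -/
theorem tau_zero : PiM.of (B ⊗ B) _ (tau p b 0) =
    PiM.of (B ⊗ B) 0 (zr 𝒯 ≫ η[B] ≫ (λ_ B).inv ≫ (η[B] ▷ B)) := by
  have h1 : Sm p b 0 = HRing.of (stdEven 𝒯) (B ⊗ B) 0 ((stdEven 𝒯).zero.inv ≫ η[B ⊗ B]) := by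
    rw [of_one]
    exact Finsupp.prod_zero_index
  rw [← Fl_wS, h1]
  refine (Fl_of (rfl : (0 : ℤ) = 2 * 0) _).trans ?_
  rw [sI_zero, Category.assoc, Iso.hom_inv_id_assoc]
  congr 2
  rw [MonObj.tensorObj.one_def, leftUnitor_inv_naturality_assoc, ← tensorHom_def']

/-- the augmentation of `t^E` -/
theorem tau_mul (E : ℕ →₀ ℕ) (hE : E ≠ 0) : tau p b E ≫ μ[B] = 0 := by
  have h1 : HRing.map (E := stdEven 𝒯) μ[B] (Sm p b E) = 0 := by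
    obtain ⟨k, hk⟩ := Finsupp.ne_iff.1 hE
    rw [Sm, Finsupp.prod, map_prod]
    refine Finset.prod_eq_zero (Finsupp.mem_support_iff.2 hk) ?_
    have h2 : HRing.map (E := stdEven 𝒯) μ[B] (Scl p b k) = 0 := by
      have h3 : (b ≫ inrM B B) ≫ μ[B] = b := by
        rw [Category.assoc, inrM, Category.assoc, MonObj.one_mul, Iso.inv_hom_id,
          Category.comp_id]
      have h4 : (b ≫ inlM B B) ≫ μ[B] = b := by
        rw [Category.assoc, inlM, Category.assoc, MonObj.mul_one, Iso.inv_hom_id,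
          Category.comp_id]
      have h5 : 1 < p ^ (k + 1) := Nat.one_lt_pow (Nat.succ_ne_zero k) hp.out.one_lt
      have h6 : p ^ (k + 1) - 1 = (p ^ (k + 1) - 2) + 1 := by omega
      rw [Scl, ← InvSeries.c_map, thB, ← ser_comp, ser_congr h3 h4, ser_self, h6,
        InvSeries.c_one_succ]
    rw [map_pow, h2, zero_pow hk]
  rw [← of_wS, HRing.map_of] at h1
  have h3 : wS p b E ≫ μ[B] = 0 :=
    DirectSum.of_injective (β := (stdEven 𝒯).Gr B) _ (h1.trans (map_zero _).symm)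
  rw [tau, Category.assoc, h3, comp_zero]

end Vale.Agent.P221.H246
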