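import Vale.Agent.P221.St.ThickOf
import Vale.Agent.P221.H509.Result

/-!
# P221 (helper246): the theorem on fp-spectra, in terms of generated thick subcategories
-/

set_option linter.unusedSectionVars false

noncomputable section

namespace Vale.Agent.P221.H246

open Vale.Agent.P251.St Vale.Agent.P251.St.SHCat Vale.Agent.P257.St Vale.Agent.P221.St

variable {T : SHCat} {S : Susp T} {p n : ℕ}

/-- a thick subcategory which contains `Q` contains the thick subcategory generated by `Q` -/
theorem thick_of_thickOf {Q : T.C → Prop} {B : T.C} (h : ∀ Y, Q Y → Thick B Y) {X : T.C}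
    (hX : ThickOf Q X) : Thick B X := by
  induction hX with
  | base hY => exact h _ hY
  | zero h0 => exact Thick.zero h0
  | susp k _ ih => exact Thick.susp k ih
  | cof hd _ _ ih₁ ih₂ => exact Thick.cof hd ih₁ ih₂
  | retract i r hir _ ih => exact Thick.retract i r hir ih

theorem thickOf_of_thick {Q : T.C → Prop} {B : T.C} (h : Q B) {X : T.C} (hX : Thick B X) :
    ThickOf Q X := by
  induction hX with
  | base => exact ThickOf.base h
  | zero h0 => exact ThickOf.zero h0
  | susp k _ ih => exact ThickOf.susp k ih
  | cof hd _ _ ih₁ ih₂ => exact ThickOf.cof hd ih₁ ih₂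
  | retract i r hir _ ih => exact ThickOf.retract i r hir ih

theorem thickOf_mono {Q Q' : T.C → Prop} (h : ∀ Y, Q Y → ThickOf Q' Y) {X : T.C}
    (hX : ThickOf Q X) : ThickOf Q' X := by
  induction hX with
  | base hY => exact h _ hY
  | zero h0 => exact ThickOf.zero h0
  | susp k _ ih => exact ThickOf.susp k ih
  | cof hd _ _ ih₁ ih₂ => exact ThickOf.cof hd ih₁ ih₂
  | retract i r hir _ ih => exact ThickOf.retract i r hir ih

/-- **`Thick B` is the thick subcategory generated by `B` and all fp-spectra of fp-type at most `n`
which are homotopy modules over complex-oriented ring spectra.** -/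
theorem thick_iff_of (hp : p.Prime)
    (hT : ∀ B X : T.C, IsForm S p n B → IsBPFinite S p n X → Thick B X) {B : T.C}
    (hB : IsStandardForm S p n B) (X : T.C) :
    Thick B X ↔ ThickOf (fun Y => Y = B ∨ (IsFpType S p n Y ∧ IsOrModule S Y)) X := by
  refine ⟨thickOf_of_thick (Or.inl rfl), thick_of_thickOf ?_⟩
  rintro Y (rfl | ⟨hY, hM⟩)
  · exact Thick.base
  · exact H509.thick_of_isStandardForm_of hp hT hB hY Thick.base Thick.base hM

end Vale.Agent.P221.H246
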